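import Vale.Agent.P073.ConGlue

/-!
# P073 / H339: Jordan discs in the plane (topological part): uniqueness, nesting, crosscuts
-/

open Set Metric Topology Filter

namespace P073.H339

/-- `D` is a Jordan disc with boundary `C` (topological properties only) -/
structure JDisc (D C : Set (ℝ × ℝ)) : Prop where
  compact : IsCompact D
  frontier_eq : frontier D = C
  int_conn : IsPreconnected (interior D)
  int_ne : (interior D).Nonempty
  ext_conn : IsPreconnected Dᶜ
  closure_int : closure (interior D) = D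
  /-- locally the exterior is connected near each boundary point -/
  lts : ∀ x ∈ C, ∀ U ∈ 𝓝 x, ∃ V ∈ 𝓝 x, V ⊆ U ∧ IsPreconnected (V \ D)

namespace JDisc

variable {D C D₁ C₁ D₂ C₂ : Set (ℝ × ℝ)}

theorem isClosed (h : JDisc D C) : IsClosed D := h.compact.isClosed

theorem bdry_subset (h : JDisc D C) : C ⊆ D := h.frontier_eq ▸ h.isClosed.frontier_subset

theorem bdry_closed (h : JDisc D C) : IsClosed C := h.frontier_eq ▸ isClosed_frontier

theorem bdry_compact (h : JDisc D C) : IsCompact C :=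
  h.compact.of_isClosed_subset h.bdry_closed h.bdry_subset

theorem interior_eq (h : JDisc D C) : interior D = D \ C := by
  have := self_sdiff_frontier D
  rw [h.frontier_eq] at this
  exact this.symm

theorem interior_disj (h : JDisc D C) {x : ℝ × ℝ} (hx : x ∈ interior D) : x ∉ C := by
  rw [h.interior_eq] at hx; exact hx.2

theorem mem_interior (h : JDisc D C) {x : ℝ × ℝ} (hx : x ∈ D) (hxC : x ∉ C) : x ∈ interior D := by
  rw [h.interior_eq]; exact ⟨hx, hxC⟩

theorem not_bounded_compl (h : JDisc D C) : ¬ Bornology.IsBounded Dᶜ := by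
  intro hb
  have : Bornology.IsBounded (univ : Set (ℝ × ℝ)) := by
    rw [← union_compl_self D]
    exact h.compact.isBounded.union hb
  exact NormedSpace.unbounded_univ ℝ (ℝ × ℝ) this

/-- (K1) a preconnected set off the boundary is inside or outside -/
theorem in_or_out (h : JDisc D C) {S : Set (ℝ × ℝ)} (hS : IsPreconnected S) (hSC : Disjoint S C) :
    S ⊆ interior D ∨ Disjoint S D := by
  have hcov : S ⊆ interior D ∪ Dᶜ := by
    intro x hx
    by_cases hxD : x ∈ D
    · exact Or.inl (h.mem_interior hxD fun hc => (disjoint_left.1 hSC hx hc))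
    · exact Or.inr hxD
  have hdis : Disjoint (interior D) Dᶜ := disjoint_left.2 fun x hx hx' => hx' (interior_subset hx)
  rcases (isPreconnected_iff_subset_of_disjoint.1 hS) _ _ isOpen_interior
    h.isClosed.isOpen_compl hcov (by
      rw [hdis.inter_eq, inter_empty]) with h1 | h1
  · exact Or.inl h1
  · exact Or.inr (disjoint_left.2 fun x hx => h1 hx)

/-- (K2) an unbounded preconnected set off the boundary is outside -/
theorem out_of_unbounded (h : JDisc D C) {S : Set (ℝ × ℝ)} (hS : IsPreconnected S)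
    (hSC : Disjoint S C) (hun : ¬ Bornology.IsBounded S) : Disjoint S D := by
  rcases h.in_or_out hS hSC with h1 | h1
  · exact absurd (h.compact.isBounded.subset (h1.trans interior_subset)) hun
  · exact h1

/-- (K3) nesting -/
theorem subset_of_bdry (h : JDisc D C) (h₁ : JDisc D₁ C₁) (hC : C₁ ⊆ D) : D₁ ⊆ D := by
  have := h₁.out_of_unbounded h.ext_conn (disjoint_left.2 fun x hx hx' => hx (hC hx'))
    h.not_bounded_compl
  intro x hx
  by_contra hxD
  exact disjoint_left.1 this hxD hx

/-- uniqueness of the disc bounded by a curve -/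
theorem unique (h : JDisc D C) (h₁ : JDisc D₁ C) : D = D₁ :=
  Subset.antisymm (h₁.subset_of_bdry h h₁.bdry_subset) (h.subset_of_bdry h₁ h.bdry_subset)

/-- strict nesting: a disc whose boundary is in the interior is in the interior -/
theorem subset_interior_of_bdry (h : JDisc D C) (h₁ : JDisc D₁ C₁) (hC : C₁ ⊆ interior D) :
    D₁ ⊆ interior D := by
  have hsub := h.subset_of_bdry h₁ (hC.trans interior_subset)
  intro x hx
  apply h.mem_interior (hsub hx)
  intro hxC
  -- x in frontier D, x in D₁; x not in C₁ so interior point of D₁ ⊆ D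
  have hx1 : x ∉ C₁ := fun h' => h.interior_disj (hC h') hxC
  have hx2 := h₁.mem_interior hx hx1
  have hx3 : x ∈ interior D := interior_mono hsub hx2
  exact h.interior_disj hx3 hxC

/-- the boundary is in the closure of the exterior -/
theorem bdry_subset_closure_compl (h : JDisc D C) : C ⊆ closure Dᶜ := by
  rw [← h.frontier_eq, frontier_eq_closure_inter_closure]
  exact inter_subset_right

/-- **Crosscut theorem.**  `C = A₁ ∪ A₂` bounds `D`, `α` is a crosscut with the same end points,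
`A₁ ∪ α` bounds `D₁`, `A₂ ∪ α` bounds `D₂`. -/
theorem crosscut {A₁ A₂ α : Set (ℝ × ℝ)} {a b : ℝ × ℝ}
    (h : JDisc D (A₁ ∪ A₂)) (h₁ : JDisc D₁ (A₁ ∪ α)) (h₂ : JDisc D₂ (A₂ ∪ α))
    (hαD : α ⊆ D) (hαA₁ : α ∩ A₁ ⊆ {a, b}) (hαA₂ : α ∩ A₂ ⊆ {a, b}) (hA : A₁ ∩ A₂ ⊆ {a, b})
    (ha : a ∈ α) (hb : b ∈ α) (hne₁ : ¬ A₁ ⊆ {a, b}) (hne₂ : ¬ A₂ ⊆ {a, b})
    (hA₁ : IsClosed A₁) (hA₂ : IsClosed A₂) :
    D = D₁ ∪ D₂ ∧ D₁ ∩ D₂ = α ∧ A₂ ∩ D₁ ⊆ {a, b} ∧ A₁ ∩ D₂ ⊆ {a, b} := by
  have hAD : A₁ ∪ A₂ ⊆ D := h.bdry_subset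
  have hab : ({a, b} : Set (ℝ × ℝ)) ⊆ α := by
    rintro x (rfl | rfl)
    · exact ha
    · exact hb
  have s1 : D₁ ⊆ D := h.subset_of_bdry h₁ (union_subset (subset_union_left.trans hAD) hαD)
  have s2 : D₂ ⊆ D := h.subset_of_bdry h₂ (union_subset (subset_union_right.trans hAD) hαD)
  -- the other arcs are outside
  have o1 : A₂ ∩ D₁ ⊆ {a, b} := by
    rintro x ⟨hx, hxD⟩
    by_contra hxab
    have hx1 : x ∉ A₁ ∪ α := by
      rintro (h' | h')
      · exact hxab (hA ⟨h', hx⟩)
      · exact hxab (hαA₂ ⟨h', hx⟩)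
    have hxi : x ∈ interior D := interior_mono s1 (h₁.mem_interior hxD hx1)
    exact h.interior_disj hxi (Or.inr hx)
  have o2 : A₁ ∩ D₂ ⊆ {a, b} := by
    rintro x ⟨hx, hxD⟩
    by_contra hxab
    have hx1 : x ∉ A₂ ∪ α := by
      rintro (h' | h')
      · exact hxab (hA ⟨hx, h'⟩)
      · exact hxab (hαA₁ ⟨h', hx⟩)
    have hxi : x ∈ interior D := interior_mono s2 (h₂.mem_interior hxD hx1)
    exact h.interior_disj hxi (Or.inl hx)
  -- disjoint interiors
  have d1 : Disjoint (interior D₁) D₂ := by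
    have hdis : Disjoint (interior D₁) (A₂ ∪ α) := by
      rw [disjoint_left]
      intro x hx hx'
      have hxα : x ∉ α := fun h' => h₁.interior_disj hx (Or.inr h')
      rcases hx' with h' | h'
      · exact hxα (hab (o1 ⟨h', interior_subset hx⟩))
      · exact hxα h'
    rcases h₂.in_or_out h₁.int_conn hdis with h' | h'
    · exfalso
      apply hne₁
      have : D₁ ⊆ D₂ := by
        rw [← h₁.closure_int, ← h₂.closure_int]
        exact closure_mono h'
      intro x hx
      exact o2 ⟨hx, this (h₁.bdry_subset (Or.inl hx))⟩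
    · exact h'
  have d2 : Disjoint (interior D₂) D₁ := by
    have hdis : Disjoint (interior D₂) (A₁ ∪ α) := by
      rw [disjoint_left]
      intro x hx hx'
      have hxα : x ∉ α := fun h' => h₂.interior_disj hx (Or.inr h')
      rcases hx' with h' | h'
      · exact hxα (hab (o2 ⟨h', interior_subset hx⟩))
      · exact hxα h'
    rcases h₁.in_or_out h₂.int_conn hdis with h' | h'
    · exfalso
      apply hne₂
      have : D₂ ⊆ D₁ := by
        rw [← h₁.closure_int, ← h₂.closure_int]
        exact closure_mono h'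
      intro x hx
      exact o1 ⟨hx, this (h₂.bdry_subset (Or.inl hx))⟩
    · exact h'
  have hint : D₁ ∩ D₂ = α := by
    apply Subset.antisymm
    · rintro x ⟨hx1, hx2⟩
      have hx1' : x ∈ A₁ ∪ α := by
        by_contra hc
        exact disjoint_left.1 d1 (h₁.mem_interior hx1 hc) hx2
      have hx2' : x ∈ A₂ ∪ α := by
        by_contra hc
        exact disjoint_left.1 d2 (h₂.mem_interior hx2 hc) hx1
      rcases hx1' with h' | h'
      · rcases hx2' with h'' | h''
        · exact hab (hA ⟨h', h''⟩)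
        · exact h''
      · exact h'
    · intro x hx
      exact ⟨h₁.bdry_subset (Or.inr hx), h₂.bdry_subset (Or.inr hx)⟩
  refine ⟨Subset.antisymm ?_ (union_subset s1 s2), hint, o1, o2⟩
  -- D ⊆ D₁ ∪ D₂
  have hopen : ∀ x ∈ interior D, x ∈ D₁ ∪ D₂ → x ∈ interior (D₁ ∪ D₂) := by
    intro x hxi hx
    by_cases hx1 : x ∈ interior D₁
    · exact interior_mono subset_union_left hx1
    by_cases hx2 : x ∈ interior D₂
    · exact interior_mono subset_union_right hx2
    have hxA : x ∉ A₁ ∪ A₂ := h.interior_disj hxi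
    have hxα : x ∈ α := by
      rcases hx with hx | hx
      · have : x ∈ A₁ ∪ α := by
          by_contra hc; exact hx1 (h₁.mem_interior hx hc)
        rcases this with h' | h'
        · exact absurd (Or.inl h') hxA
        · exact h'
      · have : x ∈ A₂ ∪ α := by
          by_contra hc; exact hx2 (h₂.mem_interior hx hc)
        rcases this with h' | h'
        · exact absurd (Or.inr h') hxA
        · exact h'
    have hU : (A₁ ∪ A₂)ᶜ ∈ 𝓝 x := (hA₁.union hA₂).isOpen_compl.mem_nhds hxA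
    obtain ⟨V, hV, hVU, hVc⟩ := h₁.lts x (Or.inr hxα) _ hU
    have hdis : Disjoint (V \ D₁) (A₂ ∪ α) := by
      rw [disjoint_left]
      rintro y ⟨hyV, hyD⟩ (h' | h')
      · exact hVU hyV (Or.inr h')
      · exact hyD (h₁.bdry_subset (Or.inr h'))
    rw [mem_interior_iff_mem_nhds]
    rcases h₂.in_or_out hVc hdis with h' | h'
    · filter_upwards [hV] with y hy
      by_cases hyD : y ∈ D₁
      · exact Or.inl hyD
      · exact Or.inr (interior_subset (h' ⟨hy, hyD⟩))
    · exfalso
      have hx2' : x ∈ closure (interior D₂) := by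
        rw [h₂.closure_int]; exact h₂.bdry_subset (Or.inr hxα)
      obtain ⟨y, hyV, hyI⟩ := mem_closure_iff_nhds.1 hx2' V hV
      by_cases hyD : y ∈ D₁
      · exact disjoint_left.1 d2 hyI hyD
      · exact disjoint_left.1 h' ⟨hyV, hyD⟩ (interior_subset hyI)
  have hclosed : IsClosed (D₁ ∪ D₂) := h₁.isClosed.union h₂.isClosed
  have hsub : interior D ⊆ D₁ ∪ D₂ := by
    have hcov : interior D ⊆ interior (D₁ ∪ D₂) ∪ (D₁ ∪ D₂)ᶜ := by
      intro x hx
      by_cases hx' : x ∈ D₁ ∪ D₂
      · exact Or.inl (hopen x hx hx')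
      · exact Or.inr hx'
    have hdis : interior (D₁ ∪ D₂) ∩ (D₁ ∪ D₂)ᶜ = ∅ := by
      rw [← disjoint_iff_inter_eq_empty, disjoint_left]
      exact fun x hx hx' => hx' (interior_subset hx)
    rcases (isPreconnected_iff_subset_of_disjoint.1 h.int_conn) _ _ isOpen_interior
      hclosed.isOpen_compl hcov (by rw [hdis, inter_empty]) with h' | h'
    · exact h'.trans interior_subset
    · exfalso
      obtain ⟨x, hx⟩ := h₁.int_ne
      exact h' (interior_mono s1 hx) (Or.inl (interior_subset hx))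
  rw [← h.closure_int]
  exact closure_minimal hsub hclosed

end JDisc

/-! ### The standard disc -/

theorem isPreconnected_box_diff {y : ℝ × ℝ} {ρ : ℝ} (hρ : ρ ≤ 1) :
    IsPreconnected (ball y ρ \ closedBall (0 : ℝ × ℝ) 1) := by
  -- one-dimensional pieces
  have h1 : ∀ c : ℝ, IsPreconnected (ball c ρ \ closedBall (0:ℝ) 1) := by
    intro c
    rw [Real.ball_eq_Ioo, Real.closedBall_eq_Icc]
    rcases le_total 0 c with hc | hc
    · have : Ioo (c - ρ) (c + ρ) \ Icc (0 - 1) (0 + 1) = Ioo (max (c - ρ) 1) (c + ρ) := by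
        ext x
        simp only [Set.mem_sdiff, mem_Ioo, mem_Icc, max_lt_iff, not_and, not_le]
        constructor
        · rintro ⟨⟨h1, h2⟩, h3⟩
          exact ⟨⟨h1, by have := h3 (by linarith); linarith⟩, h2⟩
        · rintro ⟨⟨h1, h2⟩, h3⟩
          exact ⟨⟨h1, h3⟩, fun _ => by linarith⟩
      rw [this]; exact isPreconnected_Ioo
    · have : Ioo (c - ρ) (c + ρ) \ Icc (0 - 1) (0 + 1) = Ioo (c - ρ) (min (c + ρ) (-1)) := by
        ext x
        simp only [Set.mem_sdiff, mem_Ioo, mem_Icc, lt_min_iff, not_and, not_le]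
        constructor
        · rintro ⟨⟨h1, h2⟩, h3⟩
          refine ⟨h1, h2, ?_⟩
          by_contra h4
          have := h3 (by linarith)
          linarith
        · rintro ⟨h1, h2, h3⟩
          exact ⟨⟨h1, h2⟩, fun h4 => by linarith⟩
      rw [this]; exact isPreconnected_Ioo
  have hball : ∀ c : ℝ, IsPreconnected (ball c ρ) := fun c => (convex_ball c ρ).isPreconnected
  have hsplit : ball y ρ \ closedBall (0 : ℝ × ℝ) 1 =
      ((ball y.1 ρ \ closedBall (0:ℝ) 1) ×ˢ ball y.2 ρ) ∪
      (ball y.1 ρ ×ˢ (ball y.2 ρ \ closedBall (0:ℝ) 1)) := by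
    have e1 : ball y ρ = ball y.1 ρ ×ˢ ball y.2 ρ := (ball_prod_same y.1 y.2 ρ).symm
    have e2 : closedBall (0 : ℝ × ℝ) 1 = closedBall (0:ℝ) 1 ×ˢ closedBall (0:ℝ) 1 :=
      (closedBall_prod_same (0:ℝ) (0:ℝ) 1).symm
    rw [e1, e2]
    ext p
    simp only [Set.mem_sdiff, mem_prod, mem_union, not_and]
    tauto
  rw [hsplit]
  by_cases hne1 : (ball y.1 ρ \ closedBall (0:ℝ) 1).Nonempty
  · by_cases hne2 : (ball y.2 ρ \ closedBall (0:ℝ) 1).Nonempty
    · obtain ⟨s, hs⟩ := hne1
      obtain ⟨t, ht⟩ := hne2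
      refine IsPreconnected.union (s, t) ⟨hs, ht.1⟩ ⟨hs.1, ht⟩ ((h1 _).prod (hball _))
        ((hball _).prod (h1 _))
    · rw [not_nonempty_iff_eq_empty.1 hne2, prod_empty, union_empty]
      exact (h1 _).prod (hball _)
  · rw [not_nonempty_iff_eq_empty.1 hne1, empty_prod, empty_union]
    exact (hball _).prod (h1 _)

theorem isPreconnected_compl_closedBall_prod : IsPreconnected (closedBall (0 : ℝ × ℝ) 1)ᶜ := by
  have hrank : 1 < Module.rank ℝ (ℝ × ℝ) := by
    rw [rank_prod']
    simp only [Module.rank_self]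
    norm_num
  have h1 : IsPreconnected (Ioi (1:ℝ) ×ˢ sphere (0 : ℝ × ℝ) 1) :=
    isPreconnected_Ioi.prod (isPreconnected_sphere hrank 0 1)
  have h2 : (closedBall (0 : ℝ × ℝ) 1)ᶜ =
      (fun p : ℝ × (ℝ × ℝ) => p.1 • p.2) '' (Ioi (1:ℝ) ×ˢ sphere (0 : ℝ × ℝ) 1) := by
    ext x
    constructor
    · intro hx
      rw [mem_compl_iff, mem_closedBall_zero_iff, not_le] at hx
      have hpos : 0 < ‖x‖ := by linarith
      refine ⟨(‖x‖, ‖x‖⁻¹ • x), ⟨hx, ?_⟩, ?_⟩
      · rw [mem_sphere_zero_iff_norm, norm_smul, norm_inv, norm_norm, inv_mul_cancel₀ hpos.ne']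
      · show ‖x‖ • ‖x‖⁻¹ • x = x
        rw [smul_smul, mul_inv_cancel₀ hpos.ne', one_smul]
    · rintro ⟨⟨s, y⟩, ⟨hs, hy⟩, rfl⟩
      rw [mem_sphere_zero_iff_norm] at hy
      rw [mem_compl_iff, mem_closedBall_zero_iff, not_le]
      show 1 < ‖s • y‖
      have hs' : (1:ℝ) < s := hs
      rw [norm_smul, hy, mul_one, Real.norm_of_nonneg (by linarith)]
      exact hs'
  rw [h2]
  exact h1.image _ (by fun_prop)

theorem jdisc_std : JDisc (closedBall (0 : ℝ × ℝ) 1) (sphere 0 1) where
  compact := isCompact_closedBall _ _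
  frontier_eq := frontier_closedBall _ one_ne_zero
  int_conn := by
    rw [interior_closedBall _ one_ne_zero]; exact (convex_ball _ _).isPreconnected
  int_ne := by
    rw [interior_closedBall _ one_ne_zero]; exact nonempty_ball.2 one_pos
  ext_conn := isPreconnected_compl_closedBall_prod
  closure_int := by
    rw [interior_closedBall _ one_ne_zero, closure_ball _ one_ne_zero]
  lts := by
    intro x _ U hU
    obtain ⟨ρ, hρ, hb⟩ := Metric.mem_nhds_iff.1 hU
    exact ⟨ball x (min ρ 1), ball_mem_nhds _ (lt_min hρ one_pos),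
      (ball_subset_ball (min_le_left _ _)).trans hb, isPreconnected_box_diff (min_le_right _ _)⟩

/-- image of a Jordan disc under a homeomorphism of the plane -/
theorem JDisc.image {D C : Set (ℝ × ℝ)} (h : JDisc D C) (e : (ℝ × ℝ) ≃ₜ (ℝ × ℝ)) :
    JDisc (e '' D) (e '' C) where
  compact := h.compact.image e.continuous
  frontier_eq := by rw [← e.image_frontier, h.frontier_eq]
  int_conn := by rw [← e.image_interior]; exact h.int_conn.image _ e.continuous.continuousOn
  int_ne := by rw [← e.image_interior]; exact h.int_ne.image _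
  ext_conn := by rw [← image_compl_eq e.bijective]; exact h.ext_conn.image _ e.continuous.continuousOn
  closure_int := by rw [← e.image_interior, ← e.image_closure, h.closure_int]
  lts := by
    rintro _ ⟨x, hx, rfl⟩ U hU
    obtain ⟨V, hV, hVU, hVc⟩ := h.lts x hx (e ⁻¹' U) (e.continuous.continuousAt hU)
    refine ⟨e '' V, e.isOpenMap.image_mem_nhds hV, ?_, ?_⟩
    · rintro _ ⟨y, hy, rfl⟩; exact hVU hy
    · rw [← image_sdiff e.injective]; exact hVc.image _ e.continuous.continuousOn

/-- the homeomorphism underlying an ambient conical homeomorphism -/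
noncomputable def toHomeo {E F : Type*} [NormedAddCommGroup E] [NormedSpace ℝ E]
    [NormedAddCommGroup F] [NormedSpace ℝ F] (Φ : ConHomeo (univ : Set E) (univ : Set F)) :
    E ≃ₜ F where
  toFun := Φ.toFun
  invFun := Φ.invFun
  left_inv := fun x => Φ.left_inv (mem_univ x)
  right_inv := fun y => Φ.right_inv (mem_univ y)
  continuous_toFun := continuousOn_univ.1 Φ.cont
  continuous_invFun := continuousOn_univ.1 Φ.cont_inv

@[simp] theorem toHomeo_apply {E F : Type*} [NormedAddCommGroup E] [NormedSpace ℝ E]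
    [NormedAddCommGroup F] [NormedSpace ℝ F] (Φ : ConHomeo (univ : Set E) (univ : Set F)) (x : E) :
    toHomeo Φ x = Φ.toFun x := rfl

/-- ambient conical disc: `D` with boundary `C` is the image of the standard disc under an ambient
conical homeomorphism -/
def AmbDisc (D C : Set (ℝ × ℝ)) : Prop :=
  ∃ Φ : ConHomeo (univ : Set (ℝ × ℝ)) (univ : Set (ℝ × ℝ)),
    Φ.toFun '' closedBall 0 1 = D ∧ Φ.toFun '' sphere 0 1 = C

theorem AmbDisc.jdisc {D C : Set (ℝ × ℝ)} (h : AmbDisc D C) : JDisc D C := by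
  obtain ⟨Φ, rfl, rfl⟩ := h
  exact jdisc_std.image (toHomeo Φ)

theorem AmbDisc.unique {D D' C : Set (ℝ × ℝ)} (h : AmbDisc D C) (h' : AmbDisc D' C) : D = D' :=
  h.jdisc.unique h'.jdisc

theorem AmbDisc.image {D C : Set (ℝ × ℝ)} (h : AmbDisc D C)
    (Ψ : ConHomeo (univ : Set (ℝ × ℝ)) (univ : Set (ℝ × ℝ))) :
    AmbDisc (Ψ.toFun '' D) (Ψ.toFun '' C) := by
  obtain ⟨Φ, rfl, rfl⟩ := h
  exact ⟨Φ.trans Ψ, by rw [image_image]; rfl, by rw [image_image]; rfl⟩

end P073.H339
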