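import Vale.Agent.P073.H339.Push
import Vale.Agent.P073.H339.JDisc
import Vale.Agent.P073.SCH.Arc

/-!
# P073 / H339: conical discs: models, gluing of two discs along an arc
-/

open Set Metric Topology Filter

namespace P073.H339


variable {E F : Type*} [NormedAddCommGroup E] [NormedSpace ℝ E]
  [NormedAddCommGroup F] [NormedSpace ℝ F]

/-! ### `ℝ × ℝ` and `Fin 2 → ℝ` -/

theorem norm_pair (x y : ℝ) : ‖(![x, y] : Fin 2 → ℝ)‖ = max |x| |y| := by
  apply le_antisymm
  · rw [pi_norm_le_iff_of_nonneg (le_max_of_le_left (abs_nonneg x))]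
    intro i
    fin_cases i
    · exact le_max_left _ _
    · exact le_max_right _ _
  · apply max_le
    · exact norm_le_pi_norm (![x, y] : Fin 2 → ℝ) 0
    · exact norm_le_pi_norm (![x, y] : Fin 2 → ℝ) 1

theorem norm_fin2 (v : Fin 2 → ℝ) : ‖(v 0, v 1)‖ = ‖v‖ := by
  have : v = ![v 0, v 1] := by ext i; fin_cases i <;> rfl
  rw [this, norm_pair, Prod.norm_def]
  rfl

/-- the linear homeomorphism `(x, y) ↦ ![x, y]` -/
noncomputable def pairHomeo : ConHomeo (univ : Set (ℝ × ℝ)) (univ : Set (Fin 2 → ℝ)) where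
  toFun := fun p => ![p.1, p.2]
  invFun := fun v => (v 0, v 1)
  mapsTo := mapsTo_univ _ _
  mapsTo_inv := mapsTo_univ _ _
  left_inv := fun p _ => rfl
  right_inv := fun v _ => by ext i; fin_cases i <;> rfl
  cont := by
    apply Continuous.continuousOn
    apply continuous_pi
    intro i
    fin_cases i
    · exact continuous_fst
    · exact continuous_snd
  cont_inv := by
    apply Continuous.continuousOn
    fun_prop
  conical := by
    intro x hx
    refine conicalWithinAt_pi (IsOpen.conicalSet isOpen_univ x hx) fun i => ?_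
    fin_cases i
    · exact conicalOn_fst' x hx
    · exact conicalOn_snd' x hx

theorem pairHomeo_norm (p : ℝ × ℝ) : ‖pairHomeo.toFun p‖ = ‖p‖ := by
  show ‖(![p.1, p.2] : Fin 2 → ℝ)‖ = ‖p‖
  rw [norm_pair, Prod.norm_def]; rfl

theorem pairHomeo_inv_norm (v : Fin 2 → ℝ) : ‖pairHomeo.invFun v‖ = ‖v‖ := norm_fin2 v

theorem pairHomeo_image_closedBall (r : ℝ) :
    pairHomeo.toFun '' closedBall 0 r = closedBall (0 : Fin 2 → ℝ) r := by
  ext v
  rw [mem_closedBall_zero_iff]
  constructor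
  · rintro ⟨p, hp, rfl⟩
    rw [pairHomeo_norm]; exact mem_closedBall_zero_iff.1 hp
  · intro hv
    exact ⟨pairHomeo.invFun v, by rw [mem_closedBall_zero_iff, pairHomeo_inv_norm]; exact hv,
      pairHomeo.right_inv (mem_univ v)⟩

theorem pairHomeo_image_sphere (r : ℝ) :
    pairHomeo.toFun '' sphere 0 r = sphere (0 : Fin 2 → ℝ) r := by
  ext v
  rw [mem_sphere_zero_iff_norm]
  constructor
  · rintro ⟨p, hp, rfl⟩
    rw [pairHomeo_norm]; exact mem_sphere_zero_iff_norm.1 hp
  · intro hv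
    exact ⟨pairHomeo.invFun v, by rw [mem_sphere_zero_iff_norm, pairHomeo_inv_norm]; exact hv,
      pairHomeo.right_inv (mem_univ v)⟩

theorem conicalSet_closedBall_prod (r : ℝ) : ConicalSet (closedBall (0 : ℝ × ℝ) r) :=
  Convex.conicalSet (convex_closedBall _ _)

theorem conicalSet_sphere_prod : ConicalSet (sphere (0 : ℝ × ℝ) 1) := by
  have h : pairHomeo.symm.toFun '' sphere (0 : Fin 2 → ℝ) 1 = sphere (0 : ℝ × ℝ) 1 := by
    rw [← pairHomeo_image_sphere, image_image]
    have : ∀ x ∈ sphere (0 : ℝ × ℝ) 1, pairHomeo.symm.toFun (pairHomeo.toFun x) = x :=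
      fun x _ => pairHomeo.left_inv (mem_univ x)
    rw [image_congr this, image_id']
  rw [← h]
  exact pairHomeo.symm.conicalSet_image (conicalSet_sphere_pi 2) (subset_univ _)

theorem conBall_std : ConBall 2 (closedBall (0 : ℝ × ℝ) 1) (sphere 0 1) :=
  ⟨sphere_subset_closedBall,
    (pairHomeo.restr (conicalSet_closedBall_prod 1) (subset_univ _)).cast rfl
      (pairHomeo_image_closedBall 1), pairHomeo_image_sphere 1⟩

theorem conSphere_iff {C : Set E} : ConSphere 1 C ↔ IsCircle C := by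
  have φ : ConHomeo (sphere (0 : ℝ × ℝ) 1) (sphere (0 : Fin 2 → ℝ) 1) :=
    (pairHomeo.restr conicalSet_sphere_prod (subset_univ _)).cast rfl (pairHomeo_image_sphere 1)
  constructor
  · rintro ⟨ψ⟩; exact ⟨φ.trans ψ.symm⟩
  · rintro ⟨ψ⟩; exact ⟨ψ.symm.trans φ⟩

theorem AmbDisc.conBall {D C : Set (ℝ × ℝ)} (h : AmbDisc D C) : ConBall 2 D C := by
  obtain ⟨Φ, rfl, rfl⟩ := h
  exact conBall_std.image Φ (subset_univ _)

theorem AmbDisc.isCircle {D C : Set (ℝ × ℝ)} (h : AmbDisc D C) : IsCircle C :=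
  conSphere_iff.1 h.conBall.conSphere

/-- convex bodies in the plane whose frontier is a circle -/
theorem conBall_convex {K C : Set (ℝ × ℝ)} (hK : IsCompact K) (hKc : Convex ℝ K)
    (hKi : (interior K).Nonempty) (hfr : frontier K = C) (hC : IsCircle C) : ConBall 2 K C := by
  obtain ⟨φ⟩ := hC
  obtain ⟨a, ha⟩ := hKi
  have hfs : frontier (closedBall (0 : ℝ × ℝ) 1) = sphere 0 1 := frontier_closedBall _ one_ne_zero
  obtain ⟨Φ, h1, -⟩ := ConHomeo.exists_extend_convexBody (isCompact_closedBall (0 : ℝ × ℝ) 1)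
    (convex_closedBall _ _) (closedBall_mem_nhds (0 : ℝ × ℝ) one_pos) hK hKc
    (mem_interior_iff_mem_nhds.1 ha) (φ.cast hfs.symm hfr.symm)
  have h2 := conBall_std.image Φ subset_rfl
  rw [Φ.image_eq] at h2
  have h3 : Φ.toFun '' sphere 0 1 = C := by
    rw [← hfs, h1.image_eq, ConHomeo.cast_toFun, hfs, φ.image_eq]
  rwa [h3] at h2

/-! ### The model triangles -/

/-- lower triangle -/
def triL : Set (ℝ × ℝ) := {p | |p.1| - p.2 ≤ 1 ∧ p.2 ≤ 0}
/-- lower roof -/
def roofL : Set (ℝ × ℝ) := {p | |p.1| - p.2 = 1 ∧ p.2 ≤ 0}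
/-- the diamond -/
def dia : Set (ℝ × ℝ) := {p | |p.1| + |p.2| ≤ 1}

theorem dia_eq : dia = tri ∪ triL := by
  ext p
  simp only [dia, tri, triL, mem_ofPred_eq, mem_union]
  rcases le_total 0 p.2 with h | h
  · rw [abs_of_nonneg h]
    constructor
    · intro h'; exact Or.inl ⟨h', h⟩
    · rintro (h' | h')
      · exact h'.1
      · linarith [h'.1, h'.2]
  · rw [abs_of_nonpos h]
    constructor
    · intro h'; exact Or.inr ⟨by linarith, h⟩
    · rintro (h' | h')
      · linarith [h'.1, h'.2]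
      · linarith [h'.1]

theorem tri_inter_triL : tri ∩ triL = bottom := by
  ext p
  simp only [bottom, tri, triL, mem_ofPred_eq, mem_inter_iff]
  constructor
  · rintro ⟨⟨h1, h2⟩, h3, h4⟩
    have : p.2 = 0 := le_antisymm h4 h2
    exact ⟨by linarith, this⟩
  · rintro ⟨h1, h2⟩
    exact ⟨⟨by linarith, h2.ge⟩, by linarith, h2.le⟩

theorem mem_segment_pair {a b p : ℝ × ℝ} : p ∈ segment ℝ a b ↔
    ∃ t ∈ Icc (0:ℝ) 1, p.1 = (1 - t) * a.1 + t * b.1 ∧ p.2 = (1 - t) * a.2 + t * b.2 := by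
  rw [segment_eq_image]
  constructor
  · rintro ⟨t, ht, rfl⟩
    exact ⟨t, ht, rfl, rfl⟩
  · rintro ⟨t, ht, h1, h2⟩
    exact ⟨t, ht, Prod.ext h1.symm h2.symm⟩

theorem bottom_eq : bottom = segment ℝ ((-1, 0) : ℝ × ℝ) (1, 0) := by
  ext p
  rw [mem_segment_pair]
  simp only [bottom, mem_ofPred_eq]
  constructor
  · rintro ⟨h1, h2⟩
    rw [abs_le] at h1
    exact ⟨(p.1 + 1) / 2, ⟨by linarith, by linarith⟩, by ring, by rw [h2]; ring⟩
  · rintro ⟨t, ⟨h0, h1⟩, h2, h3⟩
    refine ⟨?_, by rw [h3]; ring⟩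
    rw [h2, abs_le]
    constructor <;> linarith

theorem roof_eq : roof = segment ℝ ((-1, 0) : ℝ × ℝ) (0, 1) ∪ segment ℝ ((0, 1) : ℝ × ℝ) (1, 0) := by
  ext p
  rw [mem_union, mem_segment_pair, mem_segment_pair]
  simp only [roof, mem_ofPred_eq]
  constructor
  · rintro ⟨h1, h2⟩
    rcases le_total 0 p.1 with h | h
    · rw [abs_of_nonneg h] at h1
      right
      exact ⟨p.1, ⟨h, by linarith⟩, by ring, by linarith⟩
    · rw [abs_of_nonpos h] at h1
      left
      exact ⟨p.2, ⟨h2, by linarith⟩, by linarith, by ring⟩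
  · rintro (⟨t, ⟨h0, h1⟩, h2, h3⟩ | ⟨t, ⟨h0, h1⟩, h2, h3⟩)
    · refine ⟨?_, by rw [h3]; linarith⟩
      rw [h2, h3, abs_of_nonpos (by linarith)]; ring
    · refine ⟨?_, by rw [h3]; linarith⟩
      rw [h2, h3, abs_of_nonneg (by linarith)]; ring

theorem isArc_bottom : IsArc bottom ((-1, 0) : ℝ × ℝ) (1, 0) := by
  rw [bottom_eq]
  refine isArc_segment ?_
  intro h; have := congrArg Prod.fst h; norm_num at this

theorem isArc_roof : IsArc roof ((-1, 0) : ℝ × ℝ) (1, 0) := by
  rw [roof_eq]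
  refine (isArc_segment ?_).trans (isArc_segment ?_) ?_
  · intro h; have := congrArg Prod.snd h; norm_num at this
  · intro h; have := congrArg Prod.snd h; norm_num at this
  · rintro p ⟨h1, h2⟩
    rw [mem_segment_pair] at h1 h2
    obtain ⟨t, ⟨t0, t1⟩, e1, e2⟩ := h1
    obtain ⟨s, ⟨s0, s1⟩, e3, e4⟩ := h2
    simp only at e1 e2 e3 e4
    rw [mem_singleton_iff]
    apply Prod.ext
    · show p.1 = 0
      linarith
    · show p.2 = 1
      linarith

theorem roof_inter_bottom : roof ∩ bottom ⊆ {(-1, 0), (1, 0)} := by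
  rintro p ⟨⟨h1, h2⟩, h3, h4⟩
  have h5 : |p.1| = 1 := by linarith
  rcases eq_or_eq_neg_of_abs_eq h5 with h | h
  · right; exact Prod.ext h h4
  · left; exact Prod.ext h h4

theorem bottom_inter_roof : bottom ∩ roof ⊆ {(-1, 0), (1, 0)} := by
  rw [inter_comm]; exact roof_inter_bottom

theorem isClosed_tri : IsClosed tri := by
  have h1 : IsClosed {p : ℝ × ℝ | |p.1| + p.2 ≤ 1} := isClosed_le (by fun_prop) continuous_const
  have h2 : IsClosed {p : ℝ × ℝ | 0 ≤ p.2} := isClosed_le continuous_const continuous_snd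
  exact h1.inter h2

theorem isCompact_tri : IsCompact tri := by
  refine (isCompact_closedBall (0 : ℝ × ℝ) 1).of_isClosed_subset isClosed_tri ?_
  rintro p ⟨h1, h2⟩
  have := abs_nonneg p.1
  rw [mem_closedBall_zero_iff, Prod.norm_def]
  apply max_le
  · rw [Real.norm_eq_abs]; linarith
  · rw [Real.norm_eq_abs, abs_of_nonneg h2]; linarith

theorem convex_abs_add_le : Convex ℝ {p : ℝ × ℝ | |p.1| + p.2 ≤ 1} := by
  have : {p : ℝ × ℝ | |p.1| + p.2 ≤ 1} = {p : ℝ × ℝ | p.1 + p.2 ≤ 1} ∩ {p : ℝ × ℝ | -p.1 + p.2 ≤ 1} := by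
    ext p
    simp only [mem_ofPred_eq, mem_inter_iff]
    constructor
    · intro h
      exact ⟨by linarith [le_abs_self p.1], by linarith [neg_le_abs p.1]⟩
    · rintro ⟨h1, h2⟩
      rcases le_total 0 p.1 with h | h
      · rw [abs_of_nonneg h]; exact h1
      · rw [abs_of_nonpos h]; exact h2
  rw [this]
  have l1 : IsLinearMap ℝ fun p : ℝ × ℝ => p.1 + p.2 :=
    ⟨fun x y => by simp; ring, fun c x => by simp; ring⟩
  have l2 : IsLinearMap ℝ fun p : ℝ × ℝ => -p.1 + p.2 :=
    ⟨fun x y => by simp; ring, fun c x => by simp; ring⟩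
  exact (convex_halfSpace_le l1 1).inter (convex_halfSpace_le l2 1)

theorem convex_tri : Convex ℝ tri := by
  have l3 : IsLinearMap ℝ fun p : ℝ × ℝ => p.2 := ⟨fun x y => rfl, fun c x => rfl⟩
  exact convex_abs_add_le.inter (convex_halfSpace_ge l3 0)

theorem interior_tri : interior tri = {p : ℝ × ℝ | |p.1| + p.2 < 1 ∧ 0 < p.2} := by
  apply Subset.antisymm
  · intro p hp
    have hp' := mem_interior_iff_mem_nhds.1 hp
    obtain ⟨ε, hε, hb⟩ := Metric.mem_nhds_iff.1 hp'
    have h1 : (p.1, p.2 + ε / 2) ∈ tri := by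
      apply hb
      rw [mem_ball, Prod.dist_eq]
      apply max_lt
      · simpa using hε
      · rw [Real.dist_eq]; simp only [add_sub_cancel_left]
        rw [abs_of_pos (by linarith)]; linarith
    have h2 : (p.1, p.2 - ε / 2) ∈ tri := by
      apply hb
      rw [mem_ball, Prod.dist_eq]
      apply max_lt
      · simpa using hε
      · rw [Real.dist_eq]; simp only [sub_sub_cancel_left]
        rw [abs_neg, abs_of_pos (by linarith)]; linarith
    have h3 := h1.1
    have h4 := h2.2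
    simp only at h3 h4
    exact ⟨by linarith, by linarith⟩
  · apply interior_maximal
    · rintro p ⟨h1, h2⟩; exact ⟨h1.le, h2.le⟩
    · have o1 : IsOpen {p : ℝ × ℝ | |p.1| + p.2 < 1} := isOpen_lt (by fun_prop) continuous_const
      have o2 : IsOpen {p : ℝ × ℝ | 0 < p.2} := isOpen_lt continuous_const continuous_snd
      exact o1.inter o2

theorem frontier_tri : frontier tri = roof ∪ bottom := by
  rw [isClosed_tri.frontier_eq, interior_tri]
  ext p
  simp only [tri, roof, bottom, Set.mem_sdiff, mem_ofPred_eq, mem_union, not_and, not_lt]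
  constructor
  · rintro ⟨⟨h1, h2⟩, h3⟩
    rcases eq_or_lt_of_le h2 with h | h
    · right; exact ⟨by linarith, h.symm⟩
    · left
      refine ⟨le_antisymm h1 ?_, h2⟩
      by_contra hlt
      push Not at hlt
      linarith [h3 hlt]
  · rintro (⟨h1, h2⟩ | ⟨h1, h2⟩)
    · exact ⟨⟨h1.le, h2⟩, fun h => by linarith⟩
    · exact ⟨⟨by linarith, h2.ge⟩, fun _ => h2.le⟩

theorem isCircle_tri : IsCircle (roof ∪ bottom) :=
  isCircle_of_arcs isArc_roof isArc_bottom roof_inter_bottom

theorem conBall_tri : ConBall 2 tri (roof ∪ bottom) :=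
  conBall_convex isCompact_tri convex_tri
    ⟨(0, 1/2), by rw [interior_tri]; exact ⟨by norm_num, by norm_num⟩⟩ frontier_tri isCircle_tri

/-- reflection -/
noncomputable def flip : ConHomeo (univ : Set (ℝ × ℝ)) (univ : Set (ℝ × ℝ)) where
  toFun := fun p => (p.1, -p.2)
  invFun := fun p => (p.1, -p.2)
  mapsTo := mapsTo_univ _ _
  mapsTo_inv := mapsTo_univ _ _
  left_inv := fun p _ => by simp
  right_inv := fun p _ => by simp
  cont := by apply Continuous.continuousOn; fun_prop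
  cont_inv := by apply Continuous.continuousOn; fun_prop
  conical := conicalOn_fst'.prodMk conicalOn_snd'.neg

theorem flip_image (S T : Set (ℝ × ℝ)) (h : ∀ p : ℝ × ℝ, p ∈ T ↔ (p.1, -p.2) ∈ S) :
    flip.toFun '' S = T := by
  ext p
  rw [h p]
  constructor
  · rintro ⟨q, hq, rfl⟩
    show (q.1, - -q.2) ∈ S
    rw [neg_neg]; exact hq
  · intro hp
    exact ⟨_, hp, by show (p.1, - -p.2) = p; rw [neg_neg]⟩

theorem flip_tri : flip.toFun '' tri = triL :=
  flip_image _ _ fun p => by simp [tri, triL, sub_eq_add_neg]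

theorem flip_roof : flip.toFun '' roof = roofL :=
  flip_image _ _ fun p => by simp [roof, roofL, sub_eq_add_neg]

theorem flip_bottom : flip.toFun '' bottom = bottom :=
  flip_image _ _ fun p => by simp [bottom]

theorem conBall_triL : ConBall 2 triL (roofL ∪ bottom) := by
  have := conBall_tri.image flip (subset_univ _)
  rwa [image_union, flip_tri, flip_roof, flip_bottom] at this

theorem isArc_roofL : IsArc roofL ((-1, 0) : ℝ × ℝ) (1, 0) := by
  have := isArc_roof.image flip (subset_univ _)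
  rw [flip_roof] at this
  simpa [flip] using this

theorem bottom_inter_roofL : bottom ∩ roofL ⊆ {(-1, 0), (1, 0)} := by
  rintro p ⟨⟨h3, h4⟩, h1, h2⟩
  have h5 : |p.1| = 1 := by linarith
  rcases eq_or_eq_neg_of_abs_eq h5 with h | h
  · right; exact Prod.ext h h4
  · left; exact Prod.ext h h4

theorem roof_inter_roofL : roof ∩ roofL ⊆ {(-1, 0), (1, 0)} := by
  rintro p ⟨⟨h1, h2⟩, h3, h4⟩
  exact bottom_inter_roofL ⟨⟨by linarith, le_antisymm h4 h2⟩, h3, h4⟩

theorem isClosed_dia : IsClosed dia := isClosed_le (by fun_prop) continuous_const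

theorem interior_dia : interior dia = {p : ℝ × ℝ | |p.1| + |p.2| < 1} := by
  apply Subset.antisymm
  · intro p hp
    have hp' := mem_interior_iff_mem_nhds.1 hp
    obtain ⟨ε, hε, hb⟩ := Metric.mem_nhds_iff.1 hp'
    rcases le_total 0 p.2 with h | h
    · have h1 : (p.1, p.2 + ε / 2) ∈ dia := by
        apply hb
        rw [mem_ball, Prod.dist_eq]
        apply max_lt
        · simpa using hε
        · rw [Real.dist_eq]; simp only [add_sub_cancel_left]
          rw [abs_of_pos (by linarith)]; linarith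
      have h3 : |p.1| + |p.2 + ε / 2| ≤ 1 := h1
      have h4 : |p.2 + ε / 2| = p.2 + ε / 2 := abs_of_nonneg (by linarith)
      rw [h4] at h3
      show |p.1| + |p.2| < 1
      rw [abs_of_nonneg h]; linarith
    · have h1 : (p.1, p.2 - ε / 2) ∈ dia := by
        apply hb
        rw [mem_ball, Prod.dist_eq]
        apply max_lt
        · simpa using hε
        · rw [Real.dist_eq]; simp only [sub_sub_cancel_left]
          rw [abs_neg, abs_of_pos (by linarith)]; linarith
      have h3 : |p.1| + |p.2 - ε / 2| ≤ 1 := h1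
      have h4 : |p.2 - ε / 2| = -(p.2 - ε / 2) := abs_of_nonpos (by linarith)
      rw [h4] at h3
      show |p.1| + |p.2| < 1
      rw [abs_of_nonpos h]; linarith
  · apply interior_maximal
    · intro p (h1 : |p.1| + |p.2| < 1); exact h1.le
    · exact isOpen_lt (by fun_prop) continuous_const

theorem frontier_dia : frontier dia = roof ∪ roofL := by
  rw [isClosed_dia.frontier_eq, interior_dia]
  ext p
  simp only [dia, roof, roofL, Set.mem_sdiff, mem_ofPred_eq, mem_union, not_lt]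
  rcases le_total 0 p.2 with h | h
  · rw [abs_of_nonneg h]
    constructor
    · rintro ⟨h1, h2⟩; left; exact ⟨le_antisymm h1 h2, h⟩
    · rintro (⟨h1, h2⟩ | ⟨h1, h2⟩)
      · exact ⟨h1.le, h1.ge⟩
      · have : p.2 = 0 := le_antisymm h2 h
        exact ⟨by linarith, by linarith⟩
  · rw [abs_of_nonpos h]
    constructor
    · rintro ⟨h1, h2⟩; right; exact ⟨by linarith, h⟩
    · rintro (⟨h1, h2⟩ | ⟨h1, h2⟩)
      · have : p.2 = 0 := le_antisymm h h2
        exact ⟨by linarith, by linarith⟩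
      · exact ⟨by linarith, by linarith⟩

theorem convex_dia : Convex ℝ dia := by
  have h2 : Convex ℝ {p : ℝ × ℝ | |p.1| + -p.2 ≤ 1} := by
    have := convex_abs_add_le.is_linear_preimage
      (f := fun p : ℝ × ℝ => (p.1, -p.2)) ⟨fun x y => by ext <;> simp; ring, fun c x => by ext <;> simp⟩
    exact this
  have : dia = {p : ℝ × ℝ | |p.1| + p.2 ≤ 1} ∩ {p : ℝ × ℝ | |p.1| + -p.2 ≤ 1} := by
    ext p
    simp only [dia, mem_ofPred_eq, mem_inter_iff]
    constructor
    · intro h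
      exact ⟨by linarith [le_abs_self p.2], by linarith [neg_le_abs p.2]⟩
    · rintro ⟨h1, h2⟩
      rcases le_total 0 p.2 with h | h
      · rw [abs_of_nonneg h]; exact h1
      · rw [abs_of_nonpos h]; exact h2
  rw [this]
  exact convex_abs_add_le.inter h2

theorem isCompact_dia : IsCompact dia := by
  refine (isCompact_closedBall (0 : ℝ × ℝ) 1).of_isClosed_subset isClosed_dia ?_
  intro p (h1 : |p.1| + |p.2| ≤ 1)
  rw [mem_closedBall_zero_iff, Prod.norm_def]
  apply max_le
  · rw [Real.norm_eq_abs]; linarith [abs_nonneg p.2]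
  · rw [Real.norm_eq_abs]; linarith [abs_nonneg p.1]

theorem conBall_dia : ConBall 2 dia (roof ∪ roofL) :=
  conBall_convex isCompact_dia convex_dia
    ⟨0, by rw [interior_dia]; show |(0:ℝ)| + |(0:ℝ)| < 1; norm_num⟩ frontier_dia
    (isCircle_of_arcs isArc_roof isArc_roofL roof_inter_roofL)

/-! ### Gluing -/

/-- gluing two conical homeomorphisms of arcs with common end points -/
theorem exists_glue_arcs {A B : Set E} {A' B' : Set F} {a b : E} {a' b' : F}
    (α : ConHomeo A A') (β : ConHomeo B B') (hA : IsClosed A) (hB : IsClosed B)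
    (hA' : IsClosed A') (hB' : IsClosed B')
    (ha : a ∈ A ∩ B) (hb : b ∈ A ∩ B) (hAB : A ∩ B ⊆ {a, b}) (hAB' : A' ∩ B' ⊆ {a', b'})
    (h1 : α.toFun a = a') (h2 : α.toFun b = b') (h3 : β.toFun a = a') (h4 : β.toFun b = b') :
    ∃ φ : ConHomeo (A ∪ B) (A' ∪ B'), EqOn φ.toFun α.toFun A ∧ EqOn φ.toFun β.toFun B := by
  have hag : EqOn α.toFun β.toFun (A ∩ B) := by
    intro x hx
    rcases hAB hx with h | h
    · rw [h, h1, h3]
    · rw [mem_singleton_iff.1 h, h2, h4]
  have himg : A' ∩ B' ⊆ α.toFun '' (A ∩ B) := by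
    intro y hy
    rcases hAB' hy with h | h
    · exact ⟨a, ha, by rw [h1, h]⟩
    · exact ⟨b, hb, by rw [h2, mem_singleton_iff.1 h]⟩
  exact ⟨ConHomeo.glue α β hA hB hA' hB' hag himg, ConHomeo.glue_left _ _ _ _ _ _ _ _,
    ConHomeo.glue_right _ _ _ _ _ _ _ _⟩

/-- **Gluing two conical discs along a boundary arc.** -/
theorem glue2 {X Y A B B' : Set E} {a b : E} (hX : ConBall 2 X (A ∪ B)) (hY : ConBall 2 Y (A ∪ B'))
    (hA : IsArc A a b) (hB : IsArc B a b) (hB' : IsArc B' a b) (hAB : A ∩ B ⊆ {a, b})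
    (hAB' : A ∩ B' ⊆ {a, b}) (hXY : X ∩ Y = A) : ConBall 2 (X ∪ Y) (B ∪ B') := by
  obtain ⟨α, α1, α2⟩ := hA.exists_homeo isArc_bottom
  obtain ⟨β, β1, β2⟩ := hB.exists_homeo isArc_roof
  obtain ⟨β', β1', β2'⟩ := hB'.exists_homeo isArc_roofL
  obtain ⟨φ, φ1, φ2⟩ := exists_glue_arcs α β hA.isClosed hB.isClosed isArc_bottom.isClosed
    isArc_roof.isClosed ⟨hA.left_mem, hB.left_mem⟩ ⟨hA.right_mem, hB.right_mem⟩ hAB
    bottom_inter_roof α1 α2 β1 β2
  obtain ⟨φ', φ1', φ2'⟩ := exists_glue_arcs α β' hA.isClosed hB'.isClosed isArc_bottom.isClosed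
    isArc_roofL.isClosed ⟨hA.left_mem, hB'.left_mem⟩ ⟨hA.right_mem, hB'.right_mem⟩ hAB'
    bottom_inter_roofL α1 α2 β1' β2'
  have hT : ConBall 2 tri (bottom ∪ roof) := by rw [union_comm]; exact conBall_tri
  have hT' : ConBall 2 triL (bottom ∪ roofL) := by rw [union_comm]; exact conBall_triL
  obtain ⟨Φ, Φ1, -⟩ := hX.exists_extend hT φ
  obtain ⟨Φ', Φ1', -⟩ := hY.exists_extend hT' φ'
  have e1 : EqOn Φ.toFun α.toFun A := fun x hx => (Φ1 (Or.inl hx)).trans (φ1 hx)
  have e2 : EqOn Φ'.toFun α.toFun A := fun x hx => (Φ1' (Or.inl hx)).trans (φ1' hx)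
  have hag : EqOn Φ.toFun Φ'.toFun (X ∩ Y) := by
    rw [hXY]; exact fun x hx => (e1 hx).trans (e2 hx).symm
  have himg : tri ∩ triL ⊆ Φ.toFun '' (X ∩ Y) := by
    rw [hXY, tri_inter_triL, e1.image_eq, α.image_eq]
  let Ψ := ConHomeo.glue Φ Φ' hX.isClosed hY.isClosed hT.isClosed hT'.isClosed hag himg
  have g1 : EqOn Ψ.toFun Φ.toFun X := ConHomeo.glue_left _ _ _ _ _ _ _ _
  have g2 : EqOn Ψ.toFun Φ'.toFun Y := ConHomeo.glue_right _ _ _ _ _ _ _ _
  have hBX : B ⊆ X := subset_union_right.trans hX.1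
  have hBY : B' ⊆ Y := subset_union_right.trans hY.1
  have i1 : Ψ.toFun '' B = roof := by
    rw [(g1.mono hBX).image_eq, (Φ1.mono subset_union_right).image_eq, φ2.image_eq, β.image_eq]
  have i2 : Ψ.toFun '' B' = roofL := by
    rw [(g2.mono hBY).image_eq, (Φ1'.mono subset_union_right).image_eq, φ2'.image_eq, β'.image_eq]
  have h3 := (conBall_dia).image (Ψ.cast rfl dia_eq.symm).symm subset_rfl
  rw [ConHomeo.image_eq] at h3
  have h4 : (Ψ.cast rfl dia_eq.symm).symm.toFun '' (roof ∪ roofL) = B ∪ B' := by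
    rw [← i1, ← i2, ← image_union, image_image]
    have : ∀ x ∈ B ∪ B', (Ψ.cast rfl dia_eq.symm).symm.toFun (Ψ.toFun x) = x := by
      intro x hx
      exact Ψ.left_inv (hx.elim (fun h => Or.inl (hBX h)) fun h => Or.inr (hBY h))
    rw [image_congr this, image_id']
  rwa [h4] at h3

end P073.H339
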