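import Vale.Agent.P073.H339.Complement
import Vale.Agent.P073.PR.Hemi

/-!
# P073 / H339: conical Jordan-Schoenflies theorem on the sphere
-/

open Set Metric Topology Filter

namespace P073.H339

open P073.SCH

/-! ### circles are nowhere dense -/

theorem interior_segment_prod (p q : ℝ × ℝ) : interior (segment ℝ p q) = ∅ := by
  by_contra hne
  obtain ⟨x, hx⟩ := nonempty_iff_ne_empty.2 hne
  obtain ⟨ε, hε, hb⟩ := Metric.isOpen_iff.1 isOpen_interior x hx
  have h0 := interior_subset hx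
  have h1 : (x.1 + ε / 2, x.2) ∈ segment ℝ p q := by
    apply interior_subset; apply hb
    rw [mem_ball, Prod.dist_eq]
    apply max_lt
    · rw [Real.dist_eq]; simp only [add_sub_cancel_left]
      rw [abs_of_pos (by linarith)]; linarith
    · simpa using hε
  have h2 : (x.1, x.2 + ε / 2) ∈ segment ℝ p q := by
    apply interior_subset; apply hb
    rw [mem_ball, Prod.dist_eq]
    apply max_lt
    · simpa using hε
    · rw [Real.dist_eq]; simp only [add_sub_cancel_left]
      rw [abs_of_pos (by linarith)]; linarith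
  rw [mem_segment_pair] at h0 h1 h2
  obtain ⟨t0, -, a0, b0⟩ := h0
  obtain ⟨t1, -, a1, b1⟩ := h1
  obtain ⟨t2, -, a2, b2⟩ := h2
  simp only at a1 b1 a2 b2
  have e1 : (t1 - t0) * (q.1 - p.1) = ε / 2 := by linarith
  have e2 : (t1 - t0) * (q.2 - p.2) = 0 := by linarith
  have e4 : (t2 - t0) * (q.2 - p.2) = ε / 2 := by linarith
  rcases mul_eq_zero.1 e2 with h | h
  · rw [h, zero_mul] at e1; linarith
  · rw [h, mul_zero] at e4; linarith

theorem isClosed_pcar {E : Type*} [NormedAddCommGroup E] [NormedSpace ℝ E] (l : List E) :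
    IsClosed (pcar l) := by
  induction l with
  | nil => exact isClosed_empty
  | cons a l ih =>
    cases l with
    | nil => exact isClosed_singleton
    | cons b l =>
      refine IsClosed.union ?_ ih
      rw [segment_eq_image]
      exact (isCompact_Icc.image (by fun_prop)).isClosed

theorem interior_pcar_prod (l : List (ℝ × ℝ)) : interior (pcar l) = ∅ := by
  induction l with
  | nil => exact interior_empty
  | cons a l ih =>
    cases l with
    | nil => rw [pcar_singleton]; exact interior_singleton a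
    | cons b l =>
      rw [pcar_cons_cons, union_comm, interior_union_isClosed_of_interior_empty (isClosed_pcar _)
        (interior_segment_prod a b)]
      exact ih

/-- conical circles in `ℝ³` do not cover the open top face of the cube -/
theorem exists_notMem_top {γ : Set (Fin 3 → ℝ)} (hγ : IsCircle γ) :
    ∃ v ∈ sphere (0 : Fin 3 → ℝ) 1, 0 < v 2 ∧ v ∉ γ := by
  obtain ⟨l, hl, rfl⟩ := exists_cpoly_of_isCircle hγ
  by_contra hcon
  push Not at hcon
  -- project
  let L : (Fin 3 → ℝ) →ₗ[ℝ] (ℝ × ℝ) := (LinearMap.proj 0).prod (LinearMap.proj 1)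
  have hL : ∀ v : Fin 3 → ℝ, L v = (v 0, v 1) := fun v => rfl
  obtain ⟨l', hl'⟩ : ∃ l' : List (Fin 3 → ℝ), ccar l = pcar l' := by
    cases l with
    | nil => exact ⟨[], rfl⟩
    | cons b m => exact ⟨b :: (m ++ [b]), rfl⟩
  have hcar : pcar (l'.map L.toAffineMap) = L '' ccar l := by
    rw [hl', pcar_map]; rfl
  have hsub : ball (0 : ℝ × ℝ) 1 ⊆ pcar (l'.map L.toAffineMap) := by
    rw [hcar]
    intro x hx
    rw [mem_ball_zero_iff, Prod.norm_def, max_lt_iff, Real.norm_eq_abs, Real.norm_eq_abs] at hx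
    have hv : (![x.1, x.2, 1] : Fin 3 → ℝ) ∈ sphere (0 : Fin 3 → ℝ) 1 := by
      rw [mem_sphere_fin3]
      refine ⟨hx.1.le, hx.2.le, ?_, Or.inr (Or.inr ?_)⟩
      · show |(1:ℝ)| ≤ 1
        simp
      · show |(1:ℝ)| = 1
        simp
    refine ⟨![x.1, x.2, 1], hcon _ hv ?_, ?_⟩
    · show (0:ℝ) < 1
      exact one_pos
    · rw [hL]; rfl
  have h1 : ball (0 : ℝ × ℝ) 1 ⊆ interior (pcar (l'.map L.toAffineMap)) :=
    interior_maximal hsub isOpen_ball
  rw [interior_pcar_prod] at h1
  exact h1 (mem_ball_self one_pos)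

/-- discs of small radius are ambient discs -/
theorem ambDisc_closedBall (c : ℝ × ℝ) {r : ℝ} (hr : 0 < r) :
    AmbDisc (closedBall c r) (sphere c r) := by
  let Φ : ConHomeo (univ : Set (ℝ × ℝ)) (univ : Set (ℝ × ℝ)) :=
    { toFun := fun x => r • x + c
      invFun := fun y => r⁻¹ • (y - c)
      mapsTo := mapsTo_univ _ _
      mapsTo_inv := mapsTo_univ _ _
      left_inv := fun x _ => by
        show r⁻¹ • (r • x + c - c) = x
        rw [add_sub_cancel_right, smul_smul, inv_mul_cancel₀ hr.ne', one_smul]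
      right_inv := fun y _ => by
        show r • r⁻¹ • (y - c) + c = y
        rw [smul_smul, mul_inv_cancel₀ hr.ne', one_smul, sub_add_cancel]
      cont := by apply Continuous.continuousOn; fun_prop
      cont_inv := by apply Continuous.continuousOn; fun_prop
      conical := ((conicalOn_id (IsOpen.conicalSet isOpen_univ)).const_smul r).add
        (conicalOn_const c (IsOpen.conicalSet isOpen_univ)) }
  have key : ∀ y : ℝ × ℝ, dist y c = r * ‖r⁻¹ • (y - c)‖ := by
    intro y
    rw [norm_smul, norm_inv, Real.norm_of_nonneg hr.le, ← mul_assoc, mul_inv_cancel₀ hr.ne',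
      one_mul, dist_eq_norm]
  refine ⟨Φ, ?_, ?_⟩
  · ext y
    constructor
    · rintro ⟨x, hx, rfl⟩
      rw [mem_closedBall_zero_iff] at hx
      rw [mem_closedBall, dist_eq_norm]
      show ‖r • x + c - c‖ ≤ r
      rw [add_sub_cancel_right, norm_smul, Real.norm_of_nonneg hr.le]
      nlinarith
    · intro hy
      rw [mem_closedBall, key y] at hy
      refine ⟨r⁻¹ • (y - c), ?_, Φ.right_inv (mem_univ y)⟩
      rw [mem_closedBall_zero_iff]
      by_contra hlt
      push Not at hlt
      nlinarith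
  · ext y
    constructor
    · rintro ⟨x, hx, rfl⟩
      rw [mem_sphere_zero_iff_norm] at hx
      rw [mem_sphere, dist_eq_norm]
      show ‖r • x + c - c‖ = r
      rw [add_sub_cancel_right, norm_smul, Real.norm_of_nonneg hr.le, hx, mul_one]
    · intro hy
      rw [mem_sphere, key y] at hy
      refine ⟨r⁻¹ • (y - c), ?_, Φ.right_inv (mem_univ y)⟩
      rw [mem_sphere_zero_iff_norm]
      have : r * ‖r⁻¹ • (y - c)‖ = r * 1 := by rw [hy, mul_one]
      exact mul_left_cancel₀ hr.ne' this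

/-- a conical disc as a chart onto the standard planar disc -/
theorem exists_chart {E : Type*} [NormedAddCommGroup E] [NormedSpace ℝ E] {X B : Set E}
    (h : ConBall 2 X B) : ∃ κ : ConHomeo X (closedBall (0 : ℝ × ℝ) 1),
      κ.toFun '' B = sphere 0 1 ∧ κ.invFun '' sphere 0 1 = B := by
  obtain ⟨hBX, φ, hφ⟩ := h
  let e : ConHomeo (closedBall (0 : ℝ × ℝ) 1) (closedBall (0 : Fin 2 → ℝ) 1) :=
    (pairHomeo.restr (conicalSet_closedBall_prod 1) (subset_univ _)).cast rfl
      (pairHomeo_image_closedBall 1)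
  have he : e.invFun '' sphere 0 1 = sphere (0 : ℝ × ℝ) 1 := by
    have h1 : e.toFun '' sphere 0 1 = sphere (0 : Fin 2 → ℝ) 1 := pairHomeo_image_sphere 1
    rw [← h1, image_image]
    have : ∀ x ∈ sphere (0 : ℝ × ℝ) 1, e.invFun (e.toFun x) = x := fun x hx =>
      e.left_inv (sphere_subset_closedBall hx)
    rw [image_congr this, image_id']
  have h1 : (φ.trans e.symm).toFun '' B = sphere 0 1 := by
    have : (φ.trans e.symm).toFun '' B = e.invFun '' (φ.toFun '' B) := by
      rw [image_image]; rfl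
    rw [this, hφ, he]
  refine ⟨φ.trans e.symm, h1, ?_⟩
  rw [← h1, image_image]
  have : ∀ x ∈ B, (φ.trans e.symm).invFun ((φ.trans e.symm).toFun x) = x := fun x hx =>
    (φ.trans e.symm).left_inv (hBX hx)
  rw [image_congr this, image_id']

theorem ambDisc_std : AmbDisc (closedBall (0 : ℝ × ℝ) 1) (sphere 0 1) := by
  have := ambDisc_closedBall 0 one_pos
  exact this

/-- **Jordan-Schoenflies in a union of two conical discs** with the same boundary: every conical
circle has two complementary sides, both conical discs. -/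
theorem exists_sides_of_two_discs {E : Type*} [NormedAddCommGroup E] [NormedSpace ℝ E]
    {X Y B : Set E} (hX : ConBall 2 X B) (hY : ConBall 2 Y B) (hXY : X ∩ Y = B) {γ : Set E}
    (hγ : IsCircle γ) (hγS : γ ⊆ X ∪ Y) {v : E} (hv : v ∈ X) (hvB : v ∉ B) (hvγ : v ∉ γ) :
    ∃ U V : Set E, Disjoint U V ∧ U ∪ V = (X ∪ Y) \ γ ∧ U.Nonempty ∧ V.Nonempty ∧
      ConBall 2 (U ∪ γ) γ ∧ ConBall 2 (V ∪ γ) γ ∧ v ∈ V := by
  obtain ⟨κ, hκ1, hκ2⟩ := exists_chart hX
  have hBX : B ⊆ X := hX.1
  -- a small square around `κ v`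
  have hKc : IsClosed (κ.toFun '' (γ ∩ X) ∪ sphere 0 1) := by
    refine IsClosed.union ?_ isClosed_sphere
    have : IsCompact (γ ∩ X) := (IsCircle.isCompact hγ).inter_right hX.isClosed
    exact (this.image_of_continuousOn (κ.cont.mono inter_subset_right)).isClosed
  have hvn : κ.toFun v ∉ κ.toFun '' (γ ∩ X) ∪ sphere 0 1 := by
    rintro (⟨x, hx, hxv⟩ | h)
    · have := κ.injOn hx.2 hv hxv
      exact hvγ (this ▸ hx.1)
    · rw [← hκ1] at h
      obtain ⟨x, hx, hxv⟩ := h
      have := κ.injOn (hBX hx) hv hxv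
      exact hvB (this ▸ hx)
  have hvball : κ.toFun v ∈ ball (0 : ℝ × ℝ) 1 := by
    have h1 := κ.mapsTo hv
    rw [mem_closedBall_zero_iff] at h1
    rw [mem_ball_zero_iff]
    refine lt_of_le_of_ne h1 fun h => hvn (Or.inr (by rw [mem_sphere_zero_iff_norm]; exact h))
  obtain ⟨ε, hε, hb⟩ := Metric.isOpen_iff.1 (isOpen_ball.inter hKc.isOpen_compl) (κ.toFun v)
    ⟨hvball, hvn⟩
  set c := κ.toFun v with hc
  have hr : 0 < ε / 2 := by positivity
  have hcb : closedBall c (ε / 2) ⊆ ball (0 : ℝ × ℝ) 1 ∩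
      (κ.toFun '' (γ ∩ X) ∪ sphere 0 1)ᶜ :=
    (closedBall_subset_ball (by linarith)).trans hb
  have hN := ambDisc_closedBall c hr
  have hsub : sphere c (ε / 2) ⊆ interior (closedBall (0 : ℝ × ℝ) 1) := by
    rw [interior_closedBall _ one_ne_zero]
    exact fun x hx => (hcb (sphere_subset_closedBall hx)).1
  have hcompl := conBall_complement κ ambDisc_std hY hXY hκ2 hN hsub
  have hint : interior (closedBall c (ε / 2)) = ball c (ε / 2) := interior_closedBall _ hr.ne'
  rw [hint] at hcompl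
  have hcbD : closedBall c (ε / 2) ⊆ closedBall (0 : ℝ × ℝ) 1 := fun x hx =>
    ball_subset_closedBall (hcb hx).1
  have hNball : ConBall 2 (κ.invFun '' closedBall c (ε / 2)) (κ.invFun '' sphere c (ε / 2)) :=
    hN.conBall.image κ.symm hcbD
  have hginj : InjOn κ.invFun (closedBall 0 1) := κ.symm.injOn
  have hgX : κ.invFun '' closedBall 0 1 = X := κ.symm.image_eq
  have hNX : κ.invFun '' closedBall c (ε / 2) ⊆ X := (image_mono hcbD).trans hgX.subset
  -- the new decomposition
  have hinter : ((X ∪ Y) \ κ.invFun '' ball c (ε / 2)) ∩ κ.invFun '' closedBall c (ε / 2) =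
      κ.invFun '' sphere c (ε / 2) := by
    apply Subset.antisymm
    · rintro x ⟨⟨_, hx⟩, y, hy, rfl⟩
      refine ⟨y, ?_, rfl⟩
      rw [mem_sphere]
      refine le_antisymm hy ?_
      by_contra hlt
      push Not at hlt
      exact hx ⟨y, hlt, rfl⟩
    · rintro _ ⟨y, hy, rfl⟩
      have hyc := sphere_subset_closedBall hy
      refine ⟨⟨Or.inl (hNX ⟨y, hyc, rfl⟩), ?_⟩, y, hyc, rfl⟩
      rintro ⟨z, hz, hzy⟩
      have : z = y := hginj (hcbD (ball_subset_closedBall hz)) (hcbD hyc) hzy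
      subst this
      rw [mem_ball] at hz
      rw [mem_sphere] at hy
      linarith
  have hunion : ((X ∪ Y) \ κ.invFun '' ball c (ε / 2)) ∪ κ.invFun '' closedBall c (ε / 2) =
      X ∪ Y := by
    ext x
    constructor
    · rintro (hx | hx)
      · exact hx.1
      · exact Or.inl (hNX hx)
    · intro hx
      by_cases h : x ∈ κ.invFun '' ball c (ε / 2)
      · exact Or.inr (image_mono ball_subset_closedBall h)
      · exact Or.inl ⟨hx, h⟩
  have hγN : Disjoint γ (κ.invFun '' closedBall c (ε / 2)) := by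
    rw [disjoint_left]
    rintro x hx ⟨y, hy, rfl⟩
    have h1 := (hcb hy).2
    apply h1
    left
    exact ⟨κ.invFun y, ⟨hx, hNX ⟨y, hy, rfl⟩⟩, κ.right_inv (hcbD hy)⟩
  have hγX' : γ ⊆ (X ∪ Y) \ κ.invFun '' ball c (ε / 2) := fun x hx =>
    ⟨hγS hx, fun h => disjoint_left.1 hγN hx (image_mono ball_subset_closedBall h)⟩
  obtain ⟨κ', -, hκ2'⟩ := exists_chart hcompl
  obtain ⟨U, V, r1, r2, r3, r4, r5, r6, -, r7⟩ := exists_sides κ' ambDisc_std hNball hinter hκ2'
    hγ hγX' hγN
  rw [hunion] at r2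
  refine ⟨U, V, r1, r2, r3, r4, r5, r6, r7 ?_⟩
  exact ⟨c, mem_closedBall_self hr.le, κ.left_inv hv⟩

/-- **Jordan-Schoenflies on the sphere.** -/
theorem jordanSch_sphere : JordanSch 2 (sphere (0 : Fin 3 → ℝ) 1) := by
  intro γ hγ hs
  have hcirc : IsCircle γ := conSphere_iff.1 hs
  obtain ⟨v, hv, hv2, hvγ⟩ := exists_notMem_top hcirc
  have hinter : upperHemi ∩ lowerHemi = equator3 := by
    ext x
    constructor
    · rintro ⟨⟨h1, h2⟩, _, h3⟩; exact ⟨h1, le_antisymm h3 h2⟩
    · rintro ⟨h1, h2⟩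
      exact ⟨⟨h1, (show x 2 = 0 from h2).ge⟩, h1, (show x 2 = 0 from h2).le⟩
  have hunion : upperHemi ∪ lowerHemi = sphere (0 : Fin 3 → ℝ) 1 := by
    ext x
    constructor
    · rintro (h | h) <;> exact h.1
    · intro h
      rcases le_total 0 (x 2) with h' | h'
      · exact Or.inl ⟨h, h'⟩
      · exact Or.inr ⟨h, h'⟩
  obtain ⟨U, V, r1, r2, r3, r4, r5, r6, -⟩ := exists_sides_of_two_discs conBall_upperHemi
    conBall_lowerHemi hinter hcirc (by rw [hunion]; exact hγ) (v := v) ⟨hv, hv2.le⟩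
    (fun h => by
      have : v 2 = 0 := h.2
      linarith) hvγ
  rw [hunion] at r2
  exact ⟨U, V, r1, r2, r3, r4, r5, r6⟩

/-- every conical circle on the sphere is carried to the equator by a conical homeomorphism -/
theorem sphEq : SphEq := by
  intro γ hγ hs
  obtain ⟨U, V, hUV, hS, -, -, hU, hV⟩ := jordanSch_sphere γ hγ hs
  obtain ⟨φ⟩ := hs
  have hE : ConSphere 1 equator3 := conBall_upperHemi.conSphere
  obtain ⟨ψ⟩ := hE
  let χ : ConHomeo γ equator3 := φ.trans ψ.symm
  obtain ⟨F, F1, F2⟩ := hU.exists_extend conBall_upperHemi χ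
  obtain ⟨G, G1, G2⟩ := hV.exists_extend conBall_lowerHemi χ
  have hinter : (U ∪ γ) ∩ (V ∪ γ) = γ := by
    ext x
    constructor
    · rintro ⟨h1 | h1, h2 | h2⟩
      · exact absurd h2 (disjoint_left.1 hUV h1)
      · exact h2
      · exact h1
      · exact h1
    · intro h; exact ⟨Or.inr h, Or.inr h⟩
  have hinter' : upperHemi ∩ lowerHemi = equator3 := by
    ext x
    constructor
    · rintro ⟨⟨h1, h2⟩, _, h3⟩; exact ⟨h1, le_antisymm h3 h2⟩
    · rintro ⟨h1, h2⟩
      exact ⟨⟨h1, (show x 2 = 0 from h2).ge⟩, h1, (show x 2 = 0 from h2).le⟩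
  have hunion' : upperHemi ∪ lowerHemi = sphere (0 : Fin 3 → ℝ) 1 := by
    ext x
    constructor
    · rintro (h | h) <;> exact h.1
    · intro h
      rcases le_total 0 (x 2) with h' | h'
      · exact Or.inl ⟨h, h'⟩
      · exact Or.inr ⟨h, h'⟩
  have hunion : (U ∪ γ) ∪ (V ∪ γ) = sphere (0 : Fin 3 → ℝ) 1 := by
    ext x
    constructor
    · rintro ((h | h) | (h | h))
      · exact ((hS ▸ Or.inl h : x ∈ sphere (0 : Fin 3 → ℝ) 1 \ γ)).1
      · exact hγ h
      · exact ((hS ▸ Or.inr h : x ∈ sphere (0 : Fin 3 → ℝ) 1 \ γ)).1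
      · exact hγ h
    · intro h
      by_cases hx : x ∈ γ
      · exact Or.inl (Or.inr hx)
      · have : x ∈ U ∪ V := hS ▸ ⟨h, hx⟩
        rcases this with h' | h'
        · exact Or.inl (Or.inl h')
        · exact Or.inr (Or.inl h')
  have hag : EqOn F.toFun G.toFun ((U ∪ γ) ∩ (V ∪ γ)) := by
    rw [hinter]; exact fun x hx => (F1 hx).trans (G1 hx).symm
  have himg : upperHemi ∩ lowerHemi ⊆ F.toFun '' ((U ∪ γ) ∩ (V ∪ γ)) := by
    rw [hinter, hinter', F2]
  have hFe : F.toFun '' γ = equator3 := F2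
  refine ⟨(ConHomeo.glue F G hU.isClosed hV.isClosed conBall_upperHemi.isClosed
    conBall_lowerHemi.isClosed hag himg).cast hunion hunion', ?_⟩
  have hg : EqOn (ConHomeo.glue F G hU.isClosed hV.isClosed conBall_upperHemi.isClosed
    conBall_lowerHemi.isClosed hag himg).toFun F.toFun (U ∪ γ) := ConHomeo.glue_left _ _ _ _ _ _ _ _
  rw [ConHomeo.cast_toFun, (hg.mono subset_union_right).image_eq, hFe]

end P073.H339
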