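import Vale.Agent.P073.SCH.Poly

/-!
# P073 / H339: every conical arc is a simple polygonal arc
-/

open Set Metric Topology Filter

namespace P073.H339

open P073.SCH

variable {E : Type*} [NormedAddCommGroup E] [NormedSpace ℝ E]

/-- the part `[0,t]` of the arc is polygonal -/
def PolyUpTo (φ : ℝ → E) (t : ℝ) : Prop :=
  ∃ l : List E, psimple (l ++ [φ t]) ∧ pcar (l ++ [φ t]) = φ '' Icc 0 t ∧
    (l ++ [φ t]).head? = some (φ 0)

theorem PolyUpTo.step {φ : ℝ → E} (hinj : InjOn φ (Icc 0 1)) {t' t : ℝ} (h0 : 0 ≤ t')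
    (h1 : t' < t) (h2 : t ≤ 1) (himg : φ '' Icc t' t = segment ℝ (φ t') (φ t))
    (H : PolyUpTo φ t') : PolyUpTo φ t := by
  obtain ⟨l, hs, hc, hh⟩ := H
  have hne : φ t' ≠ φ t := fun h =>
    h1.ne (hinj ⟨h0, h1.le.trans h2⟩ ⟨h0.trans h1.le, h2⟩ h)
  refine ⟨l ++ [φ t'], ?_, ?_, ?_⟩
  · rw [List.append_assoc, List.singleton_append, psimple_append]
    refine ⟨hs, psimple_pair.2 hne, ?_⟩
    rw [hc, pcar_pair, ← himg]
    rintro _ ⟨⟨s, hs1, rfl⟩, ⟨s', hs2, he⟩⟩
    have : s' = s := hinj ⟨h0.trans hs2.1, hs2.2.trans h2⟩ ⟨hs1.1, hs1.2.trans (h1.le.trans h2)⟩ he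
    subst this
    have : s' = t' := le_antisymm hs1.2 hs2.1
    rw [this]; rfl
  · rw [List.append_assoc, List.singleton_append, pcar_append, hc, pcar_pair, ← himg,
      ← image_union, Icc_union_Icc_eq_Icc h0 h1.le]
  · rw [← hh]
    cases l with
    | nil => rfl
    | cons a l => rfl

/-- near each parameter a conical map is affine on both sides -/
theorem exists_radius_affine {φ : ℝ → E} {t : ℝ} (h : ConicalWithinAt φ (Icc 0 1) t)
    (ht : t ∈ Icc (0:ℝ) 1) :
    ∃ r > 0, (∀ s ∈ Icc (0:ℝ) 1, t < s → s ≤ t + r → φ '' Icc t s = segment ℝ (φ t) (φ s)) ∧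
      (∀ s ∈ Icc (0:ℝ) 1, s < t → t - r ≤ s → φ '' Icc s t = segment ℝ (φ s) (φ t)) := by
  obtain ⟨r, hr, H⟩ := h
  have key : ∀ v : ℝ, ‖v‖ ≤ r → t + v ∈ Icc (0:ℝ) 1 →
      φ '' segment ℝ t (t + v) = segment ℝ (φ t) (φ (t + v)) := by
    intro v hv hmem
    rw [segment_eq_image' ℝ t (t + v), segment_eq_image' ℝ (φ t), image_image]
    apply image_congr
    intro s hs
    have := (H v hv hmem s hs).2
    show φ (t + s • (t + v - t)) = φ t + s • (φ (t + v) - φ t)
    rw [add_sub_cancel_left, this]
  refine ⟨r, hr, ?_, ?_⟩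
  · intro s hs hts hsr
    have h1 := key (s - t) (by rw [Real.norm_of_nonneg (by linarith)]; linarith) (by simpa using hs)
    rw [add_sub_cancel, segment_eq_Icc hts.le] at h1
    exact h1
  · intro s hs hst hsr
    have h1 := key (s - t) (by rw [Real.norm_of_nonpos (by linarith)]; linarith) (by simpa using hs)
    rw [add_sub_cancel, segment_symm, segment_eq_Icc hst.le, segment_symm] at h1
    exact h1

/-- **Extraction**: every conical arc is a simple polygonal arc. -/
theorem exists_psimple_of_isArc {A : Set E} {p q : E} (h : IsArc A p q) :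
    ∃ l : List E, psimple (p :: (l ++ [q])) ∧ pcar (p :: (l ++ [q])) = A := by
  have hpq := h.ne
  obtain ⟨φ, h0, h1⟩ := h
  set f := φ.toFun with hf
  have hinj : InjOn f (Icc 0 1) := φ.injOn
  -- the set of good parameters
  let S : Set ℝ := {t | t ∈ Icc (0:ℝ) 1 ∧ ∀ s ∈ Icc 0 t, PolyUpTo f s}
  have hP0 : PolyUpTo f 0 := by
    refine ⟨[], psimple_singleton _, ?_, rfl⟩
    show ({f 0} : Set E) = f '' Icc 0 0
    rw [Icc_self, image_singleton]
  have h0S : (0:ℝ) ∈ S := by
    refine ⟨⟨le_refl _, zero_le_one⟩, fun s hs => ?_⟩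
    have : s = 0 := le_antisymm hs.2 hs.1
    rw [this]; exact hP0
  have hbdd : BddAbove S := ⟨1, fun t ht => ht.1.2⟩
  set c := sSup S with hc
  have hc0 : 0 ≤ c := le_csSup hbdd h0S
  have hc1 : c ≤ 1 := csSup_le ⟨0, h0S⟩ fun t ht => ht.1.2
  have hbelow : ∀ s, 0 ≤ s → s < c → PolyUpTo f s := by
    intro s hs0 hsc
    obtain ⟨t, ht, hst⟩ := exists_lt_of_lt_csSup ⟨0, h0S⟩ hsc
    exact ht.2 s ⟨hs0, hst.le⟩
  obtain ⟨r, hr, Hf, Hb⟩ := exists_radius_affine (φ.conical c ⟨hc0, hc1⟩) ⟨hc0, hc1⟩
  have hPc : PolyUpTo f c := by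
    rcases eq_or_lt_of_le hc0 with h | h
    · rw [← h]; exact hP0
    · have hm : max 0 (c - r) < c := max_lt h (by linarith)
      have hm0 : 0 ≤ max 0 (c - r) := le_max_left _ _
      exact (hbelow _ hm0 hm).step hinj hm0 hm hc1
        (Hb _ ⟨hm0, hm.le.trans hc1⟩ hm (le_max_right _ _))
  have hc_eq : c = 1 := by
    by_contra hne
    have hlt : c < 1 := lt_of_le_of_ne hc1 hne
    have hm : c < min (c + r) 1 := lt_min (by linarith) hlt
    have hmS : min (c + r) 1 ∈ S := by
      refine ⟨⟨hc0.trans hm.le, min_le_right _ _⟩, fun s hs => ?_⟩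
      rcases lt_trichotomy s c with h | h | h
      · exact hbelow s hs.1 h
      · rw [h]; exact hPc
      · have hs1 : s ≤ 1 := hs.2.trans (min_le_right _ _)
        exact hPc.step hinj hc0 h hs1 (Hf s ⟨hs.1, hs1⟩ h (hs.2.trans (min_le_left _ _)))
    exact absurd (le_csSup hbdd hmS) (not_le.2 hm)
  rw [hc_eq] at hPc
  obtain ⟨l, hs, hcar, hh⟩ := hPc
  have hA : f '' Icc 0 1 = A := φ.image_eq
  rw [hA] at hcar
  rw [h1] at hs hcar hh
  rw [h0] at hh
  cases l with
  | nil =>
    exfalso
    have : q = p := by simpa using hh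
    exact hpq this.symm
  | cons a l =>
    have ha : a = p := by simpa using hh
    subst ha
    exact ⟨l, hs, hcar⟩

/-- segments are local cones -/
theorem locCone_segment (p q : E) : LocCone (segment ℝ p q) := by
  intro x
  by_cases hx : x ∈ segment ℝ p q
  swap
  · refine locConeAt_of_compl_mem_nhds ?_
    have hcl : IsClosed (segment ℝ p q) := by
      rw [segment_eq_image]
      exact (isCompact_Icc.image (by fun_prop)).isClosed
    exact hcl.isOpen_compl.mem_nhds hx
  by_cases hpq : p = q
  · subst hpq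
    rw [segment_same] at hx ⊢
    rw [mem_singleton_iff] at hx
    subst hx
    refine ⟨1, one_pos, fun v _ t ht => ?_⟩
    simp only [mem_singleton_iff, add_eq_left, smul_eq_zero]
    constructor
    · rintro (h | h)
      · exact absurd h ht.1.ne'
      · exact h
    · exact Or.inr
  have hw : 0 < ‖q - p‖ := norm_pos_iff.2 (sub_ne_zero.2 (Ne.symm hpq))
  have hmem : ∀ s : ℝ, p + s • (q - p) ∈ segment ℝ p q ↔ s ∈ Icc (0:ℝ) 1 := by
    intro s
    rw [segment_eq_image']
    constructor
    · rintro ⟨s', hs', he⟩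
      have h1 : (s' - s) • (q - p) = 0 := by
        rw [sub_smul, sub_eq_zero]; exact add_left_cancel he
      rcases smul_eq_zero.1 h1 with h2 | h2
      · have : s' = s := sub_eq_zero.1 h2
        exact this ▸ hs'
      · exact absurd (sub_eq_zero.1 h2).symm hpq
    · intro hs; exact ⟨s, hs, rfl⟩
  rw [segment_eq_image'] at hx
  obtain ⟨s, hs, rfl⟩ := hx
  -- a radius
  obtain ⟨ρ, hρ, hρ0, hρ1⟩ : ∃ ρ > 0, (0 < s → ρ ≤ s) ∧ (s < 1 → ρ ≤ 1 - s) := by
    rcases eq_or_lt_of_le hs.1 with h0 | h0
    · exact ⟨1, one_pos, fun h => absurd h (by rw [← h0]; exact lt_irrefl _),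
        fun _ => by rw [← h0]; simp⟩
    · rcases eq_or_lt_of_le hs.2 with h1 | h1
      · exact ⟨s, h0, fun _ => le_refl _, fun h => absurd h (by rw [h1]; exact lt_irrefl _)⟩
      · exact ⟨min s (1 - s), lt_min h0 (by linarith), fun _ => min_le_left _ _,
          fun _ => min_le_right _ _⟩
  refine ⟨ρ * ‖q - p‖, by positivity, fun v hv t ht => ?_⟩
  by_cases hpar : ∃ τ : ℝ, v = τ • (q - p)
  · obtain ⟨τ, rfl⟩ := hpar
    have hτ : |τ| ≤ ρ := by
      rw [norm_smul, Real.norm_eq_abs] at hv
      exact le_of_mul_le_mul_right hv hw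
    have hτ' := abs_le.1 hτ
    have e1 : p + s • (q - p) + t • τ • (q - p) = p + (s + t * τ) • (q - p) := by module
    have e2 : p + s • (q - p) + τ • (q - p) = p + (s + τ) • (q - p) := by module
    rw [e1, e2, hmem, hmem]
    have ht1 := ht.1
    have ht2 := ht.2
    constructor
    · rintro ⟨h1, h2⟩
      refine ⟨?_, ?_⟩
      · rcases eq_or_lt_of_le hs.1 with h0 | h0
        · rw [← h0] at h1 ⊢
          have : 0 ≤ τ := by
            by_contra hneg
            push Not at hneg
            have := mul_neg_of_pos_of_neg ht1 hneg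
            linarith
          linarith
        · have := hρ0 h0; linarith
      · rcases eq_or_lt_of_le hs.2 with h0 | h0
        · rw [h0] at h2 ⊢
          have : τ ≤ 0 := by
            by_contra hneg
            push Not at hneg
            have := mul_pos ht1 hneg
            linarith
          linarith
        · have := hρ1 h0; linarith
    · rintro ⟨h1, h2⟩
      refine ⟨?_, ?_⟩
      · rcases le_total 0 τ with h | h
        · have := mul_nonneg ht1.le h; linarith [hs.1]
        · have : τ ≤ t * τ := by nlinarith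
          linarith
      · rcases le_total 0 τ with h | h
        · have : t * τ ≤ τ := by nlinarith
          linarith
        · have := mul_nonpos_of_nonneg_of_nonpos ht1.le h; linarith [hs.2]
  · have hno : ∀ t : ℝ, t ≠ 0 → p + s • (q - p) + t • v ∉ segment ℝ p q := by
      intro t ht0 hmem'
      rw [segment_eq_image'] at hmem'
      obtain ⟨s', _, he⟩ := hmem'
      apply hpar
      refine ⟨t⁻¹ * (s' - s), ?_⟩
      have h1 : t • v = (s' - s) • (q - p) := by
        have he' : p + s' • (q - p) = p + s • (q - p) + t • v := he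
        rw [add_assoc] at he'
        rw [sub_smul, add_left_cancel he']
        abel
      rw [mul_smul, ← h1, smul_smul, inv_mul_cancel₀ ht0, one_smul]
    constructor
    · intro h; exact absurd h (hno t ht.1.ne')
    · intro h
      have := hno 1 one_ne_zero
      rw [one_smul] at this
      exact absurd h this

theorem locCone_pcar (l : List E) : LocCone (pcar l) := by
  induction l with
  | nil => exact locCone_empty
  | cons a l ih =>
    cases l with
    | nil =>
      have := locCone_segment a a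
      rwa [segment_same] at this
    | cons b l => exact (locCone_segment a b).union ih

/-- conical arcs are local cones -/
theorem locCone_of_isArc {A : Set E} {p q : E} (h : IsArc A p q) : LocCone A := by
  obtain ⟨l, -, rfl⟩ := exists_psimple_of_isArc h
  exact locCone_pcar _

/-- conical circles are local cones -/
theorem locCone_of_isCircle {C : Set E} (h : IsCircle C) : LocCone C := by
  obtain ⟨A, B, p, q, hA, hB, -, rfl⟩ := h.exists_arcs
  exact (locCone_of_isArc hA).union (locCone_of_isArc hB)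

end P073.H339
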