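import Vale.Agent.P073.H339.Glue2
import Vale.Agent.P073.PT.ArcGlue

/-!
# P073 / H339: splitting arcs, arcs of a circle through two points
-/

open Set Metric Topology Filter

namespace P073.H339

variable {E F : Type*} [NormedAddCommGroup E] [NormedSpace ℝ E]
  [NormedAddCommGroup F] [NormedSpace ℝ F]

theorem isArc_iff_conBall {A : Set E} {p q : E} : IsArc A p q ↔ ConBall 1 A {p, q} := by
  constructor
  · rintro ⟨φ, h0, h1⟩
    have := ConBall.of_param one_pos φ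
    rwa [h0, h1] at this
  · intro h
    obtain ⟨ψ, h0, h1⟩ := h.exists_param one_pos
    exact ⟨ψ, h0, h1⟩

theorem IsArc.split {A : Set E} {a b c : E} (h : IsArc A a b) (hc : c ∈ A) (hca : c ≠ a)
    (hcb : c ≠ b) : ∃ A₁ A₂ : Set E, IsArc A₁ a c ∧ IsArc A₂ c b ∧ A₁ ∩ A₂ ⊆ {c} ∧
      A = A₁ ∪ A₂ := by
  obtain ⟨φ, h0, h1⟩ := h
  obtain ⟨t, ht, rfl⟩ : c ∈ φ.toFun '' Icc 0 1 := by rw [φ.image_eq]; exact hc
  have ht0 : 0 < t := by
    rcases eq_or_lt_of_le ht.1 with h | h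
    · exact absurd (by rw [← h, h0]) hca
    · exact h
  have ht1 : t < 1 := by
    rcases eq_or_lt_of_le ht.2 with h | h
    · exact absurd (by rw [h, h1]) hcb
    · exact h
  have s1 : Icc (0:ℝ) t ⊆ Icc 0 1 := Icc_subset_Icc_right ht1.le
  have s2 : Icc t (1:ℝ) ⊆ Icc 0 1 := Icc_subset_Icc_left ht0.le
  refine ⟨φ.toFun '' Icc 0 t, φ.toFun '' Icc t 1,
    IsArc.of_param ht0 (φ.restr (Convex.conicalSet (convex_Icc _ _)) s1) h0 rfl,
    IsArc.of_param ht1 (φ.restr (Convex.conicalSet (convex_Icc _ _)) s2) rfl h1, ?_, ?_⟩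
  · rintro _ ⟨⟨s, hs, rfl⟩, ⟨s', hs', he⟩⟩
    have : s' = s := φ.injOn (s2 hs') (s1 hs) he
    subst this
    have : s' = t := le_antisymm hs.2 hs'.1
    rw [this]; rfl
  · rw [← image_union, Icc_union_Icc_eq_Icc ht0.le ht1.le, φ.image_eq]

theorem IsArc.exists_interior {A : Set E} {a b : E} (h : IsArc A a b) :
    ∃ c ∈ A, c ≠ a ∧ c ≠ b := by
  obtain ⟨φ, h0, h1⟩ := h
  have hm : (1/2:ℝ) ∈ Icc (0:ℝ) 1 := ⟨by norm_num, by norm_num⟩
  refine ⟨φ.toFun (1/2), φ.mapsTo hm, ?_, ?_⟩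
  · rw [← h0]
    intro h
    have := φ.injOn hm ⟨le_refl _, zero_le_one⟩ h
    norm_num at this
  · rw [← h1]
    intro h
    have := φ.injOn hm ⟨zero_le_one, le_refl _⟩ h
    norm_num at this

theorem IsArc.not_subset_pair {A : Set E} {a b : E} (h : IsArc A a b) : ¬ A ⊆ {a, b} := by
  intro hs
  obtain ⟨c, hc, h1, h2⟩ := IsArc.exists_interior h
  rcases hs hc with h' | h'
  · exact h1 h'
  · exact h2 h'

/-- the open arc is preconnected -/
theorem IsArc.isPreconnected_open {A : Set E} {a b : E} (h : IsArc A a b) :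
    IsPreconnected (A \ {a, b}) := by
  obtain ⟨φ, h0, h1⟩ := h
  have : A \ {a, b} = φ.toFun '' Ioo 0 1 := by
    ext x
    constructor
    · rintro ⟨hx, hx'⟩
      obtain ⟨t, ht, rfl⟩ : x ∈ φ.toFun '' Icc 0 1 := by rw [φ.image_eq]; exact hx
      refine ⟨t, ⟨?_, ?_⟩, rfl⟩
      · rcases eq_or_lt_of_le ht.1 with h | h
        · exact absurd (Or.inl (by rw [← h, h0])) hx'
        · exact h
      · rcases eq_or_lt_of_le ht.2 with h | h
        · exact absurd (Or.inr (by rw [h, h1]; rfl)) hx'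
        · exact h
    · rintro ⟨t, ht, rfl⟩
      have ht' : t ∈ Icc (0:ℝ) 1 := ⟨ht.1.le, ht.2.le⟩
      refine ⟨φ.mapsTo ht', ?_⟩
      rintro (h | h)
      · rw [← h0] at h
        exact ht.1.ne' (φ.injOn ht' ⟨le_refl _, zero_le_one⟩ h)
      · rw [mem_singleton_iff, ← h1] at h
        exact ht.2.ne (φ.injOn ht' ⟨zero_le_one, le_refl _⟩ h)
  rw [this]
  exact isPreconnected_Ioo.image _ (φ.cont.mono Ioo_subset_Icc_self)

/-- closure of the open arc contains the arc -/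
theorem IsArc.subset_closure_open {A : Set E} {a b : E} (h : IsArc A a b) :
    A ⊆ closure (A \ {a, b}) := by
  intro x hx
  obtain ⟨φ, h0, h1⟩ := h
  obtain ⟨t, ht, rfl⟩ : x ∈ φ.toFun '' Icc 0 1 := by rw [φ.image_eq]; exact hx
  have hcl : t ∈ closure (Ioo (0:ℝ) 1) := by rw [closure_Ioo zero_ne_one]; exact ht
  have hcont : ContinuousWithinAt φ.toFun (Ioo 0 1) t := (φ.cont t ht).mono Ioo_subset_Icc_self
  have := hcont.mem_closure hcl (s := Ioo 0 1) (t := A \ {a, b}) ?_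
  · exact this
  · intro s hs
    have hs' : s ∈ Icc (0:ℝ) 1 := ⟨hs.1.le, hs.2.le⟩
    refine ⟨φ.mapsTo hs', ?_⟩
    rintro (h | h)
    · rw [← h0] at h
      exact hs.1.ne' (φ.injOn hs' ⟨le_refl _, zero_le_one⟩ h)
    · rw [mem_singleton_iff, ← h1] at h
      exact hs.2.ne (φ.injOn hs' ⟨zero_le_one, le_refl _⟩ h)

/-- arcs of a circle starting at a given point -/
theorem IsCircle.arcs_at {C : Set E} (h : IsCircle C) {p : E} (hp : p ∈ C) :
    ∃ (q : E) (A B : Set E), IsArc A p q ∧ IsArc B p q ∧ A ∩ B ⊆ {p, q} ∧ C = A ∪ B := by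
  obtain ⟨A, B, a, b, hA, hB, hAB, rfl⟩ := IsCircle.exists_arcs h
  by_cases hpa : p = a
  · subst hpa; exact ⟨b, A, B, hA, hB, hAB, rfl⟩
  by_cases hpb : p = b
  · subst hpb; exact ⟨a, A, B, hA.symm, hB.symm, by rw [pair_comm]; exact hAB, rfl⟩
  -- general step
  have key : ∀ A B : Set E, IsArc A a b → IsArc B a b → A ∩ B ⊆ {a, b} → p ∈ A →
      ∃ (q : E) (A' B' : Set E), IsArc A' p q ∧ IsArc B' p q ∧ A' ∩ B' ⊆ {p, q} ∧
        A ∪ B = A' ∪ B' := by
    intro A B hA hB hAB hpA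
    obtain ⟨A₁, A₂, h1, h2, h3, rfl⟩ := IsArc.split hA hpA hpa hpb
    have hA₂B : A₂ ∩ B ⊆ {b} := by
      rintro x ⟨hx, hxB⟩
      rcases hAB ⟨Or.inr hx, hxB⟩ with h | h
      · exfalso
        subst h
        exact hpa ((mem_singleton_iff.1 (h3 ⟨h1.left_mem, hx⟩)).symm)
      · exact h
    refine ⟨a, A₁, A₂ ∪ B, h1.symm, h2.trans hB.symm hA₂B, ?_, by rw [union_assoc]⟩
    rintro x ⟨hx, hx' | hx'⟩
    · exact Or.inl (h3 ⟨hx, hx'⟩)
    · rcases hAB ⟨Or.inl hx, hx'⟩ with h | h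
      · exact Or.inr h
      · exfalso
        rw [mem_singleton_iff] at h
        subst h
        exact hpb ((mem_singleton_iff.1 (h3 ⟨hx, h2.right_mem⟩)).symm)
  rcases hp with hp | hp
  · exact key A B hA hB hAB hp
  · obtain ⟨q, A', B', r1, r2, r3, r4⟩ := key B A hB hA (by rw [inter_comm]; exact hAB) hp
    exact ⟨q, A', B', r1, r2, r3, by rw [union_comm A B]; exact r4⟩

/-- the two arcs of a circle between two given points -/
theorem IsCircle.arcs_through {C : Set E} (h : IsCircle C) {p q : E} (hp : p ∈ C) (hq : q ∈ C)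
    (hpq : p ≠ q) :
    ∃ A B : Set E, IsArc A p q ∧ IsArc B p q ∧ A ∩ B ⊆ {p, q} ∧ C = A ∪ B := by
  obtain ⟨b, A, B, hA, hB, hAB, rfl⟩ := IsCircle.arcs_at h hp
  by_cases hqb : q = b
  · subst hqb; exact ⟨A, B, hA, hB, hAB, rfl⟩
  have key : ∀ A B : Set E, IsArc A p b → IsArc B p b → A ∩ B ⊆ {p, b} → q ∈ A →
      ∃ A' B' : Set E, IsArc A' p q ∧ IsArc B' p q ∧ A' ∩ B' ⊆ {p, q} ∧ A ∪ B = A' ∪ B' := by
    intro A B hA hB hAB hqA
    obtain ⟨A₁, A₂, h1, h2, h3, rfl⟩ := IsArc.split hA hqA hpq.symm hqb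
    have hBA₂ : B ∩ A₂ ⊆ {b} := by
      rintro x ⟨hxB, hx⟩
      rcases hAB ⟨Or.inr hx, hxB⟩ with h | h
      · exfalso
        subst h
        exact hpq (mem_singleton_iff.1 (h3 ⟨h1.left_mem, hx⟩))
      · exact h
    refine ⟨A₁, B ∪ A₂, h1, hB.trans h2.symm hBA₂, ?_, ?_⟩
    · rintro x ⟨hx, hx' | hx'⟩
      · rcases hAB ⟨Or.inl hx, hx'⟩ with h | h
        · exact Or.inl h
        · exfalso
          rw [mem_singleton_iff] at h
          subst h
          exact hqb ((mem_singleton_iff.1 (h3 ⟨hx, h2.right_mem⟩)).symm)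
      · exact Or.inr (h3 ⟨hx, hx'⟩)
    · rw [union_assoc, union_comm A₂ B]
  rcases hq with hq | hq
  · exact key A B hA hB hAB hq
  · obtain ⟨A', B', r1, r2, r3, r4⟩ := key B A hB hA (by rw [inter_comm]; exact hAB) hq
    exact ⟨A', B', r1, r2, r3, by rw [union_comm A B]; exact r4⟩

theorem IsCircle.image {C : Set E} (h : IsCircle C) {X : Set E} {Y : Set F} (Φ : ConHomeo X Y)
    (hC : C ⊆ X) : IsCircle (Φ.toFun '' C) := by
  obtain ⟨φ⟩ := h
  exact ⟨φ.trans (Φ.restr φ.conicalSet_right hC)⟩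

theorem IsCircle.isCompact {C : Set E} (h : IsCircle C) : IsCompact C := by
  obtain ⟨φ⟩ := h
  exact φ.isCompact_right (isCompact_sphere _ _)

/-- an arc contained in an arc with the same end points is equal to it -/
theorem arc_eq_of_subset {A A' : Set E} {p q : E} (hA : IsArc A p q)
    (hA' : IsArc A' p q) (hsub : A' ⊆ A) : A' = A := by
  obtain ⟨φ, h0, h1⟩ := hA
  obtain ⟨ψ, k0, k1⟩ := hA'
  -- the composite `Icc 0 1 → Icc 0 1` is continuous from 0 to 1, hence onto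
  have hc : ContinuousOn (fun t => φ.invFun (ψ.toFun t)) (Icc 0 1) :=
    φ.cont_inv.comp ψ.cont fun t ht => hsub (ψ.mapsTo ht)
  have e0 : φ.invFun (ψ.toFun 0) = 0 := by
    rw [k0, ← h0, φ.left_inv ⟨le_refl _, zero_le_one⟩]
  have e1 : φ.invFun (ψ.toFun 1) = 1 := by
    rw [k1, ← h1, φ.left_inv ⟨zero_le_one, le_refl _⟩]
  have hsurj := intermediate_value_Icc (zero_le_one (α := ℝ)) hc
  simp only [e0, e1] at hsurj
  refine Subset.antisymm hsub fun x hx => ?_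
  obtain ⟨t, ht, hte⟩ := hsurj (φ.mapsTo_inv hx)
  have : ψ.toFun t = x := by
    have h2 : φ.toFun (φ.invFun (ψ.toFun t)) = φ.toFun (φ.invFun x) := congrArg _ hte
    rw [φ.right_inv (hsub (ψ.mapsTo ht)), φ.right_inv hx] at h2
    exact h2
  exact this ▸ ψ.mapsTo ht

end P073.H339
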