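import Vale.Agent.P073.ConGlue

/-!
# P073 / H339: ambient (homogeneous) extension of conical homeomorphisms of frontiers of convex
bodies
-/

open Set Metric Topology Filter

namespace P073.H339

variable {E F : Type*} [NormedAddCommGroup E] [NormedSpace ℝ E]
  [NormedAddCommGroup F] [NormedSpace ℝ F]

/-- `Φ` commutes with the homotheties of ratio in `[0,1]` with centres `a` and `b` -/
def HomogAt (Φ : E → F) (K : Set E) (a : E) (b : F) : Prop :=
  ∀ x ∈ K, ∀ c ∈ Icc (0:ℝ) 1, Φ (a + c • (x - a)) = b + c • (Φ x - b)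

theorem exists_scale {K : Set E} {a : E} (ha : K ∈ 𝓝 a) (y : E) :
    ∃ n : ℕ, a + ((n:ℝ) + 1)⁻¹ • (y - a) ∈ interior K := by
  have h1 : Tendsto (fun n : ℕ => a + ((n:ℝ) + 1)⁻¹ • (y - a)) atTop (𝓝 a) := by
    have h2 : Tendsto (fun n : ℕ => ((n:ℝ) + 1)⁻¹) atTop (𝓝 0) := by
      simpa [one_div] using tendsto_one_div_add_atTop_nhds_zero_nat (𝕜 := ℝ)
    have h3 := (h2.smul_const (y - a)).const_add a
    simpa using h3
  have h4 : ∀ᶠ n : ℕ in atTop, a + ((n:ℝ) + 1)⁻¹ • (y - a) ∈ interior K :=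
    h1 (interior_mem_nhds.2 ha)
  exact h4.exists

open Classical in
/-- the homogeneous extension of `Φ` -/
noncomputable def homExt (Φ : E → F) (K : Set E) (a : E) (b : F) (y : E) : F :=
  if h : ∃ n : ℕ, a + ((n:ℝ) + 1)⁻¹ • (y - a) ∈ K then
    b + ((h.choose : ℝ) + 1) • (Φ (a + ((h.choose : ℝ) + 1)⁻¹ • (y - a)) - b) else b

theorem homExt_eq {Φ : E → F} {K : Set E} {a : E} {b : F} (hΦ : HomogAt Φ K a b)
    {y : E} {t : ℝ} (ht : 0 < t) (hy : a + t⁻¹ • (y - a) ∈ K) (hK : K ∈ 𝓝 a) :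
    homExt Φ K a b y = b + t • (Φ (a + t⁻¹ • (y - a)) - b) := by
  have hex : ∃ n : ℕ, a + ((n:ℝ) + 1)⁻¹ • (y - a) ∈ K := by
    obtain ⟨n, hn⟩ := exists_scale hK y
    exact ⟨n, interior_subset hn⟩
  unfold homExt
  rw [dif_pos hex]
  set s : ℝ := (hex.choose : ℝ) + 1 with hs
  have hs0 : 0 < s := by positivity
  have hsK : a + s⁻¹ • (y - a) ∈ K := hex.choose_spec
  -- compare the two scales
  rcases le_total s t with hst | hst
  · have hc : s / t ∈ Icc (0:ℝ) 1 := ⟨by positivity, (div_le_one ht).2 hst⟩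
    have h1 := hΦ _ hsK _ hc
    have h2 : a + (s / t) • (a + s⁻¹ • (y - a) - a) = a + t⁻¹ • (y - a) := by
      rw [add_sub_cancel_left, smul_smul]
      congr 2
      field_simp
    rw [h2] at h1
    rw [h1, add_sub_cancel_left, smul_smul]
    congr 2
    field_simp
  · have hc : t / s ∈ Icc (0:ℝ) 1 := ⟨by positivity, (div_le_one hs0).2 hst⟩
    have h1 := hΦ _ hy _ hc
    have h2 : a + (t / s) • (a + t⁻¹ • (y - a) - a) = a + s⁻¹ • (y - a) := by
      rw [add_sub_cancel_left, smul_smul]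
      congr 2
      field_simp
    rw [h2] at h1
    rw [h1, add_sub_cancel_left, smul_smul]
    congr 2
    field_simp

theorem homExt_of_mem {Φ : E → F} {K : Set E} {a : E} {b : F} (hΦ : HomogAt Φ K a b)
    {y : E} (hy : y ∈ K) (hK : K ∈ 𝓝 a) : homExt Φ K a b y = Φ y := by
  have := homExt_eq hΦ (t := 1) (y := y) one_pos (by simpa using hy) hK
  simpa using this

/-- the open set on which scale `t` works -/
theorem scale_nhds {K : Set E} {a : E} {t : ℝ} {y : E}
    (hy : a + t⁻¹ • (y - a) ∈ interior K) :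
    ∀ᶠ z in 𝓝 y, a + t⁻¹ • (z - a) ∈ interior K := by
  have hc : Continuous fun z : E => a + t⁻¹ • (z - a) := by fun_prop
  exact hc.continuousAt (isOpen_interior.mem_nhds hy)

theorem continuous_homExt {Φ : E → F} {K : Set E} {a : E} {b : F} (hΦ : HomogAt Φ K a b)
    (hc : ContinuousOn Φ K) (hK : K ∈ 𝓝 a) : Continuous (homExt Φ K a b) := by
  rw [continuous_iff_continuousAt]
  intro y
  obtain ⟨n, hn⟩ := exists_scale hK y
  have ht : (0:ℝ) < (n:ℝ) + 1 := by positivity
  have h1 : (fun z => b + ((n:ℝ) + 1) • (Φ (a + ((n:ℝ) + 1)⁻¹ • (z - a)) - b)) =ᶠ[𝓝 y]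
      homExt Φ K a b := by
    filter_upwards [scale_nhds hn] with z hz
    exact (homExt_eq hΦ ht (interior_subset hz) hK).symm
  refine ContinuousAt.congr ?_ h1
  have h2 : ContinuousAt Φ (a + ((n:ℝ) + 1)⁻¹ • (y - a)) :=
    hc.continuousAt (mem_interior_iff_mem_nhds.1 hn)
  have h3 : ContinuousAt (fun z : E => a + ((n:ℝ) + 1)⁻¹ • (z - a)) y := by fun_prop
  have h4 : ContinuousAt (fun z => Φ (a + ((n:ℝ) + 1)⁻¹ • (z - a))) y :=
    ContinuousAt.comp (g := Φ) h2 h3
  fun_prop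

theorem conicalOn_homExt {Φ : E → F} {K : Set E} {a : E} {b : F} (hΦ : HomogAt Φ K a b)
    (hc : ConicalOn Φ K) (hK : K ∈ 𝓝 a) : ConicalOn (homExt Φ K a b) univ := by
  intro y _
  obtain ⟨n, hn⟩ := exists_scale hK y
  have ht : (0:ℝ) < (n:ℝ) + 1 := by positivity
  set t : ℝ := (n:ℝ) + 1 with htdef
  -- the open set
  let U : Set E := {z | a + t⁻¹ • (z - a) ∈ interior K}
  have hU : IsOpen U := isOpen_interior.preimage (by fun_prop)
  have hUc : ConicalSet U := P073.IsOpen.conicalSet hU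
  have hid : ConicalOn (fun z : E => z) U := conicalOn_id hUc
  have hg : ConicalOn (fun z : E => a + t⁻¹ • (z - a)) U :=
    (conicalOn_const a hUc).add ((hid.sub (conicalOn_const a hUc)).const_smul t⁻¹)
  have hcomp : ConicalOn (Φ ∘ fun z : E => a + t⁻¹ • (z - a)) U :=
    hc.comp hg (fun z hz => interior_subset hz) (by fun_prop)
  have hH : ConicalOn (fun z => b + t • ((Φ ∘ fun z : E => a + t⁻¹ • (z - a)) z - b)) U :=
    (conicalOn_const b hUc).add ((hcomp.sub (conicalOn_const b hUc)).const_smul t)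
  have hy : y ∈ U := hn
  refine (hH y hy).congr_nhds ?_ ?_ ?_
  · filter_upwards [hU.mem_nhds hy] with z hz
    exact ⟨fun _ => hz, fun _ => mem_univ z⟩
  · refine Eventually.of_forall fun z hz => ?_
    exact homExt_eq hΦ ht (interior_subset hz) hK
  · exact homExt_eq hΦ ht (interior_subset hn) hK

theorem homExt_homExt {K : Set E} {L : Set F} {a : E} {b : F}
    {f : E → F} {g : F → E} (hfm : MapsTo f K L) (hgf : LeftInvOn g f K)
    (hf : HomogAt f K a b) (hg : HomogAt g L b a) (hK : K ∈ 𝓝 a) (hL : L ∈ 𝓝 b) (y : E) :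
    homExt g L b a (homExt f K a b y) = y := by
  obtain ⟨n, hn⟩ := exists_scale hK y
  have ht : (0:ℝ) < (n:ℝ) + 1 := by positivity
  set t : ℝ := (n:ℝ) + 1 with htdef
  have hyK := interior_subset hn
  rw [homExt_eq hf ht hyK hK]
  have h1 : b + t⁻¹ • (b + t • (f (a + t⁻¹ • (y - a)) - b) - b) = f (a + t⁻¹ • (y - a)) := by
    rw [add_sub_cancel_left, smul_smul, inv_mul_cancel₀ ht.ne', one_smul, add_sub_cancel]
  rw [homExt_eq hg ht (by rw [h1]; exact hfm hyK) hL, h1, hgf hyK, add_sub_cancel_left,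
    smul_smul, mul_inv_cancel₀ ht.ne', one_smul, add_sub_cancel]

/-- a homogeneous conical homeomorphism of convex bodies (or of any sets which are neighbourhoods of
the centres) extends to the whole spaces -/
theorem exists_homExt {K : Set E} {L : Set F} {a : E} {b : F} (Φ : ConHomeo K L)
    (hΦ : HomogAt Φ.toFun K a b) (hΦ' : HomogAt Φ.invFun L b a) (hK : K ∈ 𝓝 a) (hL : L ∈ 𝓝 b) :
    ∃ Ψ : ConHomeo (univ : Set E) (univ : Set F), EqOn Ψ.toFun Φ.toFun K ∧ Ψ.toFun '' K = L ∧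
      ∀ (x : E) (t : ℝ), 0 ≤ t → Ψ.toFun (a + t • (x - a)) = b + t • (Ψ.toFun x - b) := by
  let Ψ : ConHomeo (univ : Set E) (univ : Set F) :=
    { toFun := homExt Φ.toFun K a b
      invFun := homExt Φ.invFun L b a
      mapsTo := mapsTo_univ _ _
      mapsTo_inv := mapsTo_univ _ _
      left_inv := fun y _ => homExt_homExt Φ.mapsTo Φ.left_inv hΦ hΦ' hK hL y
      right_inv := fun y _ => homExt_homExt Φ.mapsTo_inv Φ.right_inv hΦ' hΦ hL hK y
      cont := (continuous_homExt hΦ Φ.cont hK).continuousOn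
      cont_inv := (continuous_homExt hΦ' Φ.cont_inv hL).continuousOn
      conical := conicalOn_homExt hΦ Φ.conical hK }
  have hEq : EqOn Ψ.toFun Φ.toFun K := fun y hy => homExt_of_mem hΦ hy hK
  refine ⟨Ψ, hEq, by rw [hEq.image_eq, Φ.image_eq], ?_⟩
  intro x t ht
  rcases eq_or_lt_of_le ht with h0 | h0
  · rw [← h0, zero_smul, add_zero, zero_smul, add_zero]
    have haK : a ∈ K := mem_of_mem_nhds hK
    rw [hEq haK]
    have := hΦ a haK 0 ⟨le_refl _, zero_le_one⟩
    rw [zero_smul, add_zero, zero_smul, add_zero] at this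
    exact this
  · obtain ⟨n, hn⟩ := exists_scale hK x
    have hs : (0:ℝ) < (n:ℝ) + 1 := by positivity
    set s : ℝ := (n:ℝ) + 1 with hsdef
    have hxK := interior_subset hn
    show homExt Φ.toFun K a b (a + t • (x - a)) = b + t • (homExt Φ.toFun K a b x - b)
    have e1 : a + (t * s)⁻¹ • (a + t • (x - a) - a) = a + s⁻¹ • (x - a) := by
      rw [add_sub_cancel_left, smul_smul]
      congr 2
      field_simp
    rw [homExt_eq hΦ (mul_pos h0 hs) (by rw [e1]; exact hxK) hK, e1,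
      homExt_eq hΦ hs hxK hK, add_sub_cancel_left, smul_smul]

/-- **Ambient extension**: a conical homeomorphism of the frontiers of two compact convex bodies
extends to a conical homeomorphism of the whole spaces (coning inside and outside). -/
theorem exists_extend_ambient [Nontrivial E] [Nontrivial F] {K : Set E} {L : Set F}
    (hK : IsCompact K) (hKc : Convex ℝ K) {a : E} (ha : K ∈ 𝓝 a)
    (hL : IsCompact L) (hLc : Convex ℝ L) {b : F} (hb : L ∈ 𝓝 b)
    (φ : ConHomeo (frontier K) (frontier L)) :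
    ∃ Ψ : ConHomeo (univ : Set E) (univ : Set F), EqOn Ψ.toFun φ.toFun (frontier K) ∧
      Ψ.toFun '' K = L ∧ Ψ.toFun '' (frontier K) = frontier L ∧
      ∀ (x : E) (t : ℝ), 0 ≤ t → Ψ.toFun (a + t • (x - a)) = b + t • (Ψ.toFun x - b) := by
  obtain ⟨Φ, h1, h2⟩ := ConHomeo.exists_extend_convexBody hK hKc ha hL hLc hb φ
  have hcone : ∀ x ∈ K, ∃ s ∈ Icc (0:ℝ) 1, ∃ θ ∈ frontier K, x = a + s • (θ - a) := by
    intro x hx
    rw [← coneSetAt_frontier hK hKc ha] at hx
    exact hx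
  have hΦ : HomogAt Φ.toFun K a b := by
    intro x hx c hc
    obtain ⟨s, hs, θ, hθ, rfl⟩ := hcone x hx
    have hcs : c * s ∈ Icc (0:ℝ) 1 := ⟨mul_nonneg hc.1 hs.1, mul_le_one₀ hc.2 hs.1 hs.2⟩
    rw [add_sub_cancel_left, smul_smul, h2 θ hθ _ hcs, h2 θ hθ _ hs, add_sub_cancel_left,
      smul_smul]
  have hΦ' : HomogAt Φ.invFun L b a := by
    intro y hy c hc
    have hyx := Φ.right_inv hy
    set x := Φ.invFun y with hx
    have hxK : x ∈ K := Φ.mapsTo_inv hy
    have h3 := hΦ x hxK c hc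
    rw [← hyx, ← h3]
    have hmem : a + c • (x - a) ∈ K :=
      hKc.add_smul_sub_mem (mem_of_mem_nhds ha) hxK hc
    rw [Φ.left_inv hmem]
  obtain ⟨Ψ, e1, e2, e3⟩ := exists_homExt Φ hΦ hΦ' ha hb
  have e4 : EqOn Ψ.toFun φ.toFun (frontier K) := fun x hx =>
    (e1 (hK.isClosed.frontier_subset hx)).trans (h1 hx)
  exact ⟨Ψ, e4, e2, by rw [e4.image_eq, φ.image_eq], e3⟩

end P073.H339
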