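import Vale.Agent.P073.H339.Arcs2
import Vale.Agent.P073.H339.Ambient

/-!
# P073 / H339: conical crosscut theorem, decomposition of the annulus between two nested circles

Everything is relative to the Schoenflies property `Sch` (proved in the block SCH).
-/

open Set Metric Topology Filter

namespace P073.H339

/-- Schoenflies property of the plane (conical category) -/
def Sch : Prop := ∀ C : Set (ℝ × ℝ), IsCircle C → ∃ D, AmbDisc D C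

/-- parametrised form of the Schoenflies property -/
theorem Sch.exists_extend (hS : Sch) {C : Set (ℝ × ℝ)} (φ : ConHomeo (sphere (0 : ℝ × ℝ) 1) C) :
    ∃ Φ : ConHomeo (univ : Set (ℝ × ℝ)) (univ : Set (ℝ × ℝ)), EqOn Φ.toFun φ.toFun (sphere 0 1) ∧
      AmbDisc (Φ.toFun '' closedBall 0 1) C := by
  obtain ⟨D, Ψ, hΨ1, hΨ2⟩ := hS C ⟨φ⟩
  have hfs : frontier (closedBall (0 : ℝ × ℝ) 1) = sphere 0 1 := frontier_closedBall _ one_ne_zero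
  let ψ : ConHomeo (sphere (0 : ℝ × ℝ) 1) C :=
    (Ψ.restr conicalSet_sphere_prod (subset_univ _)).cast rfl hΨ2
  let χ : ConHomeo (frontier (closedBall (0 : ℝ × ℝ) 1)) (frontier (closedBall (0 : ℝ × ℝ) 1)) :=
    (φ.trans ψ.symm).cast hfs.symm hfs.symm
  obtain ⟨X, x1, x2, x3, -⟩ := exists_extend_ambient (isCompact_closedBall (0 : ℝ × ℝ) 1)
    (convex_closedBall _ _) (closedBall_mem_nhds (0 : ℝ × ℝ) one_pos)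
    (isCompact_closedBall (0 : ℝ × ℝ) 1) (convex_closedBall _ _)
    (closedBall_mem_nhds (0 : ℝ × ℝ) one_pos) χ
  have key : EqOn (X.trans Ψ).toFun φ.toFun (sphere 0 1) := by
    intro x hx
    have hx' : x ∈ frontier (closedBall (0 : ℝ × ℝ) 1) := by rw [hfs]; exact hx
    show Ψ.toFun (X.toFun x) = φ.toFun x
    rw [x1 hx']
    exact ψ.right_inv (φ.mapsTo hx)
  refine ⟨X.trans Ψ, key, X.trans Ψ, rfl, ?_⟩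
  rw [key.image_eq, φ.image_eq]

/-- **Conical crosscut theorem** -/
theorem Sch.crosscut (hS : Sch) {D A₁ A₂ α : Set (ℝ × ℝ)} {a b : ℝ × ℝ}
    (h : AmbDisc D (A₁ ∪ A₂)) (h1 : IsArc A₁ a b) (h2 : IsArc A₂ a b) (hα : IsArc α a b)
    (hA : A₁ ∩ A₂ ⊆ {a, b}) (hαD : α ⊆ D) (hα1 : α ∩ A₁ ⊆ {a, b}) (hα2 : α ∩ A₂ ⊆ {a, b}) :
    ∃ D₁ D₂, AmbDisc D₁ (A₁ ∪ α) ∧ AmbDisc D₂ (A₂ ∪ α) ∧ D = D₁ ∪ D₂ ∧ D₁ ∩ D₂ = α ∧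
      A₂ ∩ D₁ ⊆ {a, b} ∧ A₁ ∩ D₂ ⊆ {a, b} := by
  obtain ⟨D₁, hD₁⟩ := hS (A₁ ∪ α) (isCircle_of_arcs h1 hα (by rw [inter_comm]; exact hα1))
  obtain ⟨D₂, hD₂⟩ := hS (A₂ ∪ α) (isCircle_of_arcs h2 hα (by rw [inter_comm]; exact hα2))
  obtain ⟨r1, r2, r3, r4⟩ := JDisc.crosscut h.jdisc hD₁.jdisc hD₂.jdisc hαD hα1 hα2 hA
    hα.left_mem hα.right_mem (IsArc.not_subset_pair h1) (IsArc.not_subset_pair h2)
    h1.isClosed h2.isClosed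
  exact ⟨D₁, D₂, hD₁, hD₂, r1, r2, r3, r4⟩

/-- decomposition of the annulus between `C' = ∂D'` and `C = ∂D` into two discs -/
structure AnnDecomp (D C D' C' : Set (ℝ × ℝ)) (p q p' q' : ℝ × ℝ)
    (S₁ S₂ L₁ L₂ β γ P₁ P₂ : Set (ℝ × ℝ)) : Prop where
  hS₁ : IsArc S₁ p q
  hS₂ : IsArc S₂ p q
  hS : S₁ ∩ S₂ ⊆ {p, q}
  hC : C = S₁ ∪ S₂
  hL₁ : IsArc L₁ p' q'
  hL₂ : IsArc L₂ p' q'
  hL : L₁ ∩ L₂ ⊆ {p', q'}
  hC' : C' = L₁ ∪ L₂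
  hβ : IsArc β p p'
  hγ : IsArc γ q q'
  hβγ : Disjoint β γ
  hβC : β ∩ C ⊆ {p}
  hβD' : β ∩ D' ⊆ {p'}
  hγC : γ ∩ C ⊆ {q}
  hγD' : γ ∩ D' ⊆ {q'}
  hP₁ : AmbDisc P₁ (S₁ ∪ (β ∪ L₁ ∪ γ))
  hP₂ : AmbDisc P₂ (S₂ ∪ (β ∪ L₂ ∪ γ))
  hD : D = D' ∪ (P₁ ∪ P₂)
  hP : P₁ ∩ P₂ = β ∪ γ
  hP₁D' : P₁ ∩ D' = L₁
  hP₂D' : P₂ ∩ D' = L₂

/-- Given the two connecting arcs, the annulus decomposes. -/
theorem Sch.annDecomp (hS : Sch) {D D' : Set (ℝ × ℝ)} {p q p' q' : ℝ × ℝ}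
    {S₁ S₂ L₁ L₂ β γ : Set (ℝ × ℝ)}
    (hD : AmbDisc D (S₁ ∪ S₂)) (hD' : AmbDisc D' (L₁ ∪ L₂)) (hsub : L₁ ∪ L₂ ⊆ interior D)
    (hS₁ : IsArc S₁ p q) (hS₂ : IsArc S₂ p q) (hSS : S₁ ∩ S₂ ⊆ {p, q})
    (hL₁ : IsArc L₁ p' q') (hL₂ : IsArc L₂ p' q') (hLL : L₁ ∩ L₂ ⊆ {p', q'})
    (hβ : IsArc β p p') (hγ : IsArc γ q q') (hβγ : Disjoint β γ)
    (hβD : β ⊆ D) (hγD : γ ⊆ D)
    (hβC : β ∩ (S₁ ∪ S₂) ⊆ {p}) (hβD' : β ∩ D' ⊆ {p'})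
    (hγC : γ ∩ (S₁ ∪ S₂) ⊆ {q}) (hγD' : γ ∩ D' ⊆ {q'}) :
    ∃ (T₁ T₂ P₁ P₂ : Set (ℝ × ℝ)), AnnDecomp D (S₁ ∪ S₂) D' (L₁ ∪ L₂) p q p' q' T₁ T₂ L₁ L₂ β γ
      P₁ P₂ := by
  have hpD' : D' ⊆ interior D := hD.jdisc.subset_interior_of_bdry hD'.jdisc hsub
  have hCL : ∀ x, x ∈ S₁ ∪ S₂ → x ∉ D' := fun x hx hx' => hD.jdisc.interior_disj (hpD' hx') hx
  have hLD' : L₁ ∪ L₂ ⊆ D' := hD'.jdisc.bdry_subset
  have hp'D' : p' ∈ D' := hLD' (Or.inl hL₁.left_mem)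
  have hq'D' : q' ∈ D' := hLD' (Or.inl hL₁.right_mem)
  have hpn : p ∉ D' := hCL p (Or.inl hS₁.left_mem)
  have hqn : q ∉ D' := hCL q (Or.inl hS₁.right_mem)
  -- the first crosscut
  have arcOf : ∀ L : Set (ℝ × ℝ), IsArc L p' q' → L ⊆ D' → IsArc (β ∪ L ∪ γ) p q := by
    intro L hL hLD
    refine (hβ.trans hL ?_).trans hγ.symm ?_
    · exact fun x hx => hβD' ⟨hx.1, hLD hx.2⟩
    · rintro x ⟨hx | hx, hxγ⟩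
      · exact absurd hxγ (disjoint_left.1 hβγ hx)
      · exact hγD' ⟨hxγ, hLD hx⟩
  have hL₁D' : L₁ ⊆ D' := subset_union_left.trans hLD'
  have hL₂D' : L₂ ⊆ D' := subset_union_right.trans hLD'
  have interS : ∀ L : Set (ℝ × ℝ), L ⊆ D' → (β ∪ L ∪ γ) ∩ (S₁ ∪ S₂) ⊆ {p, q} := by
    rintro L hL x ⟨(hx | hx) | hx, hx'⟩
    · exact Or.inl (hβC ⟨hx, hx'⟩)
    · exact absurd (hL hx) (hCL x hx')
    · exact Or.inr (hγC ⟨hx, hx'⟩)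
  have hDcl : ∀ L : Set (ℝ × ℝ), L ⊆ D' → β ∪ L ∪ γ ⊆ D := fun L hL =>
    union_subset (union_subset hβD (hL.trans (hpD'.trans interior_subset))) hγD
  obtain ⟨Q₁, Q₂, hQ₁, hQ₂, hQD, hQQ, hS₂Q₁, hS₁Q₂⟩ := hS.crosscut hD hS₁ hS₂ (arcOf L₁ hL₁ hL₁D')
    hSS (hDcl L₁ hL₁D') (fun x hx => interS L₁ hL₁D' ⟨hx.1, Or.inl hx.2⟩)
    (fun x hx => interS L₁ hL₁D' ⟨hx.1, Or.inr hx.2⟩)
  -- `L₂` minus its end points is on one side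
  have hL₂open : Disjoint (L₂ \ {p', q'}) (β ∪ L₁ ∪ γ) := by
    rw [disjoint_left]
    rintro x ⟨hx, hx'⟩ ((h | h) | h)
    · exact hx' (Or.inl (hβD' ⟨h, hL₂D' hx⟩))
    · exact hx' (hLL ⟨h, hx⟩)
    · exact hx' (Or.inr (hγD' ⟨h, hL₂D' hx⟩))
  have hL₂S : Disjoint (L₂ \ {p', q'}) (S₁ ∪ S₂) := by
    rw [disjoint_left]
    rintro x ⟨hx, _⟩ h
    exact hCL x h (hL₂D' hx)
  -- general continuation: `T`, `Q` is the side containing `L₂`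
  have main : ∀ (T₁ T₂ Q₁ Q₂ : Set (ℝ × ℝ)), IsArc T₁ p q → IsArc T₂ p q →
      T₁ ∩ T₂ ⊆ {p, q} → T₁ ∪ T₂ = S₁ ∪ S₂ → AmbDisc Q₁ (T₁ ∪ (β ∪ L₁ ∪ γ)) →
      AmbDisc Q₂ (T₂ ∪ (β ∪ L₁ ∪ γ)) → D = Q₁ ∪ Q₂ → Q₁ ∩ Q₂ = β ∪ L₁ ∪ γ →
      L₂ ⊆ Q₂ → ∃ (T₁ T₂ P₁ P₂ : Set (ℝ × ℝ)),
      AnnDecomp D (S₁ ∪ S₂) D' (L₁ ∪ L₂) p q p' q' T₁ T₂ L₁ L₂ β γ P₁ P₂ := by
    intro T₁ T₂ Q₁ Q₂ hT₁ hT₂ hTT hTS hQ₁ hQ₂ hQD hQQ hL₂Q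
    have hT₂S : T₂ ⊆ S₁ ∪ S₂ := hTS ▸ subset_union_right
    have hT₁S : T₁ ⊆ S₁ ∪ S₂ := hTS ▸ subset_union_left
    -- second crosscut `L₂` of `Q₂` from `p'` to `q'`; the other boundary arcs are `L₁` and
    -- `β ∪ T₂ ∪ γ`
    have hβT : β ∩ T₂ ⊆ {p} := fun x hx => hβC ⟨hx.1, hT₂S hx.2⟩
    have hγT : T₂ ∩ γ ⊆ {q} := fun x hx => hγC ⟨hx.2, hT₂S hx.1⟩
    have hM : IsArc (β ∪ T₂ ∪ γ) p' q' := by
      refine (hβ.symm.trans hT₂ hβT).trans hγ ?_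
      rintro x ⟨hx | hx, hxγ⟩
      · exact absurd hxγ (disjoint_left.1 hβγ hx)
      · exact hγT ⟨hx, hxγ⟩
    have hbd : L₁ ∪ (β ∪ T₂ ∪ γ) = T₂ ∪ (β ∪ L₁ ∪ γ) := by
      ext x; simp only [mem_union]; tauto
    have hML₁ : L₁ ∩ (β ∪ T₂ ∪ γ) ⊆ {p', q'} := by
      rintro x ⟨hx, (h | h) | h⟩
      · exact Or.inl (hβD' ⟨h, hL₁D' hx⟩)
      · exact absurd (hL₁D' hx) (hCL x (hT₂S h))
      · exact Or.inr (hγD' ⟨h, hL₁D' hx⟩)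
    have hML₂ : L₂ ∩ (β ∪ T₂ ∪ γ) ⊆ {p', q'} := by
      rintro x ⟨hx, (h | h) | h⟩
      · exact Or.inl (hβD' ⟨h, hL₂D' hx⟩)
      · exact absurd (hL₂D' hx) (hCL x (hT₂S h))
      · exact Or.inr (hγD' ⟨h, hL₂D' hx⟩)
    have hQ₂' : AmbDisc Q₂ (L₁ ∪ (β ∪ T₂ ∪ γ)) := by rw [hbd]; exact hQ₂
    obtain ⟨R₁, R₂, hR₁, hR₂, hRQ, hRR, hMR₁, hLR₂⟩ := hS.crosscut hQ₂' hL₁ hM hL₂ hML₁ hL₂Q
      (by rw [inter_comm]; exact hLL) hML₂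
    have hR₁D' : R₁ = D' := hR₁.unique hD'
    subst hR₁D'
    have hP₁bd : Q₁ ∩ R₁ = L₁ := by
      apply Subset.antisymm
      · rintro x ⟨hx1, hx2⟩
        have hx3 : x ∈ Q₂ := hRQ ▸ (Or.inl hx2)
        have hx4 : x ∈ β ∪ L₁ ∪ γ := hQQ ▸ ⟨hx1, hx3⟩
        rcases hx4 with (h | h) | h
        · have : x = p' := hβD' ⟨h, hx2⟩
          rw [this]; exact hL₁.left_mem
        · exact h
        · have : x = q' := hγD' ⟨h, hx2⟩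
          rw [this]; exact hL₁.right_mem
      · intro x hx
        exact ⟨hQ₁.jdisc.bdry_subset (Or.inr (Or.inl (Or.inr hx))), hL₁D' hx⟩
    have hQR : Q₁ ∩ R₂ = β ∪ γ := by
      apply Subset.antisymm
      · rintro x ⟨hx1, hx2⟩
        have hx3 : x ∈ Q₂ := hRQ ▸ (Or.inr hx2)
        have hx4 : x ∈ β ∪ L₁ ∪ γ := hQQ ▸ ⟨hx1, hx3⟩
        rcases hx4 with (h | h) | h
        · exact Or.inl h
        · rcases hLR₂ ⟨h, hx2⟩ with h' | h'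
          · left; rw [h']; exact hβ.right_mem
          · right; rw [mem_singleton_iff.1 h']; exact hγ.right_mem
        · exact Or.inr h
      · rintro x (hx | hx)
        · exact ⟨hQ₁.jdisc.bdry_subset (Or.inr (Or.inl (Or.inl hx))),
            hR₂.jdisc.bdry_subset (Or.inl (Or.inl (Or.inl hx)))⟩
        · exact ⟨hQ₁.jdisc.bdry_subset (Or.inr (Or.inr hx)),
            hR₂.jdisc.bdry_subset (Or.inl (Or.inr hx))⟩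
    refine ⟨T₁, T₂, Q₁, R₂,
      { hS₁ := hT₁, hS₂ := hT₂, hS := hTT, hC := hTS.symm, hL₁ := hL₁, hL₂ := hL₂, hL := hLL,
        hC' := rfl, hβ := hβ, hγ := hγ, hβγ := hβγ, hβC := hβC, hβD' := hβD', hγC := hγC,
        hγD' := hγD', hP₁ := hQ₁, hP₂ := ?_, hD := ?_, hP := hQR, hP₁D' := hP₁bd,
        hP₂D' := ?_ }⟩
    · have : β ∪ T₂ ∪ γ ∪ L₂ = T₂ ∪ (β ∪ L₂ ∪ γ) := by
        ext x; simp only [mem_union]; tauto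
      rw [← this]; exact hR₂
    · rw [hQD, hRQ]
      ext x; simp only [mem_union]; tauto
    · rw [inter_comm]; exact hRR
  -- which side?
  have hconn := IsArc.isPreconnected_open hL₂
  have hL₂D : L₂ ⊆ D := hL₂D'.trans (hpD'.trans interior_subset)
  have hdis1 : Disjoint (L₂ \ {p', q'}) (S₁ ∪ (β ∪ L₁ ∪ γ)) :=
    disjoint_union_right.2 ⟨(disjoint_union_right.1 hL₂S).1, hL₂open⟩
  rcases hQ₁.jdisc.in_or_out hconn hdis1 with hin | hout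
  · -- in `Q₁`
    have hL₂Q₁ : L₂ ⊆ Q₁ := by
      refine (IsArc.subset_closure_open hL₂).trans ?_
      exact closure_minimal (hin.trans interior_subset) hQ₁.jdisc.isClosed
    exact main S₂ S₁ Q₂ Q₁ hS₂ hS₁ (by rw [inter_comm]; exact hSS) (union_comm _ _) hQ₂ hQ₁
      (by rw [union_comm]; exact hQD) (by rw [inter_comm]; exact hQQ) hL₂Q₁
  · have hL₂Q₂ : L₂ ⊆ Q₂ := by
      refine (IsArc.subset_closure_open hL₂).trans ?_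
      refine closure_minimal ?_ hQ₂.jdisc.isClosed
      intro x hx
      have hxD : x ∈ Q₁ ∪ Q₂ := hQD ▸ hL₂D hx.1
      rcases hxD with h | h
      · exact absurd h (disjoint_left.1 hout hx)
      · exact h
    exact main S₁ S₂ Q₁ Q₂ hS₁ hS₂ hSS rfl hQ₁ hQ₂ hQD hQQ hL₂Q₂

end P073.H339
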