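import Vale.Agent.P073.KW720.Tiling
import Vale.Agent.P073.GB200.Inputs
import Vale.Agent.P073.H339.SphereJS

/-!
# P073, block KW: convex polytopes of dimension at most three are conical balls
-/

set_option linter.unusedSectionVars false

open Set Metric Topology Filter Module

namespace P073.H339

open P073 P073.GB200

universe u

section

variable {E F : Type*} [NormedAddCommGroup E] [NormedSpace ℝ E]
  [NormedAddCommGroup F] [NormedSpace ℝ F]

/-- finite intersections of closed half spaces -/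
def Poly (C : Set E) : Prop :=
  ∃ H : Finset ((E →L[ℝ] ℝ) × ℝ), C = {x | ∀ h ∈ H, h.1 x ≤ h.2}

theorem poly_univ : Poly (univ : Set E) := ⟨∅, by simp⟩

theorem poly_half (l : E →L[ℝ] ℝ) (c : ℝ) : Poly {x : E | l x ≤ c} := ⟨{(l, c)}, by simp⟩

theorem Poly.inter {C D : Set E} (hC : Poly C) (hD : Poly D) : Poly (C ∩ D) := by
  classical
  obtain ⟨H, rfl⟩ := hC
  obtain ⟨H', rfl⟩ := hD
  refine ⟨H ∪ H', ?_⟩
  ext x
  simp only [mem_inter_iff, mem_ofPred_eq, Finset.mem_union]
  constructor
  · rintro ⟨h1, h2⟩ h (h3 | h3)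
    · exact h1 h h3
    · exact h2 h h3
  · intro h
    exact ⟨fun g hg => h g (Or.inl hg), fun g hg => h g (Or.inr hg)⟩

theorem Poly.convex {C : Set E} (hC : Poly C) : Convex ℝ C := by
  obtain ⟨H, rfl⟩ := hC
  have : {x : E | ∀ h ∈ H, h.1 x ≤ h.2} = ⋂ h ∈ H, {x | h.1 x ≤ h.2} := by ext x; simp
  rw [this]
  exact convex_iInter₂ fun h _ => convex_halfSpace_le h.1.toLinearMap.isLinear h.2

theorem Poly.isClosed {C : Set E} (hC : Poly C) : IsClosed C := by
  obtain ⟨H, rfl⟩ := hC
  have : {x : E | ∀ h ∈ H, h.1 x ≤ h.2} = ⋂ h ∈ H, {x | h.1 x ≤ h.2} := by ext x; simp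
  rw [this]
  exact isClosed_biInter fun h _ => isClosed_le h.1.continuous continuous_const

/-- preimages under continuous affine maps `z ↦ q + L z` -/
theorem Poly.preimage {C : Set E} (hC : Poly C) (L : F →L[ℝ] E) (q : E) :
    Poly {z : F | q + L z ∈ C} := by
  classical
  obtain ⟨H, rfl⟩ := hC
  refine ⟨H.image fun h => (h.1.comp L, h.2 - h.1 q), ?_⟩
  ext z
  simp only [mem_ofPred_eq, Finset.mem_image, forall_exists_index, and_imp]
  constructor
  · rintro h1 _ h hh rfl
    have := h1 h hh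
    rw [map_add] at this
    show h.1 (L z) ≤ h.2 - h.1 q
    linarith
  · intro h1 h hh
    have := h1 _ h hh rfl
    rw [map_add]
    change h.1 (L z) ≤ h.2 - h.1 q at this
    linarith

/-- **cones over spheres**: a compact convex body whose frontier is a conical sphere is a ball -/
theorem conBall_of_frontier {n : ℕ} [Nontrivial E] {K : Set E} (hK : IsCompact K)
    (hc : Convex ℝ K) (hi : (interior K).Nonempty) (hS : ConSphere n (frontier K)) :
    ConBall (n + 1) K (frontier K) := by
  obtain ⟨φ⟩ := hS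
  obtain ⟨a, ha⟩ := hi
  have e : frontier (closedBall (0 : Fin (n + 1) → ℝ) 1) = sphere 0 1 :=
    frontier_closedBall _ one_ne_zero
  obtain ⟨Φ, hΦ, -⟩ := ConHomeo.exists_extend_convexBody hK hc (mem_interior_iff_mem_nhds.1 ha)
    (isCompact_closedBall (0 : Fin (n + 1) → ℝ) 1) (convex_closedBall _ _)
    (closedBall_mem_nhds _ one_pos) (φ.cast rfl e.symm)
  refine ⟨hK.isClosed.frontier_subset, Φ, ?_⟩
  rw [hΦ.image_eq]
  exact φ.image_eq

/-- the interior of an affine section of a convex set through an interior point -/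
theorem interior_preimage {K : Set E} (hc : Convex ℝ K) (L : F →L[ℝ] E) (q : E) {z₀ : F}
    (h0 : q + L z₀ ∈ interior K) :
    interior {z : F | q + L z ∈ K} = {z | q + L z ∈ interior K} := by
  have hcont : Continuous fun z : F => q + L z := by fun_prop
  apply Subset.antisymm
  · intro z hz
    have h1 : ContinuousAt (fun ε : ℝ => z + ε • (z - z₀)) 0 := by fun_prop
    have h2 : ∀ᶠ ε : ℝ in 𝓝 0, z + ε • (z - z₀) ∈ {z : F | q + L z ∈ K} := by
      refine h1.preimage_mem_nhds (t := {z : F | q + L z ∈ K}) ?_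
      show {z : F | q + L z ∈ K} ∈ 𝓝 (z + (0:ℝ) • (z - z₀))
      rw [zero_smul, add_zero]
      exact mem_interior_iff_mem_nhds.1 hz
    obtain ⟨ε, hε, hε0⟩ := ((h2.filter_mono nhdsWithin_le_nhds).and
      (self_mem_nhdsWithin (s := Ioi (0:ℝ)))).exists
    have hε0 : (0:ℝ) < ε := hε0
    have h3 : q + L z ∈ openSegment ℝ (q + L z₀) (q + L (z + ε • (z - z₀))) := by
      refine ⟨ε / (1 + ε), 1 / (1 + ε), by positivity, by positivity, by field_simp; ring, ?_⟩
      have h4 : (1 + ε) ≠ 0 := by positivity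
      have h5 : (ε / (1 + ε)) • (q + L z₀) + (1 / (1 + ε)) • (q + L (z + ε • (z - z₀))) =
          (ε / (1 + ε) + 1 / (1 + ε)) • q + (ε / (1 + ε) - 1 / (1 + ε) * ε) • L z₀ +
          (1 / (1 + ε) * (1 + ε)) • L z := by
        rw [map_add, map_smul, map_sub]
        module
      rw [h5, one_div, inv_mul_cancel₀ h4]
      have h6 : ε / (1 + ε) + (1 + ε)⁻¹ = 1 := by field_simp; ring
      have h7 : ε / (1 + ε) - (1 + ε)⁻¹ * ε = 0 := by field_simp; ring
      rw [h6, h7, one_smul, zero_smul, one_smul, add_zero]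
    exact hc.openSegment_interior_self_subset_interior h0 hε h3
  · exact interior_maximal (preimage_mono (f := fun z : F => q + L z) interior_subset)
      (isOpen_interior.preimage hcont)

/-- a nonzero functional is not maximal on a compact set at an interior point -/
theorem exists_frontier_gt {K : Set E} (hK : IsCompact K) {l : E →L[ℝ] ℝ} (hl : l ≠ 0) {c : ℝ}
    {p : E} (hp : p ∈ K) (hpc : c < l p) : ∃ m ∈ frontier K, c < l m := by
  obtain ⟨m, hm, hmax⟩ := hK.exists_isMaxOn ⟨p, hp⟩ l.continuous.continuousOn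
  refine ⟨m, ⟨subset_closure hm, fun hmi => ?_⟩, hpc.trans_le (hmax hp)⟩
  have h1 : IsLocalMax l m := by
    filter_upwards [mem_interior_iff_mem_nhds.1 hmi] with y hy using hmax hy
  exact hl (h1.hasFDerivAt_eq_zero l.hasFDerivAt)

/-- **Cutting a convex body by a half space.** -/
theorem conBall_cut {k : ℕ} (hJ : JordanSch (k + 1) (sphere (0 : Fin (k + 2) → ℝ) 1))
    (hG : GlueSph (k + 1) E) [Nontrivial E] {K : Set E} (hc : Convex ℝ K)
    (hK : ConBall (k + 2) K (frontier K)) {l : E →L[ℝ] ℝ} {c : ℝ} (hl : l ≠ 0)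
    (hD : ConBall (k + 1) (K ∩ {x | l x = c}) (frontier K ∩ {x | l x = c})) {p q : E}
    (hp : p ∈ interior K) (hpc : l p < c) (hq : q ∈ K) (hqc : c < l q) :
    ConBall (k + 2) (K ∩ {x | l x ≤ c}) (frontier (K ∩ {x | l x ≤ c})) := by
  have hKc : IsCompact K := hK.isCompact
  have hKcl : IsClosed K := hKc.isClosed
  set γ := frontier K ∩ {x | l x = c} with hγ
  obtain ⟨Φ⟩ := hK.conSphere
  have hJ' : JordanSch (k + 1) (frontier K) := GB200.JordanSch.transport hJ Φ.symm
  obtain ⟨U, W, hUW, hcov, hUne, hWne, hU, hW⟩ := hJ' γ inter_subset_left hD.conSphere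
  -- points of the frontier on both sides
  obtain ⟨M, hM, hMc⟩ := exists_frontier_gt hKc hl hq hqc
  obtain ⟨m, hm, hmc⟩ := exists_frontier_gt (l := -l) (c := -c) hKc (neg_ne_zero.2 hl)
    (interior_subset hp) (by simpa using hpc)
  have hmc : l m < c := by simpa using hmc
  -- each side is on one side of the plane
  have key : ∀ S : Set E, ConBall (k + 1) (S ∪ γ) γ → S ⊆ frontier K \ γ →
      S ⊆ {x | l x < c} ∨ S ⊆ {x | c < l x} := by
    intro S hS hSK
    have hpre : IsPreconnected S := by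
      have := PT.preconn_int hS
      have e : (S ∪ γ) \ γ = S := by
        rw [union_sdiff_right]
        exact sdiff_eq_left.2 (Set.disjoint_left.2 fun x hx => (hSK hx).2)
      rwa [e] at this
    apply isPreconnected_iff_subset_of_disjoint.1 hpre _ _
      (isOpen_lt l.continuous continuous_const) (isOpen_lt continuous_const l.continuous)
    · intro x hx
      rcases lt_trichotomy (l x) c with h | h | h
      · exact Or.inl h
      · exact absurd ⟨(hSK hx).1, h⟩ (hSK hx).2
      · exact Or.inr h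
    · ext x
      simp only [mem_inter_iff, mem_ofPred_eq, mem_empty_iff_false, iff_false, not_and, not_lt]
      intro _ h
      exact h.le
  have hUs : U ⊆ frontier K \ γ := hcov ▸ subset_union_left
  have hWs : W ⊆ frontier K \ γ := hcov ▸ subset_union_right
  have memcov : ∀ x ∈ frontier K, l x ≠ c → x ∈ U ∨ x ∈ W := by
    intro x hx hxc
    have : x ∈ U ∪ W := by rw [hcov]; exact ⟨hx, fun h => hxc h.2⟩
    exact this
  -- the general conclusion
  have main : ∀ S T : Set E, ConBall (k + 1) (S ∪ γ) γ → S ⊆ frontier K \ γ →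
      (∀ x ∈ frontier K, l x ≠ c → x ∈ S ∨ x ∈ T) → S ⊆ {x | l x < c} → T ⊆ {x | c < l x} →
      ConBall (k + 2) (K ∩ {x | l x ≤ c}) (frontier (K ∩ {x | l x ≤ c})) := by
    intro S T hS hSs hST hSl hTl
    have e1 : S ∪ γ = frontier K ∩ {x | l x ≤ c} := by
      ext x
      constructor
      · rintro (h | h)
        · exact ⟨(hSs h).1, le_of_lt (show l x < c from hSl h)⟩
        · exact ⟨h.1, h.2.le⟩
      · rintro ⟨h1, h2⟩
        by_cases h3 : l x = c
        · exact Or.inr ⟨h1, h3⟩
        · rcases hST x h1 h3 with h | h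
          · exact Or.inl h
          · exact absurd (show c < l x from hTl h) (not_lt.2 h2)
    have e2 : frontier (K ∩ {x | l x ≤ c}) = (S ∪ γ) ∪ (K ∩ {x | l x = c}) := by
      have hcl : IsClosed (K ∩ {x | l x ≤ c}) :=
        hKcl.inter (isClosed_le l.continuous continuous_const)
      have hint : interior {x | l x ≤ c} = {x | l x < c} := by
        apply Subset.antisymm
        · intro x hx
          have hx1 : x ∈ {x | l x ≤ c} := interior_subset hx
          refine lt_of_le_of_ne (show l x ≤ c from hx1) fun hxe => hl ?_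
          have h1 : IsLocalMax l x := by
            filter_upwards [mem_interior_iff_mem_nhds.1 hx] with y hy
            rw [hxe]; exact hy
          exact h1.hasFDerivAt_eq_zero l.hasFDerivAt
        · exact interior_maximal (fun x (hx : l x < c) => le_of_lt hx)
            (isOpen_lt l.continuous continuous_const)
      rw [hcl.frontier_eq, interior_inter, hint, e1, hKcl.frontier_eq]
      ext x
      constructor
      · rintro ⟨⟨h1, h2⟩, h3⟩
        by_cases h4 : l x = c
        · exact Or.inr ⟨h1, h4⟩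
        · exact Or.inl ⟨⟨h1, fun h5 => h3 ⟨h5, lt_of_le_of_ne h2 h4⟩⟩, h2⟩
      · rintro (⟨⟨h1, h2⟩, h3⟩ | ⟨h1, h2⟩)
        · exact ⟨⟨h1, h3⟩, fun h => h2 h.1⟩
        · exact ⟨⟨h1, h2.le⟩, fun h => (ne_of_lt h.2) h2⟩
    have e3 : (S ∪ γ) ∩ (K ∩ {x | l x = c}) = γ := by
      rw [e1]
      ext x
      constructor
      · rintro ⟨⟨h1, -⟩, -, h2⟩; exact ⟨h1, h2⟩
      · rintro ⟨h1, h2⟩; exact ⟨⟨h1, h2.le⟩, hKcl.frontier_subset h1, h2⟩
    have hsph : ConSphere (k + 1) (frontier (K ∩ {x | l x ≤ c})) := by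
      rw [e2]; exact hG _ _ _ hS hD e3
    refine conBall_of_frontier (hKc.inter_right (isClosed_le l.continuous continuous_const))
      (hc.inter (convex_halfSpace_le l.toLinearMap.isLinear c)) ?_ hsph
    refine ⟨p, ?_⟩
    rw [interior_inter]
    refine ⟨hp, interior_maximal (fun x (hx : l x < c) => le_of_lt hx)
      (isOpen_lt l.continuous continuous_const) hpc⟩
  rcases key U hU hUs with h1 | h1 <;> rcases key W hW hWs with h2 | h2
  · exfalso
    rcases memcov M hM hMc.ne' with h | h
    · exact lt_asymm hMc (h1 h)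
    · exact lt_asymm hMc (h2 h)
  · exact main U W hU hUs memcov h1 h2
  · exact main W U hW hWs (fun x hx hxc => (memcov x hx hxc).symm) h2 h1
  · exfalso
    rcases memcov m hm hmc.ne with h | h
    · exact lt_asymm hmc (h1 h)
    · exact lt_asymm hmc (h2 h)

end

/-- the statement in dimension `n` -/
def PolyBall (n : ℕ) : Prop :=
  ∀ (E : Type u) [NormedAddCommGroup E] [NormedSpace ℝ E], finrank ℝ E = n →
    ∀ C : Set E, Poly C → IsCompact C → (interior C).Nonempty → ConBall n C (frontier C)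

theorem polyBall_one : PolyBall.{u} 1 := by
  intro E _ _ hE C hP hC hi
  have : FiniteDimensional ℝ E := FiniteDimensional.of_finrank_eq_succ hE
  obtain ⟨L⟩ : Nonempty (E ≃L[ℝ] ℝ) :=
    FiniteDimensional.nonempty_continuousLinearEquiv_of_finrank_eq (by rw [hE, finrank_self])
  have h1 : IsCompact (L '' C) := hC.image L.continuous
  have h2 : Convex ℝ (L '' C) := hP.convex.linear_image L.toLinearMap
  have hne : (L '' C).Nonempty := (hi.mono interior_subset).image _
  obtain ⟨a, b, hab⟩ : ∃ a b : ℝ, L '' C = Icc a b :=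
    ⟨_, _, eq_Icc_of_connected_compact ⟨hne, h2.isPreconnected⟩ h1⟩
  have h3 : (interior (Icc a b)).Nonempty := by
    have h0 : L '' interior C = interior (L '' C) := L.toHomeomorph.image_interior C
    rw [← hab, ← h0]
    exact hi.image _
  rw [interior_Icc] at h3
  have hlt : a < b := nonempty_Ioo.1 h3
  have h4 : ConBall 1 (L '' C) (L '' frontier C) := by
    have : L '' frontier C = frontier (L '' C) := L.toHomeomorph.image_frontier C
    rw [this, hab, frontier_Icc hlt.le]
    exact conBall_Icc hlt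
  have h5 := h4.image_affine (L.symm.toLinearMap.toAffineMap) L.symm.injective L.symm.continuous
  have h6 : ∀ S : Set E, (L.symm.toLinearMap.toAffineMap : ℝ → E) '' (L '' S) = S := by
    intro S
    rw [image_image]
    have : ∀ x ∈ S, (L.symm.toLinearMap.toAffineMap : ℝ → E) (L x) = x :=
      fun x _ => L.symm_apply_apply x
    rw [image_congr this, image_id']
  rwa [h6, h6] at h5

/-- **cutting a polytope by a half space** -/
theorem poly_cut {k : ℕ} (hP : PolyBall.{u} (k + 1))
    (hJ : JordanSch (k + 1) (sphere (0 : Fin (k + 2) → ℝ) 1)) {E : Type u}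
    [NormedAddCommGroup E] [NormedSpace ℝ E] (hG : GlueSph (k + 1) E)
    (hE : finrank ℝ E = k + 2) {K : Set E} (hK : Poly K) (hb : ConBall (k + 2) K (frontier K))
    (l : E →L[ℝ] ℝ) (c : ℝ) (hi : (interior (K ∩ {x | l x ≤ c})).Nonempty) :
    ConBall (k + 2) (K ∩ {x | l x ≤ c}) (frontier (K ∩ {x | l x ≤ c})) := by
  have hfin : FiniteDimensional ℝ E := FiniteDimensional.of_finrank_eq_succ hE
  have hnt : Nontrivial E := Module.nontrivial_of_finrank_pos (R := ℝ) (by omega)
  by_cases hsub : K ⊆ {x | l x ≤ c}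
  · rw [inter_eq_self_of_subset_left hsub]; exact hb
  obtain ⟨q, hq, hqc⟩ := Set.not_subset.1 hsub
  have hqc : c < l q := not_le.1 hqc
  obtain ⟨p, hp⟩ := hi
  have hl : l ≠ 0 := by
    rintro rfl
    have h1 : (0:ℝ) ≤ c := (interior_subset hp).2
    exact absurd hqc (not_lt.2 h1)
  rw [interior_inter] at hp
  have hpc : l p < c := by
    have h2 : p ∈ {x | l x ≤ c} := interior_subset hp.2
    refine lt_of_le_of_ne h2 fun hxe => hl ?_
    have h1 : IsLocalMax l p := by
      filter_upwards [mem_interior_iff_mem_nhds.1 hp.2] with y hy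
      rw [hxe]; exact hy
    exact h1.hasFDerivAt_eq_zero l.hasFDerivAt
  have hpK : p ∈ interior K := hp.1
  -- an interior point in the plane
  set t := (c - l p) / (l q - l p) with ht
  have hlt : 0 < l q - l p := by linarith
  have ht0 : 0 < t := div_pos (by linarith) hlt
  have ht1 : t < 1 := (div_lt_one hlt).2 (by linarith)
  set q₀ := p + t • (q - p) with hq₀
  have hq₀i : q₀ ∈ interior K := by
    refine hK.convex.openSegment_interior_self_subset_interior hpK hq ?_
    exact ⟨1 - t, t, by linarith, ht0, by ring, by rw [hq₀]; module⟩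
  have hq₀c : l q₀ = c := by
    rw [hq₀, map_add, map_smul, map_sub, smul_eq_mul, ht]
    field_simp
    ring
  -- the section
  let N : Submodule ℝ E := LinearMap.ker (l : E →ₗ[ℝ] ℝ)
  have hN : finrank ℝ N = k + 1 := by
    have h1 := Module.Dual.finrank_ker_add_one_of_ne_zero (f := (l : E →ₗ[ℝ] ℝ)) (by
      intro h
      apply hl
      ext x
      exact congrArg (fun g : E →ₗ[ℝ] ℝ => g x) h)
    have h2 : finrank ℝ N + 1 = k + 2 := by rw [← hE]; exact h1
    omega
  let ι : N →L[ℝ] E := N.subtypeL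
  have hcl : IsClosedEmbedding fun z : N => q₀ + ι z :=
    (Homeomorph.addLeft q₀).isClosedEmbedding.comp
      (N.closed_of_finiteDimensional.isClosedEmbedding_subtypeVal)
  set D' : Set N := {z : N | q₀ + ι z ∈ K} with hD'
  have hD'c : IsCompact D' := hcl.isCompact_preimage hb.isCompact
  have hint : interior D' = {z : N | q₀ + ι z ∈ interior K} :=
    interior_preimage hK.convex ι q₀ (z₀ := 0) (by rw [map_zero, add_zero]; exact hq₀i)
  have hball : ConBall (k + 1) D' (frontier D') := by
    refine hP N hN D' (hK.preimage ι q₀) hD'c ⟨0, ?_⟩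
    rw [hint]
    show q₀ + ι 0 ∈ interior K
    rw [map_zero, add_zero]; exact hq₀i
  let A : N →ᵃ[ℝ] E := (AffineEquiv.constVAdd ℝ E q₀ : E →ᵃ[ℝ] E).comp ι.toLinearMap.toAffineMap
  have hAz : ∀ z : N, A z = q₀ + ι z := fun z => rfl
  have hA := hball.image_affine A hcl.injective hcl.continuous
  have himg : ∀ S : Set E, A '' {z : N | q₀ + ι z ∈ S} = S ∩ {x | l x = c} := by
    intro S
    ext x
    constructor
    · rintro ⟨z, hz, rfl⟩
      refine ⟨hz, ?_⟩
      show l (q₀ + ι z) = c
      have : l (ι z) = 0 := z.2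
      rw [map_add, this, hq₀c, add_zero]
    · rintro ⟨hx, hxc⟩
      have hxc : l x = c := hxc
      have h1 : x - q₀ ∈ N := by
        show l (x - q₀) = 0
        rw [map_sub, hxc, hq₀c, sub_self]
      refine ⟨⟨x - q₀, h1⟩, ?_, ?_⟩
      · show q₀ + (x - q₀) ∈ S
        rw [add_sub_cancel]; exact hx
      · show q₀ + (x - q₀) = x
        exact add_sub_cancel _ _
  have hfr : frontier D' = {z : N | q₀ + ι z ∈ frontier K} := by
    rw [hD'c.isClosed.frontier_eq, hint, hK.isClosed.frontier_eq]
    rfl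
  rw [hfr, hD', himg, himg] at hA
  exact conBall_cut hJ hG hK.convex hb hl hA hpK hpc hq hqc

theorem polyBall_succ {k : ℕ} (hP : PolyBall.{u} (k + 1))
    (hJ : JordanSch (k + 1) (sphere (0 : Fin (k + 2) → ℝ) 1))
    (hG : ∀ (E : Type u) [NormedAddCommGroup E] [NormedSpace ℝ E], GlueSph (k + 1) E) :
    PolyBall.{u} (k + 2) := by
  classical
  intro E _ _ hE C hPC hC hi
  have hfin : FiniteDimensional ℝ E := FiniteDimensional.of_finrank_eq_succ hE
  -- a big cube
  obtain ⟨L⟩ : Nonempty ((Fin (k + 2) → ℝ) ≃L[ℝ] E) :=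
    FiniteDimensional.nonempty_continuousLinearEquiv_of_finrank_eq (by rw [hE]; simp)
  obtain ⟨R, hR0, hR⟩ : ∃ R > 0, L.symm '' C ⊆ closedBall (0 : Fin (k + 2) → ℝ) R := by
    obtain ⟨R, hR⟩ := (hC.image L.symm.continuous).isBounded.subset_closedBall 0
    exact ⟨max R 1, by positivity, hR.trans (closedBall_subset_closedBall (le_max_left _ _))⟩
  set K₀ : Set E := {x | L.symm x ∈ closedBall (0 : Fin (k + 2) → ℝ) R} with hK₀
  have hCK : C ⊆ K₀ := fun x hx => hR ⟨x, hx, rfl⟩
  have hK₀P : Poly K₀ := by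
    have hcube : Poly (closedBall (0 : Fin (k + 2) → ℝ) R) := by
      refine ⟨(Finset.univ.image fun i : Fin (k + 2) => (ContinuousLinearMap.proj (R := ℝ)
        (φ := fun _ : Fin (k + 2) => ℝ) i, R)) ∪ (Finset.univ.image fun i : Fin (k + 2) =>
        (-ContinuousLinearMap.proj (R := ℝ) (φ := fun _ : Fin (k + 2) => ℝ) i, R)), ?_⟩
      ext x
      rw [mem_closedBall_zero_iff, pi_norm_le_iff_of_nonneg hR0.le]
      simp only [mem_ofPred_eq, Finset.mem_union, Finset.mem_image, Finset.mem_univ, true_and,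
        Real.norm_eq_abs, abs_le]
      constructor
      · rintro h _ (⟨i, rfl⟩ | ⟨i, rfl⟩)
        · exact (h i).2
        · show -(x i) ≤ R
          linarith [(h i).1]
      · intro h i
        have h1 : x i ≤ R := h _ (Or.inl ⟨i, rfl⟩)
        have h2 : -(x i) ≤ R := h _ (Or.inr ⟨i, rfl⟩)
        exact ⟨by linarith, h1⟩
    have := hcube.preimage (L.symm : E →L[ℝ] (Fin (k + 2) → ℝ)) 0
    simp only [zero_add] at this
    exact this
  have hK₀b : ConBall (k + 2) K₀ (frontier K₀) := by
    have h1 : ConBall (k + 2) (closedBall (0 : Fin (k + 2) → ℝ) R)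
        (frontier (closedBall (0 : Fin (k + 2) → ℝ) R)) := by
      have e : closedBall (0 : Fin (k + 2) → ℝ) R = Icc (fun _ => -R) (fun _ => R) := by
        ext x
        rw [mem_closedBall_zero_iff, pi_norm_le_iff_of_nonneg hR0.le]
        simp only [mem_Icc, Pi.le_def, Real.norm_eq_abs, abs_le]
        exact forall_and
      rw [e]
      exact conBall_Icc_pi (by omega) fun i => by linarith
    have h2 := h1.image_affine (L.toLinearMap.toAffineMap) L.injective L.continuous
    have e1 : (L.toLinearMap.toAffineMap : (Fin (k + 2) → ℝ) → E) ''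
        closedBall (0 : Fin (k + 2) → ℝ) R = K₀ := by
      ext x
      constructor
      · rintro ⟨y, hy, rfl⟩
        show L.symm (L y) ∈ closedBall (0 : Fin (k + 2) → ℝ) R
        rw [L.symm_apply_apply]; exact hy
      · intro hx
        exact ⟨L.symm x, hx, L.apply_symm_apply x⟩
    have e2 : (L.toLinearMap.toAffineMap : (Fin (k + 2) → ℝ) → E) ''
        frontier (closedBall (0 : Fin (k + 2) → ℝ) R) = frontier K₀ := by
      rw [← e1]
      exact L.toHomeomorph.image_frontier _
    rwa [e1, e2] at h2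
  -- induction over the half spaces
  obtain ⟨H, hH⟩ := hPC
  have main : ∀ H' : Finset ((E →L[ℝ] ℝ) × ℝ), H' ⊆ H →
      Poly (K₀ ∩ {x | ∀ h ∈ H', h.1 x ≤ h.2}) ∧
      ConBall (k + 2) (K₀ ∩ {x | ∀ h ∈ H', h.1 x ≤ h.2})
        (frontier (K₀ ∩ {x | ∀ h ∈ H', h.1 x ≤ h.2})) := by
    intro H'
    induction H' using Finset.induction_on with
    | empty =>
      intro _
      have : K₀ ∩ {x | ∀ h ∈ (∅ : Finset ((E →L[ℝ] ℝ) × ℝ)), h.1 x ≤ h.2} = K₀ := by
        ext x; simp
      rw [this]
      exact ⟨hK₀P, hK₀b⟩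
    | insert h H' hh ih =>
      intro hsub
      obtain ⟨ih1, ih2⟩ := ih ((Finset.subset_insert _ _).trans hsub)
      have e : K₀ ∩ {x | ∀ g ∈ insert h H', g.1 x ≤ g.2} =
          (K₀ ∩ {x | ∀ g ∈ H', g.1 x ≤ g.2}) ∩ {x | h.1 x ≤ h.2} := by
        ext x
        simp only [mem_inter_iff, mem_ofPred_eq, Finset.mem_insert, forall_eq_or_imp]
        tauto
      rw [e]
      refine ⟨ih1.inter (poly_half _ _), poly_cut hP hJ (hG E) hE ih1 ih2 h.1 h.2 ?_⟩
      rw [← e]
      refine hi.mono (interior_mono ?_)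
      intro x hx
      refine ⟨hCK hx, fun g hg => ?_⟩
      rw [hH] at hx
      exact hx g (hsub hg)
  have hfinal := (main H (Finset.Subset.refl _)).2
  have e : K₀ ∩ {x | ∀ h ∈ H, h.1 x ≤ h.2} = C := by
    rw [← hH]; exact inter_eq_self_of_subset_right hCK
  rwa [e] at hfinal

theorem polyBall_two : PolyBall.{u} 2 :=
  polyBall_succ (k := 0) polyBall_one (jordanSch_one (GB200.conSphere_std 1))
    (fun _ _ _ => glueSph_one)

theorem polyBall_three : PolyBall.{u} 3 :=
  polyBall_succ (k := 1) polyBall_two jordanSch_sphere (fun _ _ _ => glueSph_two)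

open Vale.Agent.P073.St (V)

theorem poly_of_ratPoly {o : V} {C : Set V} (h : KW.RatPoly o C) : Poly C := by
  classical
  obtain ⟨H, rfl⟩ := h
  let l : (Fin 3 → ℚ) → (V →L[ℝ] ℝ) := fun n => ∑ k, (n k : ℝ) • ContinuousLinearMap.proj k
  have hl : ∀ n x, l n x = ∑ k, (n k : ℝ) * x k := by
    intro n x
    simp [l]
  have hrf : ∀ (h : (Fin 3 → ℚ) × ℚ) (x : V), KW.rf o h x ≤ 0 ↔ l h.1 x ≤ h.2 + l h.1 o := by
    intro h x
    have : KW.rf o h x = l h.1 x - l h.1 o - h.2 := by
      rw [hl, hl, ← Finset.sum_sub_distrib]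
      unfold KW.rf
      congr 1
      exact Finset.sum_congr rfl fun k _ => by ring
    rw [this]
    constructor <;> intro h <;> linarith
  refine ⟨H.image fun h => (l h.1, (h.2 : ℝ) + l h.1 o), ?_⟩
  ext x
  simp only [mem_ofPred_eq, Finset.mem_image, forall_exists_index, and_imp]
  constructor
  · rintro h1 _ h hh rfl
    exact (hrf h x).1 (h1 h hh)
  · intro h1 h hh
    exact (hrf h x).2 (h1 _ h hh rfl)

/-- **(KW-B3)** -/
theorem specBall3 : KW.SpecBall3 := by
  intro o C hC hc hi
  exact polyBall_three V (by simp) C (poly_of_ratPoly hC) hc hi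

/-- polygons in planes of a normed space -/
theorem conBall_section {E : Type u} [NormedAddCommGroup E] [NormedSpace ℝ E] {k : ℕ}
    (hP : PolyBall.{u} (k + 1)) (hE : finrank ℝ E = k + 2) {C : Set E} (hC : Poly C)
    (hc : IsCompact C) {n : E →L[ℝ] ℝ} {c : ℝ} (hn : n ≠ 0) (hCn : C ⊆ {x | n x = c})
    (hi : ∃ y ∈ C, ∃ r > 0, ∀ z ∈ ball y r, n z = c → z ∈ C) :
    ConBall (k + 1) C {y | y ∈ C ∧ ∀ r > 0, ∃ z ∈ ball y r, n z = c ∧ z ∉ C} := by
  have hfin : FiniteDimensional ℝ E := FiniteDimensional.of_finrank_eq_succ hE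
  obtain ⟨y, hy, r, hr, hyr⟩ := hi
  have hyc : n y = c := hCn hy
  let N : Submodule ℝ E := LinearMap.ker (n : E →ₗ[ℝ] ℝ)
  have hN : finrank ℝ N = k + 1 := by
    have h1 := Module.Dual.finrank_ker_add_one_of_ne_zero (f := (n : E →ₗ[ℝ] ℝ)) (by
      intro h
      apply hn
      ext x
      exact congrArg (fun g : E →ₗ[ℝ] ℝ => g x) h)
    have h2 : finrank ℝ N + 1 = k + 2 := by rw [← hE]; exact h1
    omega
  let ι : N →L[ℝ] E := N.subtypeL
  have hcl : IsClosedEmbedding fun z : N => y + ι z :=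
    (Homeomorph.addLeft y).isClosedEmbedding.comp
      (N.closed_of_finiteDimensional.isClosedEmbedding_subtypeVal)
  set D' : Set N := {z : N | y + ι z ∈ C} with hD'
  have hD'c : IsCompact D' := hcl.isCompact_preimage hc
  have hnι : ∀ z : N, n (y + ι z) = c := by
    intro z
    have : n (ι z) = 0 := z.2
    rw [map_add, this, hyc, add_zero]
  have hball : ConBall (k + 1) D' (frontier D') := by
    refine hP N hN D' (hC.preimage ι y) hD'c ⟨0, ?_⟩
    rw [mem_interior_iff_mem_nhds]
    refine Metric.mem_nhds_iff.2 ⟨r, hr, fun z hz => ?_⟩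
    refine hyr _ ?_ (hnι z)
    rw [mem_ball, dist_eq_norm, add_sub_cancel_left]
    rw [mem_ball_zero_iff] at hz
    exact hz
  let A : N →ᵃ[ℝ] E := (AffineEquiv.constVAdd ℝ E y : E →ᵃ[ℝ] E).comp ι.toLinearMap.toAffineMap
  have hA := hball.image_affine A hcl.injective hcl.continuous
  have himg : A '' D' = C := by
    ext x
    constructor
    · rintro ⟨z, hz, rfl⟩; exact hz
    · intro hx
      have hxc : n x = c := hCn hx
      have h1 : x - y ∈ N := by
        show n (x - y) = 0
        rw [map_sub, hxc, hyc, sub_self]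
      refine ⟨⟨x - y, h1⟩, ?_, ?_⟩
      · show y + (x - y) ∈ C
        rw [add_sub_cancel]; exact hx
      · show y + (x - y) = x
        exact add_sub_cancel _ _
  have himg2 : A '' frontier D' = {y | y ∈ C ∧ ∀ r > 0, ∃ z ∈ ball y r, n z = c ∧ z ∉ C} := by
    ext x
    constructor
    · rintro ⟨z, hz, rfl⟩
      have hzD : z ∈ D' := hD'c.isClosed.frontier_subset hz
      refine ⟨hzD, fun s hs => ?_⟩
      by_contra hcon
      push Not at hcon
      refine hz.2 (mem_interior_iff_mem_nhds.2 (Metric.mem_nhds_iff.2 ⟨s, hs, fun w hw => ?_⟩))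
      refine hcon _ ?_ (hnι w)
      show y + ι w ∈ ball (y + ι z) s
      rw [mem_ball, dist_add_left]
      exact hw
    · rintro ⟨hx, hx2⟩
      rw [← himg] at hx
      obtain ⟨z, hz, rfl⟩ := hx
      refine ⟨z, ⟨subset_closure hz, fun hzi => ?_⟩, rfl⟩
      obtain ⟨s, hs, hsub⟩ := Metric.mem_nhds_iff.1 (mem_interior_iff_mem_nhds.1 hzi)
      obtain ⟨w, hw, hwc, hwC⟩ := hx2 s hs
      apply hwC
      have h1 : w - y ∈ N := by
        show n (w - y) = 0
        rw [map_sub, hwc, hyc, sub_self]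
      have h2 : (⟨w - y, h1⟩ : N) ∈ ball z s := by
        have hw' : dist w (y + ι z) < s := hw
        have : dist w (y + ι z) = dist (⟨w - y, h1⟩ : N) z := by
          show dist w (y + (z : E)) = dist (w - y) (z : E)
          rw [dist_eq_norm, dist_eq_norm]
          congr 1
          abel
        rw [mem_ball, ← this]; exact hw'
      have h3 := hsub h2
      have h4 : y + (w - y) ∈ C := h3
      rwa [add_sub_cancel] at h4
  rwa [himg, himg2] at hA

/-- **(KW-B2)** -/
theorem specBall2 : KW.SpecBall2 := by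
  intro o C n c hn hC hc hCn hi
  exact conBall_section (k := 1) polyBall_two (by simp) (poly_of_ratPoly hC) hc hn hCn hi

end P073.H339
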