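import Vale.Agent.P073.ConGlue

/-!
# P073 / H339: explicit planar push and the shrinking lemma
-/

open Set Metric Topology Filter

namespace P073.H339

/-- height of the standard roof -/
noncomputable def hroof (x : ℝ) : ℝ := max (1 - |x|) 0

/-- the closed standard triangle `|x| + y ≤ 1`, `0 ≤ y` -/
def tri : Set (ℝ × ℝ) := {p | |p.1| + p.2 ≤ 1 ∧ 0 ≤ p.2}

/-- the two upper sides of the standard triangle -/
def roof : Set (ℝ × ℝ) := {p | |p.1| + p.2 = 1 ∧ 0 ≤ p.2}

/-- the lower side of the standard triangle -/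
def bottom : Set (ℝ × ℝ) := {p | |p.1| ≤ 1 ∧ p.2 = 0}

/-- vertical push (one dimensional formula) -/
noncomputable def kap (a b h y : ℝ) : ℝ := min y (max (a * (y - h)) (b * (y - h)))

/-- its inverse -/
noncomputable def kapInv (a b h y : ℝ) : ℝ := max y (min (b * y + h) (a * y + h))

theorem kapInv_kap {a b h : ℝ} (ha : 0 < a) (hb : 0 < b) (hab : a * b = 1) (hle : a ≤ b) (y : ℝ) :
    kapInv a b h (kap a b h y) = y := by
  unfold kapInv kap
  rcases le_total y h with h1 | h1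
  · have e1 : max (a * (y - h)) (b * (y - h)) = a * (y - h) :=
      max_eq_left (by nlinarith)
    rw [e1]
    rcases le_total y (a * (y - h)) with h2 | h2
    · rw [min_eq_left h2]
      apply max_eq_left
      apply (min_le_left _ _).trans
      have : b * y ≤ b * (a * (y - h)) := mul_le_mul_of_nonneg_left h2 hb.le
      have e : b * (a * (y - h)) = y - h := by rw [← mul_assoc, mul_comm b a, hab, one_mul]
      linarith
    · rw [min_eq_right h2]
      have h3 : a * (y - h) ≤ 0 := mul_nonpos_of_nonneg_of_nonpos ha.le (by linarith)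
      have e : b * (a * (y - h)) = y - h := by rw [← mul_assoc, mul_comm b a, hab, one_mul]
      rw [min_eq_left (by nlinarith), e]
      rw [max_eq_right (by linarith)]; ring
  · have e1 : max (a * (y - h)) (b * (y - h)) = b * (y - h) :=
      max_eq_right (by nlinarith)
    rw [e1]
    have e : a * (b * (y - h)) = y - h := by rw [← mul_assoc, hab, one_mul]
    rcases le_total y (b * (y - h)) with h2 | h2
    · rw [min_eq_left h2]
      apply max_eq_left
      apply (min_le_right _ _).trans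
      have : a * y ≤ a * (b * (y - h)) := mul_le_mul_of_nonneg_left h2 ha.le
      linarith
    · rw [min_eq_right h2]
      have h3 : 0 ≤ b * (y - h) := mul_nonneg hb.le (by linarith)
      rw [min_eq_right (by nlinarith), e]
      rw [max_eq_right (by linarith)]; ring

theorem kap_kapInv {a b h : ℝ} (ha : 0 < a) (hb : 0 < b) (hab : a * b = 1) (hle : a ≤ b) (y : ℝ) :
    kap a b h (kapInv a b h y) = y := by
  unfold kapInv kap
  rcases le_total y 0 with h1 | h1
  · have e1 : min (b * y + h) (a * y + h) = b * y + h :=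
      min_eq_left (by nlinarith)
    rw [e1]
    have e : a * (b * y) = y := by rw [← mul_assoc, hab, one_mul]
    rcases le_total y (b * y + h) with h2 | h2
    · rw [max_eq_right h2, add_sub_cancel_right, e]
      have : b * (b * y) ≤ y := by
        have : b * (b * y) ≤ a * (b * y) := by
          apply mul_le_mul_of_nonpos_right hle (mul_nonpos_of_nonneg_of_nonpos hb.le h1)
        linarith
      rw [max_eq_left this, min_eq_right h2]
    · rw [max_eq_left h2]
      apply min_eq_left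
      apply le_trans _ (le_max_left _ _)
      have : a * (b * y) ≤ a * (y - h) := mul_le_mul_of_nonneg_left (by linarith) ha.le
      linarith
  · have e1 : min (b * y + h) (a * y + h) = a * y + h :=
      min_eq_right (by nlinarith)
    rw [e1]
    have e : b * (a * y) = y := by rw [← mul_assoc, mul_comm b a, hab, one_mul]
    rcases le_total y (a * y + h) with h2 | h2
    · rw [max_eq_right h2, add_sub_cancel_right, e]
      have : a * (a * y) ≤ y := by
        have : a * (a * y) ≤ b * (a * y) := by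
          apply mul_le_mul_of_nonneg_right hle (mul_nonneg ha.le h1)
        linarith
      rw [max_eq_right this, min_eq_right h2]
    · rw [max_eq_left h2]
      apply min_eq_left
      apply le_trans _ (le_max_right _ _)
      have : b * (a * y) ≤ b * (y - h) := mul_le_mul_of_nonneg_left (by linarith) hb.le
      linarith

/-- the explicit push of the roof onto the bottom -/
noncomputable def pushFun (ε : ℝ) (p : ℝ × ℝ) : ℝ × ℝ :=
  (p.1, kap (ε / (1 + ε)) ((1 + ε) / ε) (hroof p.1) p.2)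

/-- its inverse -/
noncomputable def pushInv (ε : ℝ) (p : ℝ × ℝ) : ℝ × ℝ :=
  (p.1, kapInv (ε / (1 + ε)) ((1 + ε) / ε) (hroof p.1) p.2)

theorem continuous_hroof : Continuous hroof := by
  unfold hroof; fun_prop

theorem hroof_nonneg (x : ℝ) : 0 ≤ hroof x := le_max_right _ _

theorem conicalOn_fst' : ConicalOn (fun p : ℝ × ℝ => p.1) univ :=
  conicalOn_clm (ContinuousLinearMap.fst ℝ ℝ ℝ)

theorem conicalOn_snd' : ConicalOn (fun p : ℝ × ℝ => p.2) univ :=
  conicalOn_clm (ContinuousLinearMap.snd ℝ ℝ ℝ)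

theorem conicalOn_hroof : ConicalOn (fun p : ℝ × ℝ => hroof p.1) univ := by
  have habs : ConicalOn (fun p : ℝ × ℝ => |p.1|) univ := by
    have := conicalOn_fst'.rmax conicalOn_fst'.neg (by fun_prop) (by fun_prop)
    exact this.congr fun p _ => abs_eq_max_neg
  have h1 : ConicalOn (fun p : ℝ × ℝ => (1 - |p.1|)) univ :=
    (conicalOn_const (1:ℝ) (IsOpen.conicalSet isOpen_univ)).sub habs
  exact h1.rmax (conicalOn_const (0:ℝ) (IsOpen.conicalSet isOpen_univ)) (by fun_prop) (by fun_prop)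

theorem conicalOn_pushFun (ε : ℝ) : ConicalOn (pushFun ε) univ := by
  refine conicalOn_fst'.prodMk ?_
  have hc : Continuous fun p : ℝ × ℝ => hroof p.1 := continuous_hroof.comp continuous_fst
  have h1 : ConicalOn (fun p : ℝ × ℝ => p.2 - hroof p.1) univ := conicalOn_snd'.sub conicalOn_hroof
  refine conicalOn_snd'.rmin ?_ (by fun_prop) (by fun_prop)
  refine ConicalOn.rmax ?_ ?_ (by fun_prop) (by fun_prop)
  · simpa [smul_eq_mul] using h1.const_smul (ε / (1 + ε))
  · simpa [smul_eq_mul] using h1.const_smul ((1 + ε) / ε)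

theorem continuous_pushFun (ε : ℝ) : Continuous (pushFun ε) := by
  have hc : Continuous fun p : ℝ × ℝ => hroof p.1 := continuous_hroof.comp continuous_fst
  unfold pushFun kap
  fun_prop

theorem continuous_pushInv (ε : ℝ) : Continuous (pushInv ε) := by
  have hc : Continuous fun p : ℝ × ℝ => hroof p.1 := continuous_hroof.comp continuous_fst
  unfold pushInv kapInv
  fun_prop

/-- the ambient push -/
noncomputable def push {ε : ℝ} (hε : 0 < ε) : ConHomeo (univ : Set (ℝ × ℝ)) (univ : Set (ℝ × ℝ)) where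
  toFun := pushFun ε
  invFun := pushInv ε
  mapsTo := mapsTo_univ _ _
  mapsTo_inv := mapsTo_univ _ _
  left_inv := fun p _ => by
    have h1 : (0:ℝ) < 1 + ε := by linarith
    have hab : ε / (1 + ε) * ((1 + ε) / ε) = 1 := by field_simp
    have hle : ε / (1 + ε) ≤ (1 + ε) / ε := by
      rw [div_le_div_iff₀ h1 hε]; nlinarith
    have := kapInv_kap (h := hroof p.1) (div_pos hε h1) (div_pos h1 hε) hab hle p.2
    exact Prod.ext rfl this
  right_inv := fun p _ => by
    have h1 : (0:ℝ) < 1 + ε := by linarith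
    have hab : ε / (1 + ε) * ((1 + ε) / ε) = 1 := by field_simp
    have hle : ε / (1 + ε) ≤ (1 + ε) / ε := by
      rw [div_le_div_iff₀ h1 hε]; nlinarith
    have := kap_kapInv (h := hroof p.1) (div_pos hε h1) (div_pos h1 hε) hab hle p.2
    exact Prod.ext rfl this
  cont := (continuous_pushFun ε).continuousOn
  cont_inv := (continuous_pushInv ε).continuousOn
  conical := conicalOn_pushFun ε

@[simp] theorem push_toFun {ε : ℝ} (hε : 0 < ε) : (push hε).toFun = pushFun ε := rfl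

/-- the push is the identity off the open kite -/
theorem pushFun_eq_self {ε : ℝ} (hε : 0 < ε) {p : ℝ × ℝ}
    (hp : (1 + ε) * hroof p.1 ≤ p.2 ∨ p.2 ≤ -(ε * hroof p.1)) : pushFun ε p = p := by
  have h1 : (0:ℝ) < 1 + ε := by linarith
  have hh := hroof_nonneg p.1
  refine Prod.ext rfl ?_
  show kap _ _ _ _ = p.2
  unfold kap
  apply min_eq_left
  rcases hp with hp | hp
  · apply le_trans _ (le_max_right _ _)
    rw [div_mul_eq_mul_div, le_div_iff₀ hε]
    nlinarith
  · apply le_trans _ (le_max_left _ _)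
    rw [div_mul_eq_mul_div, le_div_iff₀ h1]
    nlinarith

theorem pushFun_roof {ε : ℝ} (_hε : 0 < ε) {p : ℝ × ℝ} (hp : p ∈ roof) :
    pushFun ε p = (p.1, 0) := by
  obtain ⟨h1, h2⟩ := hp
  have h3 : hroof p.1 = p.2 := by
    unfold hroof
    rw [max_eq_left (by linarith)]; linarith
  refine Prod.ext rfl ?_
  show kap _ _ _ _ = (0:ℝ)
  unfold kap
  rw [h3, sub_self, mul_zero, mul_zero, max_self, min_eq_right h2]

theorem pushFun_image_roof {ε : ℝ} (hε : 0 < ε) : pushFun ε '' roof = bottom := by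
  ext q
  constructor
  · rintro ⟨p, hp, rfl⟩
    rw [pushFun_roof hε hp]
    refine ⟨?_, rfl⟩
    show |p.1| ≤ 1
    have := hp.1
    have := hp.2
    linarith
  · rintro ⟨h1, h2⟩
    refine ⟨(q.1, 1 - |q.1|), ⟨?_, ?_⟩, ?_⟩
    · show |q.1| + (1 - |q.1|) = 1
      ring
    · show 0 ≤ 1 - |q.1|
      linarith
    · rw [pushFun_roof hε ⟨by show |q.1| + (1 - |q.1|) = 1; ring, by
        show 0 ≤ 1 - |q.1|; linarith⟩]
      exact Prod.ext rfl h2.symm

/-- the gap function -/
noncomputable def gapD (p : ℝ × ℝ) : ℝ := max (-p.2) (p.2 - (1 - |p.1|))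

theorem continuous_gapD : Continuous gapD := by unfold gapD; fun_prop

theorem exists_gap {K : Set (ℝ × ℝ)} (hK : IsCompact K) (hKT : ∀ p ∈ K, |p.1| ≤ 1 → p ∉ tri) :
    ∃ δ : ℝ, 0 < δ ∧ ∀ p ∈ K, |p.1| ≤ 1 → δ ≤ gapD p := by
  have hK' : IsCompact (K ∩ {p | |p.1| ≤ 1}) :=
    hK.inter_right (isClosed_le (by fun_prop) continuous_const)
  by_cases hne : (K ∩ {p : ℝ × ℝ | |p.1| ≤ 1}).Nonempty
  · obtain ⟨p, hp, hmin⟩ := hK'.exists_isMinOn hne continuous_gapD.continuousOn
    refine ⟨gapD p, ?_, fun q hq hq1 => hmin ⟨hq, hq1⟩⟩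
    by_contra hle
    push Not at hle
    apply hKT p hp.1 hp.2
    have a1 : -p.2 ≤ 0 := (le_max_left _ _).trans hle
    have a2 : p.2 - (1 - |p.1|) ≤ 0 := (le_max_right _ _).trans hle
    exact ⟨by linarith, by linarith⟩
  · exact ⟨1, one_pos, fun q hq hq1 => absurd ⟨q, hq, hq1⟩ hne⟩

/-- near a corner `(σ, 0)`, `σ = ± 1` -/
theorem exists_corner {B : Set (ℝ × ℝ)} (hB : IsClosed B) {σ : ℝ} (hσ : σ * σ = 1)
    (h0 : LocConeAt B (σ, 0)) (hBT : ∀ p ∈ B, p ∈ tri → p.1 * p.1 = 1) :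
    ∃ r > (0:ℝ), ∃ δ > (0:ℝ), ∀ ε : ℝ, 0 < ε → ε < δ → ∀ p ∈ B, p ∈ ball ((σ, 0) : ℝ × ℝ) r →
      |p.1| < 1 → -(ε * (1 - |p.1|)) < p.2 → p.2 < (1 + ε) * (1 - |p.1|) → False := by
  obtain ⟨r0, hr0, H0⟩ := h0
  obtain ⟨r, hr, hrle0, hr2⟩ : ∃ r : ℝ, 0 < r ∧ r ≤ r0 ∧ r ≤ 1 / 2 :=
    ⟨min r0 (1/2), by positivity, min_le_left _ _, min_le_right _ _⟩
  have hσ' : σ = 1 ∨ σ = -1 := by
    have : (σ - 1) * (σ + 1) = 0 := by ring_nf; linarith
    rcases mul_eq_zero.1 this with h | h
    · left; linarith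
    · right; linarith
  -- points of the sphere around the corner are not in the triangle
  have hK : ∀ p ∈ B ∩ sphere ((σ, 0) : ℝ × ℝ) r, |p.1| ≤ 1 → p ∉ tri := by
    rintro p ⟨hpB, hpS⟩ hp1 hpT
    have h1 := hBT p hpB hpT
    have h2 : p.2 = 0 := by
      have h3 : |p.1| = 1 := by
        have : |p.1| * |p.1| = 1 := by rw [abs_mul_abs_self]; exact h1
        nlinarith [abs_nonneg p.1]
      have := hpT.1
      have := hpT.2
      linarith
    rw [mem_sphere, dist_eq_norm, Prod.norm_def] at hpS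
    simp only [Prod.fst_sub, Prod.snd_sub, sub_zero, h2, norm_zero] at hpS
    rw [max_eq_left (norm_nonneg _), Real.norm_eq_abs] at hpS
    have h4 : (p.1 - σ) * (p.1 + σ) = 0 := by ring_nf; nlinarith
    rcases mul_eq_zero.1 h4 with h | h
    · rw [h, abs_zero] at hpS; linarith
    · have h5 : p.1 - σ = -2 * σ := by linarith
      have h6 : |p.1 - σ| = 2 := by
        rw [h5, abs_mul]
        rcases hσ' with h | h <;> rw [h] <;> norm_num
      linarith
  obtain ⟨δ, hδ, Hd⟩ := exists_gap ((isCompact_sphere _ _).inter_left hB) hK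
  refine ⟨r, hr, δ, hδ, fun ε hε hεδ p hp hn0 hx1 w1 w2 => ?_⟩
  rw [mem_ball, dist_eq_norm] at hn0
  set v : ℝ × ℝ := p - (σ, 0) with hv
  have hv1 : v.1 = p.1 - σ := by rw [hv]; simp
  have hv2 : v.2 = p.2 := by rw [hv]; simp
  have hvn : |v.1| ≤ ‖v‖ := norm_fst_le v
  have habsp : |p.1| = σ * p.1 := by
    have h1 := (abs_le.1 (hvn.trans hn0.le))
    rw [hv1] at h1
    rcases hσ' with h | h
    · rw [h] at h1 ⊢
      rw [abs_of_pos (by linarith)]; ring
    · rw [h] at h1 ⊢
      rw [abs_of_neg (by linarith)]; ring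
  have hd1 : 1 - |p.1| = -(σ * v.1) := by
    rw [habsp, hv1, mul_sub, hσ]; ring
  rw [hd1] at w1 w2
  have hvpos : 0 < -(σ * v.1) := by linarith
  have hnpos : 0 < ‖v‖ := by
    apply lt_of_lt_of_le _ hvn
    rw [abs_pos]
    intro h
    rw [h, mul_zero, neg_zero] at hvpos
    exact lt_irrefl _ hvpos
  have hc : 0 < r / ‖v‖ := by positivity
  set c : ℝ := r / ‖v‖ with hcdef
  have hwn : ‖c • v‖ = r := by
    rw [norm_smul, Real.norm_of_nonneg hc.le, hcdef]
    field_simp
  have hmem : (σ, 0) + c • v ∈ B := by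
    have hle : ‖v‖ / r ∈ Ioc (0:ℝ) 1 := ⟨by positivity, (div_le_one hr).2 hn0.le⟩
    rw [← H0 (c • v) (by rw [hwn]; exact hrle0) _ hle, smul_smul]
    have : ‖v‖ / r * c = 1 := by rw [hcdef]; field_simp
    rw [this, one_smul, hv, add_sub_cancel]
    exact hp
  have hq1 : ((σ, 0) + c • v : ℝ × ℝ).1 = σ + c * v.1 := by simp
  have hq2 : ((σ, 0) + c • v : ℝ × ℝ).2 = c * v.2 := by simp
  have hle1 : c * (-(σ * v.1)) ≤ r := by
    have h1 : |(c • v).1| ≤ r := hwn ▸ norm_fst_le (c • v)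
    have h2 : (c • v).1 = c * v.1 := rfl
    rw [h2] at h1
    have h3 := abs_le.1 h1
    rcases hσ' with h | h <;> rw [h] <;> linarith
  have hqabs : |((σ, 0) + c • v : ℝ × ℝ).1| = 1 - c * (-(σ * v.1)) := by
    rw [hq1]
    rcases hσ' with h | h
    · rw [h] at hle1 ⊢
      rw [abs_of_pos (by linarith)]; ring
    · rw [h] at hle1 ⊢
      rw [abs_of_neg (by linarith)]; ring
  have hpos' : 0 < c * (-(σ * v.1)) := mul_pos hc hvpos
  have hD1 := Hd ((σ, 0) + c • v) ⟨hmem, by rw [mem_sphere, dist_eq_norm, add_sub_cancel_left, hwn]⟩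
    (by rw [hqabs]; linarith)
  have hs1 : ε * (c * (-(σ * v.1))) ≤ ε * r := mul_le_mul_of_nonneg_left hle1 hε.le
  have hs2 : ε * r ≤ ε := by nlinarith
  have hD2 : gapD ((σ, 0) + c • v) ≤ ε := by
    apply max_le
    · rw [hq2]
      have h1 : c * (-(ε * -(σ * v.1))) < c * p.2 := mul_lt_mul_of_pos_left w1 hc
      have h2 : c * (-(ε * -(σ * v.1))) = -(ε * (c * (-(σ * v.1)))) := by ring
      rw [hv2]
      linarith
    · rw [hq2, hqabs]
      have h1 : c * p.2 < c * ((1 + ε) * -(σ * v.1)) := mul_lt_mul_of_pos_left w2 hc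
      have h2 : c * ((1 + ε) * -(σ * v.1)) = c * (-(σ * v.1)) + ε * (c * (-(σ * v.1))) := by ring
      rw [hv2]
      linarith
  linarith

/-- **Shrinking lemma, normal form.** -/
theorem exists_push_fix {B : Set (ℝ × ℝ)} (hB : IsClosed B) (h0 : LocConeAt B (-1, 0))
    (h1 : LocConeAt B (1, 0)) (hBT : ∀ p ∈ B, p ∈ tri → p = (-1, 0) ∨ p = (1, 0)) :
    ∃ ε : ℝ, 0 < ε ∧ ∀ p ∈ B, pushFun ε p = p := by
  have hBT' : ∀ p ∈ B, p ∈ tri → p.1 * p.1 = 1 := by
    intro p hp hpT
    rcases hBT p hp hpT with h | h <;> rw [h] <;> norm_num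
  obtain ⟨r0, hr0, δ0, hδ0, H0⟩ := exists_corner hB (by norm_num) h0 hBT'
  obtain ⟨r1, hr1, δ1, hδ1, H1⟩ := exists_corner hB (by norm_num) h1 hBT'
  obtain ⟨δ2, hδ2, Hd2⟩ := exists_gap
    (K := B ∩ closedBall (0, 0) 3 ∩ ((ball (-1, 0) r0)ᶜ ∩ (ball (1, 0) r1)ᶜ))
    (((isCompact_closedBall _ _).inter_left hB).inter_right
      (isOpen_ball.isClosed_compl.inter isOpen_ball.isClosed_compl)) (by
    intro p hp hp1 hpT
    rcases hBT p hp.1.1 hpT with h | h
    · rw [h] at hp
      exact hp.2.1 (mem_ball_self hr0)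
    · rw [h] at hp
      exact hp.2.2 (mem_ball_self hr1))
  obtain ⟨ε, hε, he0, he1, he2, he3⟩ : ∃ ε : ℝ, 0 < ε ∧ ε < δ0 ∧ ε < δ1 ∧ ε < δ2 ∧ ε < 1 := by
    have hm : 0 < min (min δ0 δ1) (min δ2 1) := by positivity
    have m0 : min (min δ0 δ1) (min δ2 1) ≤ δ0 := (min_le_left _ _).trans (min_le_left _ _)
    have m1 : min (min δ0 δ1) (min δ2 1) ≤ δ1 := (min_le_left _ _).trans (min_le_right _ _)
    have m2 : min (min δ0 δ1) (min δ2 1) ≤ δ2 := (min_le_right _ _).trans (min_le_left _ _)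
    have m3 : min (min δ0 δ1) (min δ2 1) ≤ 1 := (min_le_right _ _).trans (min_le_right _ _)
    exact ⟨min (min δ0 δ1) (min δ2 1) / 2, by positivity, by linarith, by linarith, by linarith,
      by linarith⟩
  refine ⟨ε, hε, fun p hp => ?_⟩
  by_contra hne
  have hW : ¬ ((1 + ε) * hroof p.1 ≤ p.2 ∨ p.2 ≤ -(ε * hroof p.1)) := fun h =>
    hne (pushFun_eq_self hε h)
  push Not at hW
  obtain ⟨w1, w2⟩ := hW
  have hh := hroof_nonneg p.1
  have hhpos : 0 < hroof p.1 := by nlinarith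
  have hx : hroof p.1 = 1 - |p.1| := by
    unfold hroof at hhpos ⊢
    rcases max_cases (1 - |p.1|) (0:ℝ) with h | h
    · exact h.1
    · rw [h.1] at hhpos; exact absurd hhpos (lt_irrefl _)
  have hx1 : |p.1| < 1 := by rw [hx] at hhpos; linarith
  rw [hx] at w1 w2
  have habs := abs_nonneg p.1
  by_cases hn0 : p ∈ ball ((-1, 0) : ℝ × ℝ) r0
  · exact H0 ε hε he0 p hp hn0 hx1 w2 w1
  by_cases hn1 : p ∈ ball ((1, 0) : ℝ × ℝ) r1
  · exact H1 ε hε he1 p hp hn1 hx1 w2 w1
  -- far from the corners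
  have hD1 := Hd2 p ⟨⟨hp, by
    rw [mem_closedBall, dist_eq_norm, Prod.norm_def]
    apply max_le
    · simp only [Prod.fst_sub, sub_zero, Real.norm_eq_abs]; linarith
    · simp only [Prod.snd_sub, sub_zero, Real.norm_eq_abs]
      rw [abs_le]
      constructor <;> nlinarith⟩, hn0, hn1⟩ hx1.le
  have hD2 : gapD p ≤ ε := by
    apply max_le
    · nlinarith
    · nlinarith
  linarith

/-- **Shrinking lemma**: if `Ψ` is an ambient conical homeomorphism taking `A₁` to the roof and `d`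
to the bottom of the standard triangle and `A₂` stays outside this triangle (except for the two
corners), then an ambient conical homeomorphism fixes `A₂` and moves `A₁` onto `d`. -/
theorem exists_shrink {A₁ A₂ d : Set (ℝ × ℝ)}
    (Ψ : ConHomeo (univ : Set (ℝ × ℝ)) (univ : Set (ℝ × ℝ)))
    (h₁ : Ψ.toFun '' A₁ = roof) (hd : Ψ.toFun '' d = bottom) (hA₂ : IsClosed A₂)
    (hA₂c : LocCone A₂) (hside : ∀ p ∈ A₂, Ψ.toFun p ∈ tri → Ψ.toFun p = (-1, 0) ∨
      Ψ.toFun p = (1, 0)) :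
    ∃ Φ : ConHomeo (univ : Set (ℝ × ℝ)) (univ : Set (ℝ × ℝ)),
      (∀ p ∈ A₂, Φ.toFun p = p) ∧ Φ.toFun '' A₁ = d := by
  have hcl : IsClosed (Ψ.toFun '' A₂) := by
    have : Ψ.toFun '' A₂ = Ψ.invFun ⁻¹' A₂ := by
      ext y
      constructor
      · rintro ⟨x, hx, rfl⟩
        show Ψ.invFun (Ψ.toFun x) ∈ A₂
        rw [Ψ.left_inv (mem_univ x)]; exact hx
      · intro hy; exact ⟨_, hy, Ψ.right_inv (mem_univ y)⟩
    rw [this]
    exact hA₂.preimage (continuousOn_univ.1 Ψ.cont_inv)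
  have hcone := LocCone.image hA₂c Ψ
  obtain ⟨ε, hε, hfix⟩ := exists_push_fix hcl (hcone _) (hcone _) (by
    rintro _ ⟨p, hp, rfl⟩ hpT
    exact hside p hp hpT)
  refine ⟨(Ψ.trans (push hε)).trans Ψ.symm, ?_, ?_⟩
  · intro p hp
    show Ψ.invFun (pushFun ε (Ψ.toFun p)) = p
    rw [hfix _ ⟨p, hp, rfl⟩, Ψ.left_inv (mem_univ p)]
  · have : ((Ψ.trans (push hε)).trans Ψ.symm).toFun '' A₁ =
        Ψ.invFun '' (pushFun ε '' (Ψ.toFun '' A₁)) := by
      rw [image_image, image_image]; rfl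
    rw [this, h₁, pushFun_image_roof hε, ← hd, image_image]
    have h2 : ∀ x ∈ d, Ψ.invFun (Ψ.toFun x) = x := fun x _ => Ψ.left_inv (mem_univ x)
    rw [image_congr h2, image_id']

end P073.H339
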