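import Vale.Agent.P073.H339.Annulus
import Vale.Agent.P073.SCH.Schoenflies

/-!
# P073 / H339: every pair of nested planar conical circles bounds a decomposed annulus
-/

open Set Metric Topology Filter

namespace P073.H339

/-- the Schoenflies property holds -/
theorem sch : Sch := by
  intro C hC
  obtain ⟨D, ⟨Φ, hΦ⟩, hf⟩ := SCH.schoenflies hC
  refine ⟨D, Φ, hΦ, ?_⟩
  have h1 : Φ.toFun '' frontier (closedBall 0 1) = frontier (Φ.toFun '' closedBall 0 1) :=
    (toHomeo Φ).image_frontier _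
  rw [frontier_closedBall _ one_ne_zero, hΦ, hf] at h1
  exact h1

theorem IsArc.image_amb {A : Set (ℝ × ℝ)} {p q : ℝ × ℝ} (h : IsArc A p q)
    (Ψ : ConHomeo (univ : Set (ℝ × ℝ)) (univ : Set (ℝ × ℝ))) :
    IsArc (Ψ.toFun '' A) (Ψ.toFun p) (Ψ.toFun q) := h.image Ψ (subset_univ _)

theorem amb_injective (Ψ : ConHomeo (univ : Set (ℝ × ℝ)) (univ : Set (ℝ × ℝ))) :
    Function.Injective Ψ.toFun := (toHomeo Ψ).injective

theorem AnnDecomp.image {D C D' C' : Set (ℝ × ℝ)} {p q p' q' : ℝ × ℝ}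
    {S₁ S₂ L₁ L₂ β γ P₁ P₂ : Set (ℝ × ℝ)}
    (h : AnnDecomp D C D' C' p q p' q' S₁ S₂ L₁ L₂ β γ P₁ P₂)
    (Ψ : ConHomeo (univ : Set (ℝ × ℝ)) (univ : Set (ℝ × ℝ))) :
    AnnDecomp (Ψ.toFun '' D) (Ψ.toFun '' C) (Ψ.toFun '' D') (Ψ.toFun '' C') (Ψ.toFun p)
      (Ψ.toFun q) (Ψ.toFun p') (Ψ.toFun q') (Ψ.toFun '' S₁) (Ψ.toFun '' S₂) (Ψ.toFun '' L₁)
      (Ψ.toFun '' L₂) (Ψ.toFun '' β) (Ψ.toFun '' γ) (Ψ.toFun '' P₁) (Ψ.toFun '' P₂) := by
  have inj := amb_injective Ψ
  exact
    { hS₁ := IsArc.image_amb h.hS₁ Ψ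
      hS₂ := IsArc.image_amb h.hS₂ Ψ
      hS := by rw [← image_inter inj, ← image_pair]; exact image_mono h.hS
      hC := by rw [h.hC, image_union]
      hL₁ := IsArc.image_amb h.hL₁ Ψ
      hL₂ := IsArc.image_amb h.hL₂ Ψ
      hL := by rw [← image_inter inj, ← image_pair]; exact image_mono h.hL
      hC' := by rw [h.hC', image_union]
      hβ := IsArc.image_amb h.hβ Ψ
      hγ := IsArc.image_amb h.hγ Ψ
      hβγ := (disjoint_image_iff inj).2 h.hβγ
      hβC := by rw [← image_inter inj, ← image_singleton]; exact image_mono h.hβC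
      hβD' := by rw [← image_inter inj, ← image_singleton]; exact image_mono h.hβD'
      hγC := by rw [← image_inter inj, ← image_singleton]; exact image_mono h.hγC
      hγD' := by rw [← image_inter inj, ← image_singleton]; exact image_mono h.hγD'
      hP₁ := by simp only [← image_union]; exact h.hP₁.image Ψ
      hP₂ := by simp only [← image_union]; exact h.hP₂.image Ψ
      hD := by rw [h.hD]; simp only [image_union]
      hP := by rw [← image_inter inj, h.hP, image_union]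
      hP₁D' := by rw [← image_inter inj, h.hP₁D']
      hP₂D' := by rw [← image_inter inj, h.hP₂D'] }

/-- the standard outer disc -/
theorem exists_annDecomp_std {D' C' : Set (ℝ × ℝ)} (hD' : AmbDisc D' C')
    (hsub : C' ⊆ interior (closedBall (0 : ℝ × ℝ) 1)) :
    ∃ (p q p' q' : ℝ × ℝ) (S₁ S₂ L₁ L₂ β γ P₁ P₂ : Set (ℝ × ℝ)),
      AnnDecomp (closedBall 0 1) (sphere 0 1) D' C' p q p' q' S₁ S₂ L₁ L₂ β γ P₁ P₂ := by
  have hDstd : AmbDisc (closedBall (0 : ℝ × ℝ) 1) (sphere 0 1) :=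
    ⟨ConHomeo.refl (IsOpen.conicalSet isOpen_univ), by simp [ConHomeo.refl],
      by simp [ConHomeo.refl]⟩
  have hJ := hD'.jdisc
  have hin : D' ⊆ ball (0 : ℝ × ℝ) 1 := by
    have := hDstd.jdisc.subset_interior_of_bdry hJ hsub
    rwa [interior_closedBall _ one_ne_zero] at this
  have hcoord : ∀ x ∈ D', |x.1| < 1 ∧ |x.2| < 1 := by
    intro x hx
    have := hin hx
    rw [mem_ball_zero_iff, Prod.norm_def, max_lt_iff] at this
    exact this
  have hne : D'.Nonempty := hJ.int_ne.mono interior_subset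
  -- moving up and down in the interior
  have hmove : ∀ x ∈ interior D', ∃ δ > 0, (x.1, x.2 + δ) ∈ D' ∧ (x.1, x.2 - δ) ∈ D' := by
    intro x hx
    obtain ⟨ε, hε, hb⟩ := Metric.isOpen_iff.1 isOpen_interior x hx
    refine ⟨ε / 2, by positivity, interior_subset (hb ?_), interior_subset (hb ?_)⟩
    · rw [mem_ball, Prod.dist_eq]
      apply max_lt
      · simpa using hε
      · rw [Real.dist_eq]; simp only [add_sub_cancel_left]
        rw [abs_of_pos (by linarith)]; linarith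
    · rw [mem_ball, Prod.dist_eq]
      apply max_lt
      · simpa using hε
      · rw [Real.dist_eq]; simp only [sub_sub_cancel_left]
        rw [abs_neg, abs_of_pos (by linarith)]; linarith
  obtain ⟨p', hp', hmax⟩ := hJ.compact.exists_isMaxOn hne continuous_snd.continuousOn
  obtain ⟨q', hq', hmin⟩ := hJ.compact.exists_isMinOn hne continuous_snd.continuousOn
  have hp'C : p' ∈ C' := by
    by_contra hc
    obtain ⟨δ, hδ, h1, -⟩ := hmove p' (hJ.mem_interior hp' hc)
    have := hmax h1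
    simp only [mem_ofPred_eq] at this
    linarith
  have hq'C : q' ∈ C' := by
    by_contra hc
    obtain ⟨δ, hδ, -, h1⟩ := hmove q' (hJ.mem_interior hq' hc)
    have := hmin h1
    simp only [mem_ofPred_eq] at this
    linarith
  have hlt : q'.2 < p'.2 := by
    obtain ⟨x, hx⟩ := hJ.int_ne
    obtain ⟨δ, hδ, h1, -⟩ := hmove x hx
    have a1 := hmax h1
    have a2 := hmin (interior_subset hx)
    simp only [mem_ofPred_eq] at a1 a2
    linarith
  have hpq' : p' ≠ q' := fun h => by rw [h] at hlt; exact lt_irrefl _ hlt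
  have cp := hcoord p' hp'
  have cq := hcoord q' hq'
  rw [abs_lt, abs_lt] at cp cq
  -- the outer points
  have hpS : ((p'.1, 1) : ℝ × ℝ) ∈ sphere (0 : ℝ × ℝ) 1 := by
    rw [mem_sphere_zero_iff_norm, Prod.norm_def]
    apply le_antisymm
    · apply max_le
      · rw [Real.norm_eq_abs, abs_le]; constructor <;> linarith [cp.1.1, cp.1.2]
      · simp
    · apply le_max_of_le_right; simp
  have hqS : ((q'.1, -1) : ℝ × ℝ) ∈ sphere (0 : ℝ × ℝ) 1 := by
    rw [mem_sphere_zero_iff_norm, Prod.norm_def]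
    apply le_antisymm
    · apply max_le
      · rw [Real.norm_eq_abs, abs_le]; constructor <;> linarith [cq.1.1, cq.1.2]
      · simp
    · apply le_max_of_le_right; simp
  have hpq : ((p'.1, 1) : ℝ × ℝ) ≠ (q'.1, -1) := by
    intro h; have := congrArg Prod.snd h; norm_num at this
  obtain ⟨S₁, S₂, hS₁, hS₂, hSS, hSe⟩ :=
    IsCircle.arcs_through hDstd.isCircle hpS hqS hpq
  obtain ⟨L₁, L₂, hL₁, hL₂, hLL, hLe⟩ := IsCircle.arcs_through hD'.isCircle hp'C hq'C hpq'
  -- vertical segments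
  have hβm : ∀ x : ℝ × ℝ, x ∈ segment ℝ ((p'.1, 1) : ℝ × ℝ) p' ↔ x.1 = p'.1 ∧ p'.2 ≤ x.2 ∧
      x.2 ≤ 1 := by
    intro x
    rw [segment_symm]
    exact mem_vseg (x := x.1) (y := x.2) (c := p'.1) cp.2.2.le
  have hγm : ∀ x : ℝ × ℝ, x ∈ segment ℝ ((q'.1, -1) : ℝ × ℝ) q' ↔ x.1 = q'.1 ∧ -1 ≤ x.2 ∧
      x.2 ≤ q'.2 := by
    intro x
    exact mem_vseg (x := x.1) (y := x.2) (c := q'.1) cq.2.1.le
  have hβarc : IsArc (segment ℝ ((p'.1, 1) : ℝ × ℝ) p') (p'.1, 1) p' :=
    isArc_segment fun h => by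
      have := congrArg Prod.snd h
      simp only at this
      linarith [cp.2.2]
  have hγarc : IsArc (segment ℝ ((q'.1, -1) : ℝ × ℝ) q') (q'.1, -1) q' :=
    isArc_segment fun h => by
      have := congrArg Prod.snd h
      simp only at this
      linarith [cq.2.1]
  obtain ⟨T₁, T₂, P₁, P₂, h⟩ := sch.annDecomp (D := closedBall 0 1) (D' := D')
    (p := (p'.1, 1)) (q := (q'.1, -1)) (p' := p') (q' := q') (S₁ := S₁) (S₂ := S₂) (L₁ := L₁)
    (L₂ := L₂) (β := segment ℝ ((p'.1, 1) : ℝ × ℝ) p') (γ := segment ℝ ((q'.1, -1) : ℝ × ℝ) q')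
    (by rw [← hSe]; exact hDstd) (by rw [← hLe]; exact hD') (by rw [← hLe]; exact hsub)
    hS₁ hS₂ hSS hL₁ hL₂ hLL hβarc hγarc
    (by
      rw [disjoint_left]
      intro x hx hx'
      rw [hβm] at hx
      rw [hγm] at hx'
      linarith [hx.2.1, hx'.2.2])
    (by
      intro x hx
      rw [hβm] at hx
      rw [mem_closedBall_zero_iff, Prod.norm_def, hx.1]
      apply max_le
      · rw [Real.norm_eq_abs, abs_le]; constructor <;> linarith [cp.1.1, cp.1.2]
      · rw [Real.norm_eq_abs, abs_le]; constructor <;> linarith [cp.2.1, hx.2.1, hx.2.2])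
    (by
      intro x hx
      rw [hγm] at hx
      rw [mem_closedBall_zero_iff, Prod.norm_def, hx.1]
      apply max_le
      · rw [Real.norm_eq_abs, abs_le]; constructor <;> linarith [cq.1.1, cq.1.2]
      · rw [Real.norm_eq_abs, abs_le]; constructor <;> linarith [cq.2.2, hx.2.1, hx.2.2])
    (by
      rw [← hSe]
      rintro x ⟨hx, hxS⟩
      rw [hβm] at hx
      rw [mem_sphere_zero_iff_norm, Prod.norm_def] at hxS
      rw [mem_singleton_iff]
      have h1 : ‖x.1‖ < 1 := by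
        rw [hx.1, Real.norm_eq_abs, abs_lt]; exact cp.1
      have h2 : ‖x.2‖ = 1 := by
        rcases max_cases ‖x.1‖ ‖x.2‖ with h | h
        · rw [h.1] at hxS; linarith
        · rw [h.1] at hxS; exact hxS
      rw [Real.norm_eq_abs] at h2
      rcases eq_or_eq_neg_of_abs_eq h2 with h | h
      · exact Prod.ext hx.1 h
      · exfalso; linarith [hx.2.1, cp.2.1])
    (by
      rintro x ⟨hx, hxD⟩
      rw [hβm] at hx
      have := hmax hxD
      simp only [mem_ofPred_eq] at this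
      exact Prod.ext hx.1 (le_antisymm this hx.2.1))
    (by
      rw [← hSe]
      rintro x ⟨hx, hxS⟩
      rw [hγm] at hx
      rw [mem_sphere_zero_iff_norm, Prod.norm_def] at hxS
      rw [mem_singleton_iff]
      have h1 : ‖x.1‖ < 1 := by
        rw [hx.1, Real.norm_eq_abs, abs_lt]; exact cq.1
      have h2 : ‖x.2‖ = 1 := by
        rcases max_cases ‖x.1‖ ‖x.2‖ with h | h
        · rw [h.1] at hxS; linarith
        · rw [h.1] at hxS; exact hxS
      rw [Real.norm_eq_abs] at h2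
      rcases eq_or_eq_neg_of_abs_eq h2 with h | h
      · exfalso; linarith [hx.2.2, cq.2.2]
      · exact Prod.ext hx.1 h)
    (by
      rintro x ⟨hx, hxD⟩
      rw [hγm] at hx
      have := hmin hxD
      simp only [mem_ofPred_eq] at this
      exact Prod.ext hx.1 (le_antisymm hx.2.2 this))
  rw [← hSe, ← hLe] at h
  exact ⟨_, _, _, _, _, _, _, _, _, _, _, _, h⟩

/-- **Annulus decomposition** for nested conical circles in the plane -/
theorem exists_annDecomp {D C D' C' : Set (ℝ × ℝ)} (hD : AmbDisc D C) (hD' : AmbDisc D' C')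
    (hsub : C' ⊆ interior D) :
    ∃ (p q p' q' : ℝ × ℝ) (S₁ S₂ L₁ L₂ β γ P₁ P₂ : Set (ℝ × ℝ)),
      AnnDecomp D C D' C' p q p' q' S₁ S₂ L₁ L₂ β γ P₁ P₂ := by
  obtain ⟨Φ, rfl, rfl⟩ := hD
  have hinv : ∀ S : Set (ℝ × ℝ), Φ.toFun '' (Φ.symm.toFun '' S) = S := by
    intro S
    rw [image_image]
    have : ∀ x ∈ S, Φ.toFun (Φ.symm.toFun x) = x := fun x _ => Φ.right_inv (mem_univ x)
    rw [image_congr this, image_id']
  have hsub' : Φ.symm.toFun '' C' ⊆ interior (closedBall (0 : ℝ × ℝ) 1) := by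
    have h1 : interior (Φ.toFun '' closedBall 0 1) = Φ.toFun '' interior (closedBall 0 1) :=
      ((toHomeo Φ).image_interior _).symm
    rw [h1] at hsub
    rintro _ ⟨x, hx, rfl⟩
    obtain ⟨y, hy, hyx⟩ := hsub hx
    have : Φ.symm.toFun x = y := by rw [← hyx]; exact Φ.left_inv (mem_univ y)
    rw [this]; exact hy
  obtain ⟨p, q, p', q', S₁, S₂, L₁, L₂, β, γ, P₁, P₂, h⟩ :=
    exists_annDecomp_std (hD'.image Φ.symm) hsub'
  have := h.image Φ
  rw [hinv, hinv] at this
  exact ⟨_, _, _, _, _, _, _, _, _, _, _, _, this⟩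

end P073.H339
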