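import Vale.Agent.P073.H339.Annulus2
import Vale.Agent.P073.H339.SphereJS
import Vale.Agent.P073.PA260.Collar
import Vale.Agent.P073.PA691.Spec

/-!
# P073 / H339: the conical annulus theorem in the plane

Pairs of nested ambient discs are equivalent; the region between them is a conical annulus.
-/

set_option linter.unusedSectionVars false

open Set Metric Topology Filter

namespace P073.H339

variable {E F G : Type*} [NormedAddCommGroup E] [NormedSpace ℝ E]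
  [NormedAddCommGroup F] [NormedSpace ℝ F] [NormedAddCommGroup G] [NormedSpace ℝ G]

theorem exists_glue {X Y : Set E} {X' Y' : Set F} (f : ConHomeo X X') (g : ConHomeo Y Y')
    (hX : IsClosed X) (hY : IsClosed Y) (hX' : IsClosed X') (hY' : IsClosed Y')
    (hag : EqOn f.toFun g.toFun (X ∩ Y)) (himg : X' ∩ Y' ⊆ f.toFun '' (X ∩ Y)) :
    ∃ φ : ConHomeo (X ∪ Y) (X' ∪ Y'), EqOn φ.toFun f.toFun X ∧ EqOn φ.toFun g.toFun Y :=
  ⟨ConHomeo.glue f g hX hY hX' hY' hag himg, ConHomeo.glue_left _ _ _ _ _ _ _ _,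
    ConHomeo.glue_right _ _ _ _ _ _ _ _⟩

/-- gluing two arcs with one common end point -/
theorem exists_glue_arcs₁ {A B : Set E} {A' B' : Set F} {a : E} {a' : F}
    (α : ConHomeo A A') (β : ConHomeo B B') (hA : IsClosed A) (hB : IsClosed B)
    (hA' : IsClosed A') (hB' : IsClosed B')
    (ha : a ∈ A ∩ B) (hAB : A ∩ B ⊆ {a}) (hAB' : A' ∩ B' ⊆ {a'})
    (h1 : α.toFun a = a') (h3 : β.toFun a = a') :
    ∃ φ : ConHomeo (A ∪ B) (A' ∪ B'), EqOn φ.toFun α.toFun A ∧ EqOn φ.toFun β.toFun B :=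
  exists_glue_arcs α β hA hB hA' hB' ha ha (fun _ hx => Or.inl (hAB hx))
    (fun _ hx => Or.inl (hAB' hx)) h1 h1 h3 h3

theorem AnnDecomp.exists_homeo {D C D' C' : Set (ℝ × ℝ)} {p q p' q' : ℝ × ℝ}
    {S₁ S₂ L₁ L₂ β γ P₁ P₂ : Set (ℝ × ℝ)}
    (h : AnnDecomp D C D' C' p q p' q' S₁ S₂ L₁ L₂ β γ P₁ P₂)
    {E K E' K' : Set (ℝ × ℝ)} {u v u' v' : ℝ × ℝ}
    {T₁ T₂ M₁ M₂ ε δ R₁ R₂ : Set (ℝ × ℝ)}
    (g : AnnDecomp E K E' K' u v u' v' T₁ T₂ M₁ M₂ ε δ R₁ R₂)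
    (hD' : AmbDisc D' C') (hE' : AmbDisc E' K') (hCD : Disjoint C D') (hKE : Disjoint K E') :
    ∃ Ψ : ConHomeo D E, Ψ.toFun '' D' = E' ∧ Ψ.toFun '' C = K ∧ Ψ.toFun '' C' = K' := by
  obtain ⟨s₁, s₁p, s₁q⟩ := h.hS₁.exists_homeo g.hS₁
  obtain ⟨s₂, s₂p, s₂q⟩ := h.hS₂.exists_homeo g.hS₂
  obtain ⟨l₁, l₁p, l₁q⟩ := h.hL₁.exists_homeo g.hL₁
  obtain ⟨l₂, l₂p, l₂q⟩ := h.hL₂.exists_homeo g.hL₂
  obtain ⟨b, bp, bp'⟩ := h.hβ.exists_homeo g.hβ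
  obtain ⟨c, cq, cq'⟩ := h.hγ.exists_homeo g.hγ
  -- the map on one of the two discs
  have key : ∀ {D C D' C' : Set (ℝ × ℝ)} {p q p' q' : ℝ × ℝ}
      {S₁ S₂ L₁ L₂ β γ P₁ P₂ : Set (ℝ × ℝ)},
      AnnDecomp D C D' C' p q p' q' S₁ S₂ L₁ L₂ β γ P₁ P₂ → Disjoint C D' →
      (S₁ ⊆ C ∧ S₂ ⊆ C) ∧ (L₁ ⊆ D' ∧ L₂ ⊆ D') ∧
      (∀ L ⊆ D', β ∩ L ⊆ {p'}) ∧ (∀ L ⊆ D', (β ∪ L) ∩ γ ⊆ {q'}) ∧
      (∀ S ⊆ C, ∀ L ⊆ D', S ∩ (β ∪ L ∪ γ) ⊆ {p, q}) := by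
    intro D C D' C' p q p' q' S₁ S₂ L₁ L₂ β γ P₁ P₂ h hCD
    have hL : L₁ ⊆ D' ∧ L₂ ⊆ D' := by
      constructor
      · rw [← h.hP₁D']; exact inter_subset_right
      · rw [← h.hP₂D']; exact inter_subset_right
    refine ⟨⟨?_, ?_⟩, hL, ?_, ?_, ?_⟩
    · rw [h.hC]; exact subset_union_left
    · rw [h.hC]; exact subset_union_right
    · exact fun L hL x hx => h.hβD' ⟨hx.1, hL hx.2⟩
    · rintro L hL x ⟨hx | hx, hxγ⟩
      · exact absurd hxγ (disjoint_left.1 h.hβγ hx)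
      · exact h.hγD' ⟨hxγ, hL hx⟩
    · rintro S hS L hL x ⟨hx, (h1 | h1) | h1⟩
      · exact Or.inl (h.hβC ⟨h1, hS hx⟩)
      · exact absurd (hL h1) (disjoint_left.1 hCD (hS hx))
      · exact Or.inr (h.hγC ⟨h1, hS hx⟩)
  obtain ⟨⟨hS₁C, hS₂C⟩, ⟨hL₁D, hL₂D⟩, hβL, hβLγ, hSL⟩ := key h hCD
  obtain ⟨⟨gS₁C, gS₂C⟩, ⟨gL₁D, gL₂D⟩, gβL, gβLγ, gSL⟩ := key g hKE
  have disc : ∀ {S L P T M R : Set (ℝ × ℝ)} (s : ConHomeo S T) (l : ConHomeo L M),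
      IsArc S p q → IsArc T u v → IsArc L p' q' → IsArc M u' v' →
      s.toFun p = u → s.toFun q = v → l.toFun p' = u' → l.toFun q' = v' →
      S ⊆ C → T ⊆ K → L ⊆ D' → M ⊆ E' →
      AmbDisc P (S ∪ (β ∪ L ∪ γ)) → AmbDisc R (T ∪ (ε ∪ M ∪ δ)) →
      ∃ f : ConHomeo P R, EqOn f.toFun s.toFun S ∧ EqOn f.toFun b.toFun β ∧
        EqOn f.toFun l.toFun L ∧ EqOn f.toFun c.toFun γ := by
    intro S L P T M R s l hS hT hL hM sp sq lp lq hSC hTK hLD hME hP hR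
    obtain ⟨φ₁, φ₁b, φ₁l⟩ := exists_glue_arcs₁ b l h.hβ.isClosed hL.isClosed g.hβ.isClosed
      hM.isClosed ⟨h.hβ.right_mem, hL.left_mem⟩ (hβL L hLD) (gβL M hME) bp' lp
    obtain ⟨φ₂, φ₂1, φ₂c⟩ := exists_glue_arcs₁ φ₁ c (h.hβ.isClosed.union hL.isClosed)
      h.hγ.isClosed (g.hβ.isClosed.union hM.isClosed) g.hγ.isClosed
      ⟨Or.inr hL.right_mem, h.hγ.right_mem⟩ (hβLγ L hLD) (gβLγ M hME)
      ((φ₁l hL.right_mem).trans lq) cq'
    obtain ⟨φ₃, φ₃s, φ₃2⟩ := exists_glue_arcs s φ₂ hS.isClosed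
      ((h.hβ.isClosed.union hL.isClosed).union h.hγ.isClosed) hT.isClosed
      ((g.hβ.isClosed.union hM.isClosed).union g.hγ.isClosed)
      ⟨hS.left_mem, Or.inl (Or.inl h.hβ.left_mem)⟩ ⟨hS.right_mem, Or.inr h.hγ.left_mem⟩
      (hSL S hSC L hLD) (gSL T hTK M hME) sp sq
      (((φ₂1 (Or.inl h.hβ.left_mem)).trans (φ₁b h.hβ.left_mem)).trans bp)
      ((φ₂c h.hγ.left_mem).trans cq)
    obtain ⟨f, hf, -⟩ := hP.conBall.exists_extend hR.conBall φ₃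
    refine ⟨f, fun x hx => ?_, fun x hx => ?_, fun x hx => ?_, fun x hx => ?_⟩
    · rw [hf (Or.inl hx), φ₃s hx]
    · rw [hf (Or.inr (Or.inl (Or.inl hx))), φ₃2 (Or.inl (Or.inl hx)), φ₂1 (Or.inl hx), φ₁b hx]
    · rw [hf (Or.inr (Or.inl (Or.inr hx))), φ₃2 (Or.inl (Or.inr hx)), φ₂1 (Or.inr hx), φ₁l hx]
    · rw [hf (Or.inr (Or.inr hx)), φ₃2 (Or.inr hx), φ₂c hx]
  obtain ⟨f₁, f₁s, f₁b, f₁l, f₁c⟩ := disc s₁ l₁ h.hS₁ g.hS₁ h.hL₁ g.hL₁ s₁p s₁q l₁p l₁q hS₁C gS₁C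
    hL₁D gL₁D h.hP₁ g.hP₁
  obtain ⟨f₂, f₂s, f₂b, f₂l, f₂c⟩ := disc s₂ l₂ h.hS₂ g.hS₂ h.hL₂ g.hL₂ s₂p s₂q l₂p l₂q hS₂C gS₂C
    hL₂D gL₂D h.hP₂ g.hP₂
  -- the map on the inner disc
  obtain ⟨φ, φ1, φ2⟩ := exists_glue_arcs l₁ l₂ h.hL₁.isClosed h.hL₂.isClosed g.hL₁.isClosed
    g.hL₂.isClosed ⟨h.hL₁.left_mem, h.hL₂.left_mem⟩ ⟨h.hL₁.right_mem, h.hL₂.right_mem⟩ h.hL g.hL
    l₁p l₁q l₂p l₂q
  have hD'' : ConBall 2 D' (L₁ ∪ L₂) := h.hC' ▸ hD'.conBall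
  have hE'' : ConBall 2 E' (M₁ ∪ M₂) := g.hC' ▸ hE'.conBall
  obtain ⟨f₀, hf₀, hf₀C⟩ := hD''.exists_extend hE'' φ
  -- glue
  have hP₁c := h.hP₁.conBall.isClosed
  have hP₂c := h.hP₂.conBall.isClosed
  have hR₁c := g.hP₁.conBall.isClosed
  have hR₂c := g.hP₂.conBall.isClosed
  obtain ⟨f₁₂, e1, e2⟩ := exists_glue f₁ f₂ hP₁c hP₂c hR₁c hR₂c
    (by
      rw [h.hP]
      rintro x (hx | hx)
      · rw [f₁b hx, f₂b hx]
      · rw [f₁c hx, f₂c hx])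
    (by
      rw [h.hP, g.hP, image_union, f₁b.image_eq, f₁c.image_eq, b.image_eq, c.image_eq])
  have hint : D' ∩ (P₁ ∪ P₂) = L₁ ∪ L₂ := by
    rw [inter_union_distrib_left, inter_comm D', inter_comm D', h.hP₁D', h.hP₂D']
  have gint : E' ∩ (R₁ ∪ R₂) = M₁ ∪ M₂ := by
    rw [inter_union_distrib_left, inter_comm E', inter_comm E', g.hP₁D', g.hP₂D']
  have hL₁P : L₁ ⊆ P₁ := by rw [← h.hP₁D']; exact inter_subset_left
  have hL₂P : L₂ ⊆ P₂ := by rw [← h.hP₂D']; exact inter_subset_left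
  obtain ⟨f, k0, k12⟩ := exists_glue f₀ f₁₂ hD''.isClosed (hP₁c.union hP₂c) hE''.isClosed
    (hR₁c.union hR₂c)
    (by
      rw [hint]
      rintro x (hx | hx)
      · rw [hf₀ (Or.inl hx), φ1 hx, e1 (hL₁P hx), f₁l hx]
      · rw [hf₀ (Or.inr hx), φ2 hx, e2 (hL₂P hx), f₂l hx])
    (by
      rw [hint, gint, hf₀C])
  have hS₁P : S₁ ⊆ P₁ := fun x hx => h.hP₁.conBall.1 (Or.inl hx)
  have hS₂P : S₂ ⊆ P₂ := fun x hx => h.hP₂.conBall.1 (Or.inl hx)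
  refine ⟨f.cast h.hD.symm g.hD.symm, ?_, ?_, ?_⟩
  · show f.toFun '' D' = E'
    rw [k0.image_eq, f₀.image_eq]
  · show f.toFun '' C = K
    rw [h.hC, g.hC, image_union]
    congr 1
    · rw [(k12.mono (hS₁P.trans subset_union_left)).image_eq, (e1.mono hS₁P).image_eq,
        f₁s.image_eq, s₁.image_eq]
    · rw [(k12.mono (hS₂P.trans subset_union_right)).image_eq, (e2.mono hS₂P).image_eq,
        f₂s.image_eq, s₂.image_eq]
  · show f.toFun '' C' = K'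
    rw [h.hC', g.hC', (k0.mono hD''.1).image_eq, hf₀C]

/-- **Nested pairs of discs are equivalent.** -/
theorem exists_pair_homeo {D C D' C' E K E' K' : Set (ℝ × ℝ)} (hD : AmbDisc D C)
    (hD' : AmbDisc D' C') (hsub : C' ⊆ interior D) (hE : AmbDisc E K) (hE' : AmbDisc E' K')
    (hsub' : K' ⊆ interior E) :
    ∃ Ψ : ConHomeo D E, Ψ.toFun '' D' = E' ∧ Ψ.toFun '' C = K ∧ Ψ.toFun '' C' = K' := by
  obtain ⟨p, q, p', q', S₁, S₂, L₁, L₂, β, γ, P₁, P₂, h⟩ := exists_annDecomp hD hD' hsub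
  obtain ⟨u, v, u', v', T₁, T₂, M₁, M₂, ε, δ, R₁, R₂, g⟩ := exists_annDecomp hE hE' hsub'
  refine h.exists_homeo g hD' hE' ?_ ?_
  · rw [disjoint_left]
    exact fun x hx hx' => hD.jdisc.interior_disj (hD.jdisc.subset_interior_of_bdry hD'.jdisc hsub hx') hx
  · rw [disjoint_left]
    exact fun x hx hx' => hE.jdisc.interior_disj (hE.jdisc.subset_interior_of_bdry hE'.jdisc hsub' hx') hx

open PA691 (ConAnn AnnDisc S1 P2)

theorem _root_.P073.PA691.ConAnn.image {M γ γ' : Set E} (h : ConAnn M γ γ') {X : Set E} {Y : Set F}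
    (Φ : ConHomeo X Y) (hM : M ⊆ X) : ConAnn (Φ.toFun '' M) (Φ.toFun '' γ) (Φ.toFun '' γ') := by
  obtain ⟨a, h0, h1⟩ := h
  refine ⟨a.trans (Φ.restr a.conicalSet_right hM), ?_, ?_⟩
  · rw [← h0, image_image]; rfl
  · rw [← h1, image_image]; rfl

/-- the affine reflection of the unit interval -/
noncomputable def flipIcc : ConHomeo (Icc (0:ℝ) 1) (Icc (0:ℝ) 1) where
  toFun := fun t => 1 - t
  invFun := fun t => 1 - t
  mapsTo := fun t ht => ⟨by linarith [ht.2], by linarith [ht.1]⟩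
  mapsTo_inv := fun t ht => ⟨by linarith [ht.2], by linarith [ht.1]⟩
  left_inv := fun t _ => by ring
  right_inv := fun t _ => by ring
  cont := by fun_prop
  cont_inv := by fun_prop
  conical := (conicalOn_const (1:ℝ) (conicalSet_Icc 0 1)).sub (conicalOn_id (conicalSet_Icc 0 1))

theorem _root_.P073.PA691.ConAnn.symm {M γ γ' : Set E} (h : ConAnn M γ γ') : ConAnn M γ' γ := by
  obtain ⟨a, h0, h1⟩ := h
  refine ⟨((ConHomeo.refl (conicalSet_sphere_pi 2)).prod flipIcc).trans a, ?_, ?_⟩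
  · rw [← h1]
    ext x
    constructor
    · rintro ⟨⟨θ, t⟩, ⟨hθ, ht⟩, rfl⟩
      obtain rfl : t = 0 := ht
      refine ⟨(θ, 1), ⟨hθ, rfl⟩, ?_⟩
      show a.toFun (θ, 1) = a.toFun (θ, 1 - 0)
      rw [sub_zero]
    · rintro ⟨⟨θ, t⟩, ⟨hθ, ht⟩, rfl⟩
      obtain rfl : t = 1 := ht
      refine ⟨(θ, 0), ⟨hθ, rfl⟩, ?_⟩
      show a.toFun (θ, 1 - 0) = a.toFun (θ, 1)
      rw [sub_zero]
  · rw [← h0]
    ext x
    constructor
    · rintro ⟨⟨θ, t⟩, ⟨hθ, ht⟩, rfl⟩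
      obtain rfl : t = 1 := ht
      refine ⟨(θ, 0), ⟨hθ, rfl⟩, ?_⟩
      show a.toFun (θ, 0) = a.toFun (θ, 1 - 1)
      rw [sub_self]
    · rintro ⟨⟨θ, t⟩, ⟨hθ, ht⟩, rfl⟩
      obtain rfl : t = 0 := ht
      refine ⟨(θ, 1), ⟨hθ, rfl⟩, ?_⟩
      show a.toFun (θ, 1 - 1) = a.toFun (θ, 0)
      rw [sub_self]

/-- the standard planar annulus -/
theorem conAnn_std {a b : ℝ} (ha : 1 / 2 ≤ a) (hab : a < b) (hb : b ≤ 1) :
    ConAnn {x : P2 | ‖x‖ ∈ Icc a b} (sphere 0 a) (sphere 0 b) := by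
  have hsub : Icc a b ⊆ Icc (1 / 2 : ℝ) 1 := Icc_subset_Icc ha hb
  let Φ := (annHomeo 2)
  have hX : ConicalSet (sphere (0 : P2) 1 ×ˢ Icc a b) :=
    (conicalSet_sphere_pi 2).prod (conicalSet_Icc _ _)
  have hXs : sphere (0 : P2) 1 ×ˢ Icc a b ⊆ sphere (0 : P2) 1 ×ˢ Icc (1 / 2 : ℝ) 1 :=
    prod_mono_right hsub
  have key : ∀ J ⊆ Icc (1 / 2 : ℝ) 1, Φ.toFun '' (sphere (0 : P2) 1 ×ˢ J) = {x : P2 | ‖x‖ ∈ J} := by
    intro J hJ
    ext x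
    constructor
    · rintro ⟨p, hp, rfl⟩
      show ‖Φ.toFun p‖ ∈ J
      rw [norm_annHomeo ⟨hp.1, hJ hp.2⟩]
      exact hp.2
    · intro hx
      have hx' : x ∈ {x : P2 | ‖x‖ ∈ Icc (1 / 2 : ℝ) 1} := hJ hx
      refine ⟨Φ.invFun x, ⟨(Φ.mapsTo_inv hx').1, ?_⟩, Φ.right_inv hx'⟩
      have h1 := norm_annHomeo (Φ.mapsTo_inv hx')
      rw [Φ.right_inv hx'] at h1
      rw [← h1]
      exact hx
  have hs : ∀ r : ℝ, {x : P2 | ‖x‖ ∈ ({r} : Set ℝ)} = sphere 0 r := by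
    intro r; ext x; rw [mem_sphere_zero_iff_norm]; rfl
  refine ⟨((ConHomeo.refl (conicalSet_sphere_pi 2)).prod (ConHomeo.affIcc zero_lt_one hab)).trans
    ((Φ.restr hX hXs).cast rfl (key _ hsub)), ?_, ?_⟩
  · have : (sphere (0 : P2) 1 ×ˢ ({a} : Set ℝ)) =
        ((ConHomeo.refl (conicalSet_sphere_pi 2)).prod (ConHomeo.affIcc zero_lt_one hab)).toFun ''
          (S1 ×ˢ {0}) := by
      ext ⟨θ, t⟩
      constructor
      · rintro ⟨hθ, ht⟩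
        refine ⟨(θ, 0), ⟨hθ, rfl⟩, ?_⟩
        refine Prod.ext rfl ?_
        show (ConHomeo.affIcc zero_lt_one hab).toFun 0 = t
        rw [ConHomeo.affIcc_left]; exact ht.symm
      · rintro ⟨⟨θ', t'⟩, ⟨hθ, ht⟩, h⟩
        have h1 : θ' = θ := congrArg Prod.fst h
        have h2 : (ConHomeo.affIcc zero_lt_one hab).toFun t' = t := congrArg Prod.snd h
        obtain rfl : t' = 0 := ht
        rw [ConHomeo.affIcc_left] at h2
        exact ⟨h1 ▸ hθ, h2.symm⟩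
    have h2 := key {a} (singleton_subset_iff.2 (hsub ⟨le_refl _, hab.le⟩))
    rw [hs] at h2
    rw [← h2, this, image_image]
    rfl
  · have : (sphere (0 : P2) 1 ×ˢ ({b} : Set ℝ)) =
        ((ConHomeo.refl (conicalSet_sphere_pi 2)).prod (ConHomeo.affIcc zero_lt_one hab)).toFun ''
          (S1 ×ˢ {1}) := by
      ext ⟨θ, t⟩
      constructor
      · rintro ⟨hθ, ht⟩
        refine ⟨(θ, 1), ⟨hθ, rfl⟩, ?_⟩
        refine Prod.ext rfl ?_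
        show (ConHomeo.affIcc zero_lt_one hab).toFun 1 = t
        rw [ConHomeo.affIcc_right]; exact ht.symm
      · rintro ⟨⟨θ', t'⟩, ⟨hθ, ht⟩, h⟩
        have h1 : θ' = θ := congrArg Prod.fst h
        have h2 : (ConHomeo.affIcc zero_lt_one hab).toFun t' = t := congrArg Prod.snd h
        obtain rfl : t' = 1 := ht
        rw [ConHomeo.affIcc_right] at h2
        exact ⟨h1 ▸ hθ, h2.symm⟩
    have h2 := key {b} (singleton_subset_iff.2 (hsub ⟨hab.le, le_refl _⟩))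
    rw [hs] at h2
    rw [← h2, this, image_image]
    rfl

/-- **The conical annulus theorem in the plane** -/
theorem conAnn_of_nested {D C D' C' : Set (ℝ × ℝ)} (hD : AmbDisc D C)
    (hD' : AmbDisc D' C') (hsub : C' ⊆ interior D) : ConAnn (D \ interior D') C' C := by
  have h2 : AmbDisc (closedBall (0 : ℝ × ℝ) (1 / 2)) (sphere 0 (1 / 2)) :=
    ambDisc_closedBall 0 (by norm_num)
  obtain ⟨Ψ, e1, e2, e3⟩ := exists_pair_homeo hD hD' hsub ambDisc_std h2 (by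
    rw [interior_closedBall _ one_ne_zero]
    intro x hx
    rw [mem_sphere_zero_iff_norm] at hx
    rw [mem_ball_zero_iff, hx]
    norm_num)
  have hD'D : D' ⊆ D := (hD.jdisc.subset_interior_of_bdry hD'.jdisc hsub).trans interior_subset
  have hC'D : C' ⊆ D := hsub.trans interior_subset
  have hCD : C ⊆ D := hD.jdisc.bdry_subset
  -- transport of the standard annulus
  have h3 := (conAnn_std (a := 1 / 2) (b := 1) (le_refl _) (by norm_num) (le_refl _)).image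
    pairHomeo.symm (subset_univ _)
  have n1 : ∀ x : P2, ‖pairHomeo.symm.toFun x‖ = ‖x‖ := pairHomeo_inv_norm
  have hsur : ∀ y : ℝ × ℝ, pairHomeo.symm.toFun (pairHomeo.toFun y) = y :=
    fun y => pairHomeo.left_inv (mem_univ y)
  have k1 : pairHomeo.symm.toFun '' {x : P2 | ‖x‖ ∈ Icc (1 / 2 : ℝ) 1} =
      closedBall (0 : ℝ × ℝ) 1 \ interior (closedBall 0 (1 / 2)) := by
    rw [interior_closedBall _ (by norm_num)]
    ext y
    constructor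
    · rintro ⟨x, hx, rfl⟩
      rw [Set.mem_sdiff, mem_closedBall_zero_iff, mem_ball_zero_iff, n1]
      exact ⟨hx.2, not_lt.2 hx.1⟩
    · rintro ⟨h4, h5⟩
      rw [mem_closedBall_zero_iff] at h4
      rw [mem_ball_zero_iff, not_lt] at h5
      refine ⟨pairHomeo.toFun y, ?_, hsur y⟩
      show ‖pairHomeo.toFun y‖ ∈ Icc (1 / 2 : ℝ) 1
      rw [pairHomeo_norm]
      exact ⟨h5, h4⟩
  have k2 : ∀ r : ℝ, pairHomeo.symm.toFun '' sphere (0 : P2) r = sphere 0 r := by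
    intro r
    ext y
    constructor
    · rintro ⟨x, hx, rfl⟩
      rw [mem_sphere_zero_iff_norm] at hx ⊢
      rw [n1, hx]
    · intro hy
      refine ⟨pairHomeo.toFun y, ?_, hsur y⟩
      rw [mem_sphere_zero_iff_norm] at hy ⊢
      rw [pairHomeo_norm, hy]
  rw [k1, k2, k2] at h3
  have h4 := h3.image Ψ.symm Set.sdiff_subset
  have im : ∀ S ⊆ D, Ψ.symm.toFun '' (Ψ.toFun '' S) = S := by
    intro S hS
    rw [image_image]
    have : ∀ x ∈ S, Ψ.symm.toFun (Ψ.toFun x) = x := fun x hx => Ψ.left_inv (hS hx)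
    rw [image_congr this, image_id']
  have i1 : Ψ.symm.toFun '' sphere 0 (1 / 2) = C' := by rw [← e3, im _ hC'D]
  have i2 : Ψ.symm.toFun '' sphere 0 1 = C := by rw [← e2, im _ hCD]
  have i3 : Ψ.symm.toFun '' (closedBall 0 1 \ interior (closedBall 0 (1 / 2))) =
      D \ interior D' := by
    have j1 : interior (closedBall (0 : ℝ × ℝ) (1 / 2)) = Ψ.toFun '' (D' \ C') := by
      rw [(Ψ.injOn.mono hD'D).image_sdiff_subset hD'.jdisc.bdry_subset, e1, e3,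
        h2.jdisc.interior_eq]
    have j2 : closedBall (0 : ℝ × ℝ) 1 \ Ψ.toFun '' (D' \ C') = Ψ.toFun '' (D \ (D' \ C')) := by
      rw [Ψ.injOn.image_sdiff_subset ((Set.sdiff_subset).trans hD'D), Ψ.image_eq]
    rw [j1, hD'.jdisc.interior_eq, j2, im _ Set.sdiff_subset]
  rw [i1, i2, i3] at h4
  exact h4

end P073.H339
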