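import Vale.Agent.P073.H339.Annulus2

/-!
# P073 / H339: in a surface made of two discs, the complement of a small disc is a disc
-/

open Set Metric Topology Filter

namespace P073.H339

variable {E : Type*} [NormedAddCommGroup E] [NormedSpace ℝ E]

/-- **Complement lemma.** `X` is a chart (conically homeomorphic to a planar ambient disc `D`),
`Y` is a conical disc, `X ∩ Y` is the boundary of `Y` and corresponds to the boundary of `D`.
Then for every planar disc `D'` with boundary in the interior of `D`, the complement of the open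
disc corresponding to `D'` is a conical disc. -/
theorem conBall_complement {X Y B : Set E} {D C D' C' : Set (ℝ × ℝ)} (κ : ConHomeo X D)
    (hD : AmbDisc D C) (hY : ConBall 2 Y B) (hXY : X ∩ Y = B) (hB : κ.invFun '' C = B)
    (hD' : AmbDisc D' C') (hsub : C' ⊆ interior D) :
    ConBall 2 ((X ∪ Y) \ κ.invFun '' interior D') (κ.invFun '' C') := by
  obtain ⟨p, q, p', q', S₁, S₂, L₁, L₂, β, γ, P₁, P₂, h⟩ := exists_annDecomp hD hD' hsub
  set g := κ.invFun with hg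
  have hginj : InjOn g D := κ.symm.injOn
  have hgD : g '' D = X := κ.symm.image_eq
  have hCD : C ⊆ D := hD.jdisc.bdry_subset
  have hDint : D' ⊆ interior D := hD.jdisc.subset_interior_of_bdry hD'.jdisc hsub
  have hD'D : D' ⊆ D := hDint.trans interior_subset
  have hP₁D : P₁ ⊆ D := by rw [h.hD]; exact fun x hx => Or.inr (Or.inl hx)
  have hP₂D : P₂ ⊆ D := by rw [h.hD]; exact fun x hx => Or.inr (Or.inr hx)
  have hS₁D : S₁ ⊆ D := (h.hC ▸ subset_union_left).trans hCD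
  have hS₂D : S₂ ⊆ D := (h.hC ▸ subset_union_right).trans hCD
  have hS₁C : S₁ ⊆ C := h.hC ▸ subset_union_left
  have hS₂C : S₂ ⊆ C := h.hC ▸ subset_union_right
  have hL₁C : L₁ ⊆ C' := h.hC' ▸ subset_union_left
  have hL₂C : L₂ ⊆ C' := h.hC' ▸ subset_union_right
  have hC'D' : C' ⊆ D' := hD'.jdisc.bdry_subset
  have hCD' : ∀ x ∈ C, x ∉ D' := fun x hx hx' => hD.jdisc.interior_disj (hDint hx') hx
  have hP₁b : S₁ ∪ (β ∪ L₁ ∪ γ) ⊆ P₁ := h.hP₁.jdisc.bdry_subset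
  have hP₂b : S₂ ∪ (β ∪ L₂ ∪ γ) ⊆ P₂ := h.hP₂.jdisc.bdry_subset
  have hβD : β ⊆ D := fun x hx => hP₁D (hP₁b (Or.inr (Or.inl (Or.inl hx))))
  have hγD : γ ⊆ D := fun x hx => hP₁D (hP₁b (Or.inr (Or.inr hx)))
  have himg : ∀ S T : Set (ℝ × ℝ), S ⊆ D → T ⊆ D → g '' S ∩ g '' T = g '' (S ∩ T) :=
    fun S T hS hT => (hginj.image_inter hS hT).symm
  -- arcs
  have arc : ∀ {A : Set (ℝ × ℝ)} {a b : ℝ × ℝ}, IsArc A a b → A ⊆ D → IsArc (g '' A) (g a) (g b) :=
    fun hA hAD => hA.image κ.symm hAD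
  have hβL₁γ : IsArc (β ∪ L₁ ∪ γ) p q := by
    refine (h.hβ.trans h.hL₁ ?_).trans h.hγ.symm ?_
    · exact fun x hx => h.hβD' ⟨hx.1, hC'D' (hL₁C hx.2)⟩
    · rintro x ⟨hx | hx, hxγ⟩
      · exact absurd hxγ (disjoint_left.1 h.hβγ hx)
      · exact h.hγD' ⟨hxγ, hC'D' (hL₁C hx)⟩
  have hβS₂γ : IsArc (β ∪ S₂ ∪ γ) p' q' := by
    refine (h.hβ.symm.trans h.hS₂ ?_).trans h.hγ ?_
    · exact fun x hx => h.hβC ⟨hx.1, hS₂C hx.2⟩
    · rintro x ⟨hx | hx, hxγ⟩
      · exact absurd hxγ (disjoint_left.1 h.hβγ hx)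
      · exact h.hγC ⟨hxγ, hS₂C hx⟩
  have hβL₁γD : β ∪ L₁ ∪ γ ⊆ D := fun x hx => hP₁D (hP₁b (Or.inr hx))
  have hβS₂γD : β ∪ S₂ ∪ γ ⊆ D := union_subset (union_subset hβD hS₂D) hγD
  have hL₁D : L₁ ⊆ D := fun x hx => hD'D (hC'D' (hL₁C hx))
  have hL₂D : L₂ ⊆ D := fun x hx => hD'D (hC'D' (hL₂C hx))
  -- `Y ∩ g(P₁)`, `Y ∩ g(P₂)`
  have hPC : ∀ P P' S S' : Set (ℝ × ℝ), S' ⊆ P' → S ⊆ P → P ∩ P' = β ∪ γ → C = S ∪ S' →
      (∀ x, x ∈ β → x = p → x ∈ S) → (∀ x, x ∈ γ → x = q → x ∈ S) → C ∩ P = S := by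
    intro P P' S S' h1 h2 h3 h4 h5 h6
    apply Subset.antisymm
    · rintro x ⟨hxC, hxP⟩
      have hxC' := hxC
      rw [h4] at hxC
      rcases hxC with hx | hx
      · exact hx
      · have : x ∈ β ∪ γ := h3 ▸ ⟨hxP, h1 hx⟩
        rcases this with hx' | hx'
        · exact h5 x hx' (h.hβC ⟨hx', hxC'⟩)
        · exact h6 x hx' (h.hγC ⟨hx', hxC'⟩)
    · intro x hx
      exact ⟨h4 ▸ Or.inl hx, h2 hx⟩
  have hCP₁ : C ∩ P₁ = S₁ := hPC P₁ P₂ S₁ S₂ (fun x hx => hP₂b (Or.inl hx))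
    (fun x hx => hP₁b (Or.inl hx)) h.hP h.hC (fun x _ hx => hx ▸ h.hS₁.left_mem)
    (fun x _ hx => hx ▸ h.hS₁.right_mem)
  have hCP₂ : C ∩ P₂ = S₂ := hPC P₂ P₁ S₂ S₁ (fun x hx => hP₁b (Or.inl hx))
    (fun x hx => hP₂b (Or.inl hx)) (by rw [inter_comm]; exact h.hP)
    (by rw [union_comm]; exact h.hC) (fun x _ hx => hx ▸ h.hS₂.left_mem)
    (fun x _ hx => hx ▸ h.hS₂.right_mem)
  have hYg : ∀ P : Set (ℝ × ℝ), P ⊆ D → Y ∩ g '' P = g '' (C ∩ P) := by
    intro P hP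
    have h1 : g '' P ⊆ X := by rw [← hgD]; exact image_mono hP
    rw [← himg C P hCD hP, hB, ← hXY]
    ext x
    constructor
    · rintro ⟨hx, hx'⟩; exact ⟨⟨h1 hx', hx⟩, hx'⟩
    · rintro ⟨⟨_, hx⟩, hx'⟩; exact ⟨hx, hx'⟩
  -- first gluing
  have hBe : B = g '' S₁ ∪ g '' S₂ := by rw [← hB, h.hC, image_union]
  have b1 : ConBall 2 (g '' P₁) (g '' S₁ ∪ g '' (β ∪ L₁ ∪ γ)) := by
    rw [← image_union]; exact h.hP₁.conBall.image κ.symm hP₁D
  have b2 : ConBall 2 (g '' P₂) (g '' (β ∪ S₂ ∪ γ) ∪ g '' L₂) := by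
    rw [← image_union]
    have : β ∪ S₂ ∪ γ ∪ L₂ = S₂ ∪ (β ∪ L₂ ∪ γ) := by
      ext x; simp only [mem_union]; tauto
    rw [this]
    exact h.hP₂.conBall.image κ.symm hP₂D
  have g1 := glue2 (hBe ▸ hY) b1 (arc h.hS₁ hS₁D) (arc h.hS₂ hS₂D) (arc hβL₁γ hβL₁γD)
    (by
      rw [himg _ _ hS₁D hS₂D, ← image_pair]
      exact image_mono h.hS)
    (by
      rw [himg _ _ hS₁D hβL₁γD, ← image_pair]
      apply image_mono
      rintro x ⟨hx, (hx' | hx') | hx'⟩
      · exact Or.inl (h.hβC ⟨hx', hS₁C hx⟩)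
      · exact absurd (hC'D' (hL₁C hx')) (hCD' x (hS₁C hx))
      · exact Or.inr (h.hγC ⟨hx', hS₁C hx⟩))
    (by rw [hYg P₁ hP₁D, hCP₁])
  -- second gluing
  have g1' : ConBall 2 (Y ∪ g '' P₁) (g '' (β ∪ S₂ ∪ γ) ∪ g '' L₁) := by
    have : g '' (β ∪ S₂ ∪ γ) ∪ g '' L₁ = g '' S₂ ∪ g '' (β ∪ L₁ ∪ γ) := by
      rw [← image_union, ← image_union]
      congr 1
      ext x; simp only [mem_union]; tauto
    rw [this]; exact g1
  have g2 := glue2 g1' b2 (arc hβS₂γ hβS₂γD) (arc h.hL₁ hL₁D) (arc h.hL₂ hL₂D)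
    (by
      rw [himg _ _ hβS₂γD hL₁D, ← image_pair]
      apply image_mono
      rintro x ⟨(hx' | hx') | hx', hx⟩
      · exact Or.inl (h.hβD' ⟨hx', hC'D' (hL₁C hx)⟩)
      · exact absurd (hC'D' (hL₁C hx)) (hCD' x (hS₂C hx'))
      · exact Or.inr (h.hγD' ⟨hx', hC'D' (hL₁C hx)⟩))
    (by
      rw [himg _ _ hβS₂γD hL₂D, ← image_pair]
      apply image_mono
      rintro x ⟨(hx' | hx') | hx', hx⟩
      · exact Or.inl (h.hβD' ⟨hx', hC'D' (hL₂C hx)⟩)
      · exact absurd (hC'D' (hL₂C hx)) (hCD' x (hS₂C hx'))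
      · exact Or.inr (h.hγD' ⟨hx', hC'D' (hL₂C hx)⟩))
    (by
      rw [union_inter_distrib_right, hYg P₂ hP₂D, hCP₂, himg _ _ hP₁D hP₂D, h.hP, ← image_union]
      congr 1
      ext x; simp only [mem_union]; tauto)
  have hbd : g '' L₁ ∪ g '' L₂ = g '' C' := by rw [h.hC', image_union]
  rw [hbd] at g2
  have hset : Y ∪ g '' P₁ ∪ g '' P₂ = (X ∪ Y) \ g '' interior D' := by
    ext x
    constructor
    · rintro ((hx | ⟨y, hy, rfl⟩) | ⟨y, hy, rfl⟩)
      · refine ⟨Or.inr hx, ?_⟩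
        rintro ⟨y, hy, rfl⟩
        have hyD' := interior_subset hy
        have hyX : g y ∈ X := hgD ▸ mem_image_of_mem g (hD'D hyD')
        have : g y ∈ B := hXY ▸ ⟨hyX, hx⟩
        rw [← hB] at this
        obtain ⟨z, hz, hzy⟩ := this
        have : z = y := hginj (hCD hz) (hD'D hyD') hzy
        exact hCD' z hz (this ▸ hyD')
      · refine ⟨Or.inl (hgD ▸ mem_image_of_mem g (hP₁D hy)), ?_⟩
        rintro ⟨z, hz, hzy⟩
        have : z = y := hginj (hD'D (interior_subset hz)) (hP₁D hy) hzy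
        subst this
        have hzL : z ∈ L₁ := h.hP₁D' ▸ ⟨hy, interior_subset hz⟩
        exact hD'.jdisc.interior_disj hz (hL₁C hzL)
      · refine ⟨Or.inl (hgD ▸ mem_image_of_mem g (hP₂D hy)), ?_⟩
        rintro ⟨z, hz, hzy⟩
        have : z = y := hginj (hD'D (interior_subset hz)) (hP₂D hy) hzy
        subst this
        have hzL : z ∈ L₂ := h.hP₂D' ▸ ⟨hy, interior_subset hz⟩
        exact hD'.jdisc.interior_disj hz (hL₂C hzL)
    · rintro ⟨hx | hx, hx'⟩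
      · rw [← hgD] at hx
        obtain ⟨y, hy, rfl⟩ := hx
        rw [h.hD] at hy
        rcases hy with hy | hy | hy
        · have hyC : y ∈ C' := by
            by_contra hc
            exact hx' ⟨y, hD'.jdisc.mem_interior hy hc, rfl⟩
          rw [h.hC'] at hyC
          rcases hyC with hy' | hy'
          · exact Or.inl (Or.inr ⟨y, hP₁b (Or.inr (Or.inl (Or.inr hy'))), rfl⟩)
          · exact Or.inr ⟨y, hP₂b (Or.inr (Or.inl (Or.inr hy'))), rfl⟩
        · exact Or.inl (Or.inr ⟨y, hy, rfl⟩)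
        · exact Or.inr ⟨y, hy, rfl⟩
      · exact Or.inl (Or.inl hx)
  rwa [hset] at g2

/-- circles in the open chart have two complementary discs -/
theorem exists_sides {X Y B : Set E} {D C : Set (ℝ × ℝ)} (κ : ConHomeo X D)
    (hD : AmbDisc D C) (hY : ConBall 2 Y B) (hXY : X ∩ Y = B) (hB : κ.invFun '' C = B)
    {γ : Set E} (hγ : IsCircle γ) (hγX : γ ⊆ X) (hγY : Disjoint γ Y) :
    ∃ U V : Set E, Disjoint U V ∧ U ∪ V = (X ∪ Y) \ γ ∧ U.Nonempty ∧ V.Nonempty ∧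
      ConBall 2 (U ∪ γ) γ ∧ ConBall 2 (V ∪ γ) γ ∧ U ⊆ X \ Y ∧ Y ⊆ V := by
  have hcirc : IsCircle (κ.toFun '' γ) := IsCircle.image hγ κ hγX
  obtain ⟨D', hD'⟩ := sch _ hcirc
  set C' := κ.toFun '' γ with hC'
  have hgC' : κ.invFun '' C' = γ := by
    rw [hC', image_image]
    have : ∀ x ∈ γ, κ.invFun (κ.toFun x) = x := fun x hx => κ.left_inv (hγX hx)
    rw [image_congr this, image_id']
  have hsub : C' ⊆ interior D := by
    rintro _ ⟨x, hx, rfl⟩
    apply hD.jdisc.mem_interior (κ.mapsTo (hγX hx))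
    intro hxC
    have hxB : x ∈ B := by
      rw [← hB]
      exact ⟨_, hxC, κ.left_inv (hγX hx)⟩
    exact disjoint_left.1 hγY hx (hXY ▸ hxB).2
  have hDint : D' ⊆ interior D := hD.jdisc.subset_interior_of_bdry hD'.jdisc hsub
  have hD'D : D' ⊆ D := hDint.trans interior_subset
  have hcompl := conBall_complement κ hD hY hXY hB hD' hsub
  rw [hgC'] at hcompl
  have hginj : InjOn κ.invFun D := κ.symm.injOn
  have hgD : κ.invFun '' D = X := κ.symm.image_eq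
  have hUX : κ.invFun '' interior D' ⊆ X :=
    (image_mono (interior_subset.trans hD'D)).trans hgD.subset
  have hUγ : Disjoint (κ.invFun '' interior D') γ := by
    rw [disjoint_left]
    rintro _ ⟨y, hy, rfl⟩ hyγ
    rw [← hgC'] at hyγ
    obtain ⟨z, hz, hzy⟩ := hyγ
    have : z = y := hginj (hD'D (hD'.jdisc.bdry_subset hz)) (hD'D (interior_subset hy)) hzy
    exact hD'.jdisc.interior_disj hy (this ▸ hz)
  have hUY : Disjoint (κ.invFun '' interior D') Y := by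
    rw [disjoint_left]
    rintro _ ⟨y, hy, rfl⟩ hyY
    have h1 : κ.invFun y ∈ B := hXY ▸ ⟨hUX ⟨y, hy, rfl⟩, hyY⟩
    rw [← hB] at h1
    obtain ⟨z, hz, hzy⟩ := h1
    have : z = y := hginj (hD.jdisc.bdry_subset hz) (hD'D (interior_subset hy)) hzy
    exact hD.jdisc.interior_disj (hDint (interior_subset hy)) (this ▸ hz)
  have hUu : κ.invFun '' interior D' ∪ γ = κ.invFun '' D' := by
    rw [← hgC', ← image_union]
    congr 1
    apply Subset.antisymm
    · exact union_subset interior_subset hD'.jdisc.bdry_subset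
    · intro x hx
      by_cases hxC : x ∈ C'
      · exact Or.inr hxC
      · exact Or.inl (hD'.jdisc.mem_interior hx hxC)
  have hγsub : γ ⊆ (X ∪ Y) \ κ.invFun '' interior D' := fun x hx =>
    ⟨Or.inl (hγX hx), fun hx' => disjoint_left.1 hUγ hx' hx⟩
  have hVu : ((X ∪ Y) \ (κ.invFun '' interior D' ∪ γ)) ∪ γ =
      (X ∪ Y) \ κ.invFun '' interior D' := by
    ext x
    constructor
    · rintro (⟨hx, hx'⟩ | hx)
      · exact ⟨hx, fun h => hx' (Or.inl h)⟩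
      · exact hγsub hx
    · rintro ⟨hx, hx'⟩
      by_cases hxγ : x ∈ γ
      · exact Or.inr hxγ
      · left
        refine ⟨hx, ?_⟩
        rintro (h | h)
        · exact hx' h
        · exact hxγ h
  have hYV : Y ⊆ (X ∪ Y) \ (κ.invFun '' interior D' ∪ γ) := by
    intro x hx
    refine ⟨Or.inr hx, ?_⟩
    rintro (h | h)
    · exact disjoint_left.1 hUY h hx
    · exact disjoint_left.1 hγY h hx
  have hYne : Y.Nonempty := by
    obtain ⟨_, φ, _⟩ := hY
    rw [← φ.symm.image_eq]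
    exact (nonempty_closedBall.2 zero_le_one).image _
  refine ⟨κ.invFun '' interior D', (X ∪ Y) \ (κ.invFun '' interior D' ∪ γ), ?_, ?_, ?_,
    hYne.mono hYV, ?_, ?_, ?_, hYV⟩
  · rw [disjoint_left]
    exact fun x hx hx' => hx'.2 (Or.inl hx)
  · ext x
    constructor
    · rintro (hx | hx)
      · exact ⟨Or.inl (hUX hx), fun h => disjoint_left.1 hUγ hx h⟩
      · exact ⟨hx.1, fun h => hx.2 (Or.inr h)⟩
    · rintro ⟨hx, hx'⟩
      by_cases hxU : x ∈ κ.invFun '' interior D'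
      · exact Or.inl hxU
      · right
        refine ⟨hx, ?_⟩
        rintro (h | h)
        · exact hxU h
        · exact hx' h
  · exact hD'.jdisc.int_ne.image _
  · rw [hUu]
    have := hD'.conBall.image κ.symm hD'D
    rw [ConHomeo.symm_toFun, hgC'] at this
    exact this
  · rw [hVu]; exact hcompl
  · intro x hx
    exact ⟨hUX hx, fun h => disjoint_left.1 hUY hx h⟩

end P073.H339
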