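import Vale.Agent.P073.H339.Notch
import Vale.Agent.P073.TM489.B1

/-!
# P073, block TM-D (helper339): the discs `Δ` of the target model
-/

set_option linter.unusedSectionVars false

open Set Metric Topology Filter

namespace P073.PA691

open P073 PR720 H339
open Vale.Agent.P073.St (V IsInv)

theorem fin3_aux : ∀ n d k k' : Fin 3, d ≠ n → k ≠ n → k ≠ d → k' ≠ n → k' ≠ d → k' = k := by
  decide

theorem finite_of_LF {ι : Type*} {A : ι → Set V} {W C : Set V} (h : LF A W) (hC : IsCompact C)
    (hCW : C ⊆ W) : {i | (A i ∩ C).Nonempty}.Finite := by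
  refine hC.induction_on (p := fun C => {i | (A i ∩ C).Nonempty}.Finite) ?_ ?_ ?_ ?_
  · simp
  · intro S T hST hT
    exact hT.subset fun i hi => hi.mono (inter_subset_inter_right _ hST)
  · intro S T hS hT
    refine (hS.union hT).subset fun i hi => ?_
    obtain ⟨x, hx, hx' | hx'⟩ := hi
    · exact Or.inl ⟨x, hx, hx'⟩
    · exact Or.inr ⟨x, hx, hx'⟩
  · intro z hz
    obtain ⟨U, hU, hfin⟩ := h z (hCW hz)
    exact ⟨U, mem_nhdsWithin_of_mem_nhds hU, hfin⟩

namespace BoxCx

variable {Λ : Set V} {v : V} {K : BoxCx Λ v}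

/-! ### Squares -/

theorem slo_le_shi (t : K.S) (k : Fin 3) : K.slo t k ≤ K.shi t k := by
  by_cases hk : k = K.nrm t
  · rw [hk]; exact (K.s_flat t).le
  · exact (K.s_lt t k hk).le

theorem slo_eq (t : K.S) (k : Fin 3) :
    K.lo (K.sm t) k ≤ K.slo t k ∧ K.lo (K.sp t) k ≤ K.slo t k ∧
      (K.slo t k = K.lo (K.sm t) k ∨ K.slo t k = K.lo (K.sp t) k) := by
  have h := K.s_eq t
  have hs : K.slo t ∈ Icc (K.slo t) (K.shi t) := ⟨le_refl _, slo_le_shi t⟩
  rw [h] at hs
  refine ⟨hs.1.1 k, hs.2.1 k, ?_⟩
  have h1 : (K.lo (K.sm t) ⊔ K.lo (K.sp t)) ∈ Icc (K.slo t) (K.shi t) := by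
    rw [h, Icc_inter_Icc]
    exact ⟨le_refl _, sup_le (hs.1.1.trans (le_inf hs.1.2 hs.2.2))
      (hs.2.1.trans (le_inf hs.1.2 hs.2.2))⟩
  have h2 := h1.1 k
  rw [Pi.sup_apply] at h2
  rcases le_total (K.lo (K.sm t) k) (K.lo (K.sp t) k) with h3 | h3
  · rw [sup_eq_right.2 h3] at h2
    exact Or.inr (le_antisymm h2 (hs.2.1 k))
  · rw [sup_eq_left.2 h3] at h2
    exact Or.inl (le_antisymm h2 (hs.1.1 k))

theorem shi_eq (t : K.S) (k : Fin 3) :
    K.shi t k ≤ K.hi (K.sm t) k ∧ K.shi t k ≤ K.hi (K.sp t) k ∧
      (K.shi t k = K.hi (K.sm t) k ∨ K.shi t k = K.hi (K.sp t) k) := by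
  have h := K.s_eq t
  have hs : K.shi t ∈ Icc (K.slo t) (K.shi t) := ⟨slo_le_shi t, le_refl _⟩
  rw [h] at hs
  refine ⟨hs.1.2 k, hs.2.2 k, ?_⟩
  have h1 : (K.hi (K.sm t) ⊓ K.hi (K.sp t)) ∈ Icc (K.slo t) (K.shi t) := by
    rw [h, Icc_inter_Icc]
    exact ⟨le_inf ((sup_le hs.1.1 hs.2.1).trans hs.1.2) ((sup_le hs.1.1 hs.2.1).trans hs.2.2),
      le_refl _⟩
  have h2 := h1.2 k
  rw [Pi.inf_apply] at h2
  rcases le_total (K.hi (K.sm t) k) (K.hi (K.sp t) k) with h3 | h3
  · rw [inf_eq_left.2 h3] at h2
    exact Or.inl (le_antisymm (hs.1.2 k) h2)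
  · rw [inf_eq_right.2 h3] at h2
    exact Or.inr (le_antisymm (hs.2.2 k) h2)

theorem sq_sub_cube (t : K.S) : K.sq t ⊆ K.cube (K.sm t) ∧ K.sq t ⊆ K.cube (K.sp t) := by
  have h := K.s_eq t
  constructor
  · intro x hx
    have : x ∈ Icc (K.slo t) (K.shi t) := hx
    rw [h] at this; exact this.1
  · intro x hx
    have : x ∈ Icc (K.slo t) (K.shi t) := hx
    rw [h] at this; exact this.2

/-- a vertex in a square is in its boundary -/
theorem vertex_bd {t : K.S} {i : K.W} (h : K.w i ∈ K.sq t) :
    ∃ k, k ≠ K.nrm t ∧ (K.w i k = K.slo t k ∨ K.w i k = K.shi t k) := by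
  by_contra hcon
  push Not at hcon
  obtain ⟨e, he⟩ := K.w_edge i
  have h1 : K.w i (K.nrm t) = K.slo t (K.nrm t) :=
    le_antisymm ((h.2 _).trans (K.s_flat t).ge) (h.1 _)
  refine K.sqo_edge t (K.w i) h1 (fun k hk => ⟨lt_of_le_of_ne (h.1 k) (Ne.symm (hcon k hk).1),
    lt_of_le_of_ne (h.2 k) (hcon k hk).2⟩) e ?_
  have h2 : K.w (K.a e) ≤ K.w (K.b e) := fun k => ab_le e k
  rcases he with rfl | rfl
  · exact ⟨le_refl _, h2⟩
  · exact ⟨h2, le_refl _⟩

/-- an edge in a square: direction and position -/
theorem edge_pos {t : K.S} {e : K.G} (h : K.edge e ⊆ K.sq t) :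
    K.dir e ≠ K.nrm t ∧ ∀ k, k ≠ K.nrm t → k ≠ K.dir e →
      (K.w (K.a e) k = K.slo t k ∨ K.w (K.a e) k = K.shi t k) := by
  have hab : K.w (K.a e) ≤ K.w (K.b e) := fun k => ab_le e k
  have ha : K.w (K.a e) ∈ K.sq t := h ⟨le_refl _, hab⟩
  have hb : K.w (K.b e) ∈ K.sq t := h ⟨hab, le_refl _⟩
  have hdir := K.ab_dir e
  have hne : K.dir e ≠ K.nrm t := by
    intro hne
    have h1 := ha.1 (K.dir e)
    have h2 := hb.2 (K.dir e)
    have h3 := K.s_flat t
    rw [← hne] at h3
    linarith
  refine ⟨hne, fun k hk hkd => ?_⟩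
  by_contra hcon
  push Not at hcon
  -- the midpoint
  set x : V := fun k => (K.w (K.a e) k + K.w (K.b e) k) / 2 with hx
  have hxe : x ∈ Icc (K.w (K.a e)) (K.w (K.b e)) := by
    constructor <;> intro k' <;> rw [hx] <;> have := hab k' <;> dsimp only <;> linarith
  have hxs := h hxe
  refine K.sqo_edge t x (le_antisymm ((hxs.2 _).trans (K.s_flat t).ge) (hxs.1 _)) ?_ e hxe
  intro k' hk'
  by_cases hd : k' = K.dir e
  · subst hd
    have h1 := ha.1 (K.dir e)
    have h2 := hb.2 (K.dir e)
    constructor <;> rw [hx] <;> dsimp only <;> linarith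
  · have hkk : k' = k := fin3_aux _ _ _ _ hne hk hkd hk' hd
    subst hkk
    have h1 := K.ab_off e k' hd
    have h2 := ha.1 k'
    have h3 := ha.2 k'
    have h4 : x k' = K.w (K.a e) k' := by rw [hx]; dsimp only; rw [← h1]; ring
    rw [h4]
    exact ⟨lt_of_le_of_ne h2 (Ne.symm hcon.1), lt_of_le_of_ne h3 hcon.2⟩

namespace Sizes

variable (s : K.Sizes)

/-- distance of a vertex from the sides of a square not containing it -/
theorem vertex_gap {t : K.S} {i : K.W} (h : K.w i ∈ K.sq t) (k : Fin 3) :
    (K.w i k ≠ K.slo t k → K.slo t k < K.w i k - 2 * s.r i) ∧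
      (K.w i k ≠ K.shi t k → K.w i k + 2 * s.r i < K.shi t k) := by
  obtain ⟨c1, c2⟩ := sq_sub_cube t
  have hr := s.r_pos i
  have hmem : K.w i ∈ closedBall (K.w i) (2 * s.r i) := mem_closedBall_self (by linarith)
  obtain ⟨-, t1⟩ := s.U_tile i _ _ hmem (c1 h)
  obtain ⟨-, t2⟩ := s.U_tile i _ _ hmem (c2 h)
  obtain ⟨a1, a2, a3⟩ := slo_eq t k
  obtain ⟨b1, b2, b3⟩ := shi_eq t k
  constructor
  · intro hne
    have hlt : K.slo t k < K.w i k := lt_of_le_of_ne (h.1 k) (Ne.symm hne)
    rcases a3 with a3 | a3
    · rw [a3]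
      exact (t1 k).1 (by linarith [a1.trans_lt hlt] : K.lo (K.sm t) k < K.w i k).ne'
    · rw [a3]
      exact (t2 k).1 (by linarith [a2.trans_lt hlt] : K.lo (K.sp t) k < K.w i k).ne'
  · intro hne
    have hlt : K.w i k < K.shi t k := lt_of_le_of_ne (h.2 k) hne
    rcases b3 with b3 | b3
    · rw [b3]
      exact (t1 k).2 (by linarith [hlt.trans_le b1] : K.w i k < K.hi (K.sm t) k).ne
    · rw [b3]
      exact (t2 k).2 (by linarith [hlt.trans_le b2] : K.w i k < K.hi (K.sp t) k).ne

end Sizes

/-! ### Coordinates in the plane of a square -/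

/-- lower corner -/
def pA (t : K.S) : P2 := fun j => K.slo t ((K.nrm t).succAbove j)

/-- upper corner -/
def pB (t : K.S) : P2 := fun j => K.shi t ((K.nrm t).succAbove j)

/-- position of a vertex -/
def pw (t : K.S) (i : K.W) : P2 := fun j => K.w i ((K.nrm t).succAbove j)

/-- the plane of the square -/
def pl (t : K.S) (u : P2) : V :=
  Fin.insertNth (α := fun _ => ℝ) (K.nrm t) (K.slo t (K.nrm t)) u

theorem pl_nrm (t : K.S) (u : P2) : pl t u (K.nrm t) = K.slo t (K.nrm t) :=
  Fin.insertNth_apply_same _ _ _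

theorem pl_succ (t : K.S) (u : P2) (j : Fin 2) : pl t u ((K.nrm t).succAbove j) = u j :=
  Fin.insertNth_apply_succAbove _ _ _ _

theorem forall_pl (t : K.S) {P : Fin 3 → Prop} :
    (∀ k, P k) ↔ P (K.nrm t) ∧ ∀ j, P ((K.nrm t).succAbove j) := by
  constructor
  · exact fun h => ⟨h _, fun j => h _⟩
  · rintro ⟨h1, h2⟩ k
    rcases Fin.eq_self_or_eq_succAbove (K.nrm t) k with rfl | ⟨j, rfl⟩
    · exact h1
    · exact h2 j

theorem pA_lt_pB (t : K.S) (j : Fin 2) : pA t j < pB t j := K.s_lt t _ (Fin.succAbove_ne _ _)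

theorem mem_sq_pl {t : K.S} {u : P2} : pl t u ∈ K.sq t ↔ u ∈ Icc (pA t) (pB t) := by
  rw [sq, mem_Icc_iff, forall_pl t, pl_nrm]
  simp only [pl_succ]
  constructor
  · rintro ⟨-, h⟩; exact ⟨fun j => (h j).1, fun j => (h j).2⟩
  · intro h
    exact ⟨⟨le_refl _, (K.s_flat t).le⟩, fun j => ⟨h.1 j, h.2 j⟩⟩

theorem w_nrm {t : K.S} {i : K.W} (h : K.w i ∈ K.sq t) : K.w i (K.nrm t) = K.slo t (K.nrm t) :=
  le_antisymm ((h.2 _).trans (K.s_flat t).ge) (h.1 _)

theorem continuous_pl (t : K.S) : Continuous (pl t) := by
  refine continuous_pi fun k => ?_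
  rcases Fin.eq_self_or_eq_succAbove (K.nrm t) k with rfl | ⟨j, rfl⟩
  · simp only [pl_nrm]; exact continuous_const
  · simp only [pl_succ]; exact continuous_apply j

namespace Sizes

variable (s : K.Sizes) (c : ℝ)

/-- trace of the open cube around a vertex -/
def vbox (t : K.S) (i : K.W) : Set P2 :=
  {u | ∀ j, pw t i j - c * s.r i < u j ∧ u j < pw t i j + c * s.r i}

/-- trace of the open beam around an edge -/
def ebox (t : K.S) (e : K.G) : Set P2 :=
  {u | ∀ j, pw t (K.a e) j - c * s.q e < u j ∧ u j < pw t (K.b e) j + c * s.q e}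

variable {c} (hc : c ∈ Ioo (1/2:ℝ) 1)
include hc

theorem mem_vbox {t : K.S} {i : K.W} (hi : K.w i ∈ K.sq t) {u : P2} :
    pl t u ∈ ball (K.w i) (c * s.r i) ↔ u ∈ s.vbox c t i := by
  rw [s.mem_boxo hc, forall_pl t, pl_nrm, w_nrm hi, sub_self, abs_zero]
  simp only [pl_succ]
  constructor
  · rintro ⟨-, h⟩ j
    have := abs_lt.1 (h j)
    constructor <;> simp only [pw] <;> linarith
  · intro h
    refine ⟨s.cr_pos hc i, fun j => ?_⟩
    have := h j
    simp only [pw] at this
    rw [abs_lt]; constructor <;> linarith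

theorem mem_ebox {t : K.S} {e : K.G} (he : K.edge e ⊆ K.sq t) {u : P2} :
    pl t u ∈ K.nbo e (c * s.q e) ↔ u ∈ s.ebox c t e := by
  have hab : K.w (K.a e) ≤ K.w (K.b e) := fun k => ab_le e k
  have ha := w_nrm (he ⟨le_refl _, hab⟩)
  have hb := w_nrm (he ⟨hab, le_refl _⟩)
  have hq := s.cq_pos hc e
  rw [nbo, mem_ofPred_eq, forall_pl t, pl_nrm, ha, hb]
  simp only [pl_succ]
  constructor
  · rintro ⟨-, h⟩ j; exact h j
  · intro h
    exact ⟨⟨by linarith, by linarith⟩, h⟩

theorem mem_cb {t : K.S} {i : K.W} (hi : K.w i ∈ K.sq t) {u : P2} {R : ℝ} (hR : 0 ≤ R) :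
    pl t u ∈ closedBall (K.w i) R ↔ ∀ j, |u j - pw t i j| ≤ R := by
  rw [mem_cball hR, forall_pl t, pl_nrm, w_nrm hi, sub_self, abs_zero]
  simp only [pl_succ]
  exact ⟨fun h => h.2, fun h => ⟨hR, h⟩⟩

/-- **removing the cubes around the vertices** -/
theorem discV (t : K.S) (T : Finset K.W) (hT : ∀ i ∈ T, K.w i ∈ K.sq t) :
    ConBall 2 (Icc (pA t) (pB t) \ ⋃ i ∈ T, s.vbox c t i)
      (frontier (Icc (pA t) (pB t) \ ⋃ i ∈ T, s.vbox c t i)) := by
  classical
  induction T using Finset.induction_on with
  | empty =>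
    simp only [Finset.notMem_empty, iUnion_of_empty, iUnion_empty, Set.sdiff_empty]
    exact conBall_Icc_pi two_ne_zero (pA_lt_pB t)
  | insert i T hiT ih =>
    have ih := ih fun i' hi' => hT i' (Finset.mem_insert_of_mem hi')
    have hi : K.w i ∈ K.sq t := hT i (Finset.mem_insert_self _ _)
    set D := Icc (pA t) (pB t) \ ⋃ i ∈ T, s.vbox c t i with hD
    have e : Icc (pA t) (pB t) \ ⋃ i' ∈ insert i T, s.vbox c t i' = D \ s.vbox c t i := by
      rw [Finset.set_biUnion_insert, union_comm, ← sdiff_sdiff]
    rw [e]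
    have hr := s.r_pos i
    have hcr := s.cr_pos hc i
    have gap : ∀ j, (pw t i j ≠ pA t j → pA t j < pw t i j - 2 * s.r i) ∧
        (pw t i j ≠ pB t j → pw t i j + 2 * s.r i < pB t j) := fun j => s.vertex_gap hi _
    have hAB := pA_lt_pB t
    have hwA : ∀ j, pA t j ≤ pw t i j := fun j => hi.1 _
    have hwB : ∀ j, pw t i j ≤ pB t j := fun j => hi.2 _
    refine notch (δ := (2 - c) * s.r i) ih (α := fun j => pw t i j - c * s.r i)
      (β := fun j => pw t i j + c * s.r i)
      (a := fun j => if pw t i j = pA t j then pA t j else pw t i j - c * s.r i)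
      (b := fun j => if pw t i j = pB t j then pB t j else pw t i j + c * s.r i)
      (l := fun j => decide (pw t i j ≠ pA t j)) (h := fun j => decide (pw t i j ≠ pB t j))
      (mul_pos (by linarith [hc.2]) hr) ?_ ?_ ?_ ?_ ?_
    · intro j
      have := hAB j
      split_ifs with h1 h2 h2
      · exact this
      · rw [h1]; linarith
      · rw [h2]; linarith
      · linarith
    · intro j
      by_cases h1 : pw t i j = pA t j
      · simp only [h1, ne_eq, not_true_eq_false, decide_false, Bool.false_eq_true, if_false, if_true]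
        linarith
      · simp [h1]
    · intro j
      by_cases h1 : pw t i j = pB t j
      · simp only [h1, ne_eq, not_true_eq_false, decide_false, Bool.false_eq_true, if_false, if_true]
        linarith
      · simp [h1]
    · intro τ hτ
      have hτ2 : c * s.r i + τ ≤ 2 * s.r i := by
        have := hτ.2
        nlinarith
      ext u
      constructor
      · rintro ⟨⟨h1, -⟩, h2⟩
        constructor
        · intro j
          have h3 := h2.1 j
          have h4 := h1.1 j
          dsimp only at h3 ⊢
          by_cases h5 : pw t i j = pA t j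
          · simp only [h5, ne_eq, not_true_eq_false, decide_false, Bool.false_eq_true, if_false,
              if_true, sub_zero]
            exact h4
          · simp only [h5, ne_eq, not_false_eq_true, decide_true, if_true, if_false]
            exact h3
        · intro j
          have h3 := h2.2 j
          have h4 := h1.2 j
          dsimp only at h3 ⊢
          by_cases h5 : pw t i j = pB t j
          · simp only [h5, ne_eq, not_true_eq_false, decide_false, Bool.false_eq_true, if_false,
              if_true, add_zero]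
            exact h4
          · simp only [h5, ne_eq, not_false_eq_true, decide_true, if_true, if_false]
            exact h3
      · intro h1
        have hlo : ∀ j, pA t j ≤ u j ∧ pw t i j - (c * s.r i + τ) ≤ u j := by
          intro j
          have h3 := h1.1 j
          dsimp only at h3
          by_cases h5 : pw t i j = pA t j
          · simp only [h5, ne_eq, not_true_eq_false, decide_false, Bool.false_eq_true, if_false,
              if_true, sub_zero] at h3
            exact ⟨h3, by linarith [hτ.1]⟩
          · simp only [h5, ne_eq, not_false_eq_true, decide_true, if_true, if_false] at h3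
            have := (gap j).1 h5
            exact ⟨by linarith, by linarith⟩
        have hhi : ∀ j, u j ≤ pB t j ∧ u j ≤ pw t i j + (c * s.r i + τ) := by
          intro j
          have h3 := h1.2 j
          dsimp only at h3
          by_cases h5 : pw t i j = pB t j
          · simp only [h5, ne_eq, not_true_eq_false, decide_false, Bool.false_eq_true, if_false,
              if_true, add_zero] at h3
            exact ⟨h3, by linarith [hτ.1]⟩
          · simp only [h5, ne_eq, not_false_eq_true, decide_true, if_true, if_false] at h3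
            have := (gap j).2 h5
            exact ⟨by linarith, by linarith⟩
        refine ⟨⟨⟨fun j => (hlo j).1, fun j => (hhi j).1⟩, ?_⟩, fun j => ?_, fun j => ?_⟩
        · intro hu
          obtain ⟨i', hi', hu'⟩ := mem_iUnion₂.1 hu
          have hne : i ≠ i' := fun h => hiT (h ▸ hi')
          have hi's := hT i' (Finset.mem_insert_of_mem hi')
          have m1 : pl t u ∈ closedBall (K.w i') (2 * s.r i') := by
            refine s.box_sub hc i' (ball_subset_closedBall ?_)
            exact (s.mem_vbox hc hi's).2 hu'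
          have m2 : pl t u ∈ closedBall (K.w i) (2 * s.r i) := by
            rw [mem_cb hc hi (by linarith)]
            intro j
            rw [abs_le]
            have := (hlo j).2
            have := (hhi j).2
            constructor <;> linarith
          exact Set.disjoint_left.1 (s.U_disj i i' hne) m2 m1
        · have := (hlo j).2
          dsimp only; linarith
        · have := (hhi j).2
          dsimp only; linarith
    · obtain ⟨k, hk, hk'⟩ := vertex_bd hi
      obtain ⟨j, rfl⟩ := Fin.exists_succAbove_eq hk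
      refine ⟨j, ?_⟩
      rcases hk' with h1 | h1
      · have h2 : pw t i j = pA t j := h1
        have h3 : pw t i j ≠ pB t j := by rw [h2]; exact (hAB j).ne
        simp [h2, (hAB j).ne]
      · have h2 : pw t i j = pB t j := h1
        have h3 : pw t i j ≠ pA t j := by rw [h2]; exact (hAB j).ne'
        simp [h2, (hAB j).ne']

omit hc in
theorem edge_len339 (e : K.G) :
    K.w (K.a e) (K.dir e) + 2 * s.r (K.a e) + 2 * s.r (K.b e) < K.w (K.b e) (K.dir e) := by
  by_contra hcon
  push Not at hcon
  have ha := s.r_pos (K.a e)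
  have hb := s.r_pos (K.b e)
  have hdir := K.ab_dir e
  set L := K.w (K.b e) (K.dir e) - K.w (K.a e) (K.dir e) with hL
  set m := min (2 * s.r (K.a e)) L with hm
  have hm1 : m ≤ 2 * s.r (K.a e) := min_le_left _ _
  have hm2 : m ≤ L := min_le_right _ _
  have hm0 : 0 < m := lt_min (by linarith) (by rw [hL]; linarith)
  have hm3 : L - m ≤ 2 * s.r (K.b e) := by
    rcases min_choice (2 * s.r (K.a e)) L with h | h
    · rw [← hm] at h; rw [h, hL]; linarith
    · rw [← hm] at h; rw [h]; linarith
  have hd := Set.disjoint_left.1 (s.U_disj (K.a e) (K.b e) (a_ne_b e))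
  refine @hd (Function.update (K.w (K.a e)) (K.dir e) (K.w (K.a e) (K.dir e) + m)) ?_ ?_
  · rw [mem_cball (by linarith)]
    intro k
    by_cases hk : k = K.dir e
    · subst hk
      rw [Function.update_self, add_sub_cancel_left, abs_of_pos hm0]
      exact hm1
    · rw [Function.update_of_ne hk, sub_self, abs_zero]; linarith
  · rw [mem_cball (by linarith)]
    intro k
    by_cases hk : k = K.dir e
    · subst hk
      rw [Function.update_self, abs_le]
      constructor
      · rw [hL] at hm3; linarith
      · rw [hL] at hm2; linarith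
    · rw [Function.update_of_ne hk, K.ab_off e k hk, sub_self, abs_zero]; linarith

/-- **removing the beams** -/
theorem discE (t : K.S) (T : Finset K.W) (hT : ∀ i, i ∈ T ↔ K.w i ∈ K.sq t) (T' : Finset K.G)
    (hT' : ∀ e ∈ T', K.edge e ⊆ K.sq t) :
    ConBall 2 ((Icc (pA t) (pB t) \ ⋃ i ∈ T, s.vbox c t i) \ ⋃ e ∈ T', s.ebox c t e)
      (frontier ((Icc (pA t) (pB t) \ ⋃ i ∈ T, s.vbox c t i) \ ⋃ e ∈ T', s.ebox c t e)) := by
  classical
  induction T' using Finset.induction_on with
  | empty =>
    simp only [Finset.notMem_empty, iUnion_of_empty, iUnion_empty, Set.sdiff_empty]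
    exact s.discV hc t T fun i hi => (hT i).1 hi
  | insert e T' heT ih =>
    have ih := ih fun e' he' => hT' e' (Finset.mem_insert_of_mem he')
    have he : K.edge e ⊆ K.sq t := hT' e (Finset.mem_insert_self _ _)
    set D := (Icc (pA t) (pB t) \ ⋃ i ∈ T, s.vbox c t i) \ ⋃ e ∈ T', s.ebox c t e with hD
    have eD : (Icc (pA t) (pB t) \ ⋃ i ∈ T, s.vbox c t i) \ ⋃ e' ∈ insert e T', s.ebox c t e' =
        D \ s.ebox c t e := by
      rw [Finset.set_biUnion_insert, union_comm, ← sdiff_sdiff]
    rw [eD]
    have hab : K.w (K.a e) ≤ K.w (K.b e) := fun k => ab_le e k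
    have ha : K.w (K.a e) ∈ K.sq t := he ⟨le_refl _, hab⟩
    have hb : K.w (K.b e) ∈ K.sq t := he ⟨hab, le_refl _⟩
    obtain ⟨hdn, hpos⟩ := edge_pos he
    obtain ⟨j0, hj0⟩ := Fin.exists_succAbove_eq hdn
    obtain ⟨j1, hj10, hjj⟩ : ∃ j1 : Fin 2, j1 ≠ j0 ∧ ∀ j, j = j0 ∨ j = j1 := by
      clear hj0
      revert j0
      decide
    have hj1d : (K.nrm t).succAbove j1 ≠ K.dir e := by
      rw [← hj0]
      exact fun h => hj10 (Fin.succAbove_right_injective h)
    have hra := s.r_pos (K.a e)
    have hrb := s.r_pos (K.b e)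
    have hq := s.q_pos e
    have hcq := s.cq_pos hc e
    obtain ⟨hqa, hqb⟩ := s.q_le e
    have hcra : 4 * s.q e < c * s.r (K.a e) := by nlinarith [hc.1]
    have hcrb : 4 * s.q e < c * s.r (K.b e) := by nlinarith [hc.1]
    have hcra' := s.cr_lt hc (K.a e)
    have hcrb' := s.cr_lt hc (K.b e)
    have hha := s.half_lt_cr hc (K.a e)
    have hhb := s.half_lt_cr hc (K.b e)
    have hlen := s.edge_len339 e
    -- coordinates
    set x0 := pw t (K.a e) j0 with hx0
    set y0 := pw t (K.b e) j0 with hy0
    set x1 := pw t (K.a e) j1 with hx1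
    have hlen0 : x0 + 2 * s.r (K.a e) + 2 * s.r (K.b e) < y0 := by
      rw [hx0, hy0]
      show K.w (K.a e) ((K.nrm t).succAbove j0) + _ + _ < K.w (K.b e) ((K.nrm t).succAbove j0)
      rw [hj0]; exact hlen
    have hy1 : pw t (K.b e) j1 = x1 := (K.ab_off e _ hj1d).symm
    have hgapa : (x1 ≠ pA t j1 → pA t j1 < x1 - 2 * s.r (K.a e)) ∧
        (x1 ≠ pB t j1 → x1 + 2 * s.r (K.a e) < pB t j1) := s.vertex_gap ha _
    have hAB := pA_lt_pB t
    have hx1AB : x1 = pA t j1 ∨ x1 = pB t j1 := hpos _ (Fin.succAbove_ne _ _) hj1d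
    have hA0 : pA t j0 ≤ x0 := ha.1 _
    have hB0 : y0 ≤ pB t j0 := hb.2 _
    -- the key description
    have key : ∀ τ, 0 ≤ τ → c * s.q e + τ ≤ 2 * s.q e → ∀ u : P2,
        (u ∈ D ∧ (x0 - c * s.q e - τ ≤ u j0 ∧ u j0 ≤ y0 + c * s.q e + τ) ∧
          (x1 - c * s.q e - τ ≤ u j1 ∧ u j1 ≤ x1 + c * s.q e + τ)) ↔
        ((x0 + c * s.r (K.a e) ≤ u j0 ∧ u j0 ≤ y0 - c * s.r (K.b e)) ∧
          (pA t j1 ≤ u j1 ∧ u j1 ≤ pB t j1) ∧
          (x1 - c * s.q e - τ ≤ u j1 ∧ u j1 ≤ x1 + c * s.q e + τ)) := by
      intro τ hτ0 hτ2 u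
      constructor
      · rintro ⟨⟨⟨h1, h2⟩, -⟩, ⟨h3, h4⟩, h5, h6⟩
        refine ⟨⟨?_, ?_⟩, ⟨h1.1 j1, h1.2 j1⟩, h5, h6⟩
        · by_contra hcon
          push Not at hcon
          apply h2
          refine mem_iUnion₂.2 ⟨K.a e, (hT _).2 ha, fun j => ?_⟩
          rcases hjj j with rfl | rfl
          · rw [← hx0]; constructor <;> linarith
          · rw [← hx1]; constructor <;> linarith
        · by_contra hcon
          push Not at hcon
          apply h2
          refine mem_iUnion₂.2 ⟨K.b e, (hT _).2 hb, fun j => ?_⟩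
          rcases hjj j with rfl | rfl
          · rw [← hy0]; constructor <;> linarith
          · rw [hy1]; constructor <;> linarith
      · rintro ⟨⟨h1, h2⟩, ⟨h3, h4⟩, h5, h6⟩
        have hnb : pl t u ∈ K.nb e (2 * s.q e) := by
          rw [nb, mem_ofPred_eq, forall_pl t, pl_nrm, w_nrm ha, w_nrm hb]
          refine ⟨⟨by linarith, by linarith⟩, fun j => ?_⟩
          rw [pl_succ]
          rcases hjj j with rfl | rfl
          · show x0 - _ ≤ _ ∧ _ ≤ y0 + _
            constructor <;> linarith
          · show x1 - _ ≤ _ ∧ _ ≤ pw t (K.b e) j + _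
            rw [hy1]
            constructor <;> linarith
        refine ⟨⟨⟨⟨fun j => ?_, fun j => ?_⟩, ?_⟩, ?_⟩, ⟨by linarith, by linarith⟩, h5, h6⟩
        · rcases hjj j with rfl | rfl
          · linarith
          · exact h3
        · rcases hjj j with rfl | rfl
          · linarith
          · exact h4
        · intro hu
          obtain ⟨i, hi, hu⟩ := mem_iUnion₂.1 hu
          have hi' := (hT i).1 hi
          have m1 : pl t u ∈ closedBall (K.w i) (2 * s.r i) :=
            s.box_sub hc i (ball_subset_closedBall ((s.mem_vbox hc hi').2 hu))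
          rcases s.U_edge i e _ m1 hnb with rfl | rfl
          · have := (hu j0).2
            rw [← hx0] at this; linarith
          · have := (hu j0).1
            rw [← hy0] at this; linarith
        · intro hu
          obtain ⟨e', he', hu⟩ := mem_iUnion₂.1 hu
          have hne : e ≠ e' := fun h => heT (h ▸ he')
          have he's := hT' e' (Finset.mem_insert_of_mem he')
          have m1 : pl t u ∈ K.nb e' (2 * s.q e') :=
            s.beam_sub hc e' (nbo_subset_nb _ _ ((s.mem_ebox hc he's).2 hu))
          obtain ⟨i, hi, -, hiu⟩ := s.tube_disj e e' hne _ hnb m1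
          rw [mem_oball (by linarith [s.r_pos i])] at hiu
          have h7 := hiu ((K.nrm t).succAbove j0)
          rw [pl_succ, abs_lt] at h7
          rcases hi with rfl | rfl
          · have h8 : K.w (K.a e) ((K.nrm t).succAbove j0) = x0 := rfl
            rw [h8] at h7
            linarith
          · have h8 : K.w (K.b e) ((K.nrm t).succAbove j0) = y0 := rfl
            rw [h8] at h7
            linarith
    have hnot1 : ∀ j, j ≠ j0 → j = j1 := fun j hj => (hjj j).resolve_left hj
    refine notch (δ := (2 - c) * s.q e) ih (α := fun j => pw t (K.a e) j - c * s.q e)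
      (β := fun j => pw t (K.b e) j + c * s.q e)
      (a := fun j => if j = j0 then x0 + c * s.r (K.a e) else
        if x1 = pA t j1 then pA t j1 else x1 - c * s.q e)
      (b := fun j => if j = j0 then y0 - c * s.r (K.b e) else
        if x1 = pB t j1 then pB t j1 else x1 + c * s.q e)
      (l := fun j => decide (j ≠ j0 ∧ x1 ≠ pA t j1)) (h := fun j => decide (j ≠ j0 ∧ x1 ≠ pB t j1))
      (mul_pos (by linarith [hc.2]) hq) ?_ ?_ ?_ ?_ ?_
    · intro j
      rcases hjj j with rfl | rfl
      · simp only [if_true]; linarith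
      · have := hAB j
        simp only [hj10, if_false]
        split_ifs with h1 h2 h2
        · exact this
        · rw [h1]; linarith
        · rw [h2]; linarith
        · linarith
    · intro j
      rcases hjj j with rfl | rfl
      · simp only [ne_eq, not_true_eq_false, false_and, decide_false, Bool.false_eq_true, if_false,
          if_true]
        rw [← hx0]; linarith
      · by_cases h1 : x1 = pA t j
        · simp only [h1, ne_eq, not_true_eq_false, and_false, decide_false, Bool.false_eq_true,
            if_false, if_true, hj10]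
          rw [← hx1, h1]; linarith
        · simp only [h1, hj10, ne_eq, not_false_eq_true, and_self, decide_true, if_true, if_false]
          rw [hx1]
    · intro j
      rcases hjj j with rfl | rfl
      · simp only [ne_eq, not_true_eq_false, false_and, decide_false, Bool.false_eq_true, if_false,
          if_true]
        rw [← hy0]; linarith
      · by_cases h1 : x1 = pB t j
        · simp only [h1, ne_eq, not_true_eq_false, and_false, decide_false, Bool.false_eq_true,
            if_false, if_true, hj10]
          rw [hy1, h1]; linarith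
        · simp only [h1, hj10, ne_eq, not_false_eq_true, and_self, decide_true, if_true, if_false]
          rw [hy1]
    · intro τ hτ
      have hτ2 : c * s.q e + τ ≤ 2 * s.q e := by
        have := hτ.2
        nlinarith
      ext u
      have hk := key τ hτ.1 hτ2 u
      have e1 : u ∈ Icc (fun k => pw t (K.a e) k - c * s.q e - τ)
          (fun k => pw t (K.b e) k + c * s.q e + τ) ↔
          (x0 - c * s.q e - τ ≤ u j0 ∧ u j0 ≤ y0 + c * s.q e + τ) ∧
          (x1 - c * s.q e - τ ≤ u j1 ∧ u j1 ≤ x1 + c * s.q e + τ) := by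
        constructor
        · rintro ⟨h1, h2⟩
          have h3 := h2 j1
          simp only [hy1] at h3
          exact ⟨⟨h1 j0, h2 j0⟩, h1 j1, h3⟩
        · rintro ⟨⟨h1, h2⟩, h3, h4⟩
          constructor
          · intro j
            rcases hjj j with rfl | rfl
            · exact h1
            · exact h3
          · intro j
            rcases hjj j with rfl | rfl
            · exact h2
            · simp only [hy1]; exact h4
      rw [mem_inter_iff, e1, hk]
      constructor
      · rintro ⟨⟨h1, h2⟩, ⟨h3, h4⟩, h5, h6⟩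
        constructor
        · intro j
          rcases hjj j with rfl | rfl
          · simpa using h1
          · by_cases h7 : x1 = pA t j
            · simp only [h7, ne_eq, not_true_eq_false, and_false, decide_false, Bool.false_eq_true,
                if_false, if_true, hj10, sub_zero]
              exact h3
            · simp only [h7, hj10, ne_eq, not_false_eq_true, and_self, decide_true, if_true,
                if_false]
              exact h5
        · intro j
          rcases hjj j with rfl | rfl
          · simpa using h2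
          · by_cases h7 : x1 = pB t j
            · simp only [h7, ne_eq, not_true_eq_false, and_false, decide_false, Bool.false_eq_true,
                if_false, if_true, hj10, add_zero]
              exact h4
            · simp only [h7, hj10, ne_eq, not_false_eq_true, and_self, decide_true, if_true,
                if_false]
              exact h6
      · rintro ⟨h1, h2⟩
        have a0 := h1 j0
        have b0 := h2 j0
        have a1 := h1 j1
        have b1 := h2 j1
        simp only [ne_eq, not_true_eq_false, false_and, decide_false, Bool.false_eq_true, if_false,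
          if_true, sub_zero, add_zero] at a0 b0
        simp only [hj10, ne_eq, not_false_eq_true, true_and, if_false] at a1 b1
        refine ⟨⟨a0, b0⟩, ?_⟩
        rcases hx1AB with h7 | h7
        · have h8 : x1 ≠ pB t j1 := by rw [h7]; exact (hAB j1).ne
          have h9 := hgapa.2 h8
          simp only [h7, not_true_eq_false, decide_false, Bool.false_eq_true, if_false, if_true,
            sub_zero] at a1
          simp only [h8, not_false_eq_true, decide_true, if_true, if_false] at b1
          have := hτ.1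
          refine ⟨⟨a1, by linarith⟩, by rw [h7]; linarith, b1⟩
        · have h8 : x1 ≠ pA t j1 := by rw [h7]; exact (hAB j1).ne'
          have h9 := hgapa.1 h8
          simp only [h7, not_true_eq_false, decide_false, Bool.false_eq_true, if_false, if_true,
            add_zero] at b1
          simp only [h8, not_false_eq_true, decide_true, if_true, if_false] at a1
          have := hτ.1
          refine ⟨⟨by linarith, b1⟩, a1, by rw [h7]; linarith⟩
    · refine ⟨j1, ?_⟩
      rcases hx1AB with h7 | h7
      · have h8 : x1 ≠ pB t j1 := by rw [h7]; exact (hAB j1).ne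
        simp [h7, hj10, (hAB j1).ne]
      · have h8 : x1 ≠ pA t j1 := by rw [h7]; exact (hAB j1).ne'
        simp [h7, hj10, (hAB j1).ne']

end Sizes

end BoxCx

end P073.PA691
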