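import Vale.Agent.P073.H339.DeltaTM

/-!
# P073, block TM-D (helper339), part 2: the disc of a square, its frontier, its parametrisation
-/

set_option linter.unusedSectionVars false

open Set Metric Topology Filter

namespace P073.PA691

open P073 PR720 H339
open Vale.Agent.P073.St (V IsInv)

namespace BoxCx

variable {Λ : Set V} {v : V} {K : BoxCx Λ v}

theorem sq_sub (t : K.S) : K.sq t ⊆ Λ := (sq_sub_cube t).1.trans (K.sub _)

namespace Sizes

variable (s : K.Sizes)

include s in
theorem finite_vertices (t : K.S) : {i | K.w i ∈ K.sq t}.Finite := by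
  refine (finite_of_LF s.lfU (isCompact_Icc (a := K.slo t) (b := K.shi t)) (sq_sub t)).subset ?_
  intro i hi
  exact ⟨K.w i, mem_closedBall_self (by have := s.r_pos i; linarith), hi⟩

theorem finite_edges339 (t : K.S) : {e | K.edge e ⊆ K.sq t}.Finite := by
  refine (finite_of_LF K.lfG (isCompact_Icc (a := K.slo t) (b := K.shi t)) (sq_sub t)).subset ?_
  intro e he
  have h1 : K.w (K.a e) ∈ Icc (K.w (K.a e)) (K.w (K.b e)) := ⟨le_refl _, fun k => ab_le e k⟩
  exact ⟨K.w (K.a e), h1, he h1⟩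

/-- the disc of the square, in the coordinates of its plane -/
def Dp (c : ℝ) (t : K.S) : Set P2 := {u | u ∈ Icc (pA t) (pB t) ∧ pl t u ∉ s.Hin c}

theorem near_sq {t : K.S} {u : P2} (hu : u ∈ Icc (pA t) (pB t)) (k : Fin 3) :
    K.slo t k - 2 * s.μ t ≤ pl t u k ∧ pl t u k ≤ K.shi t k + 2 * s.μ t := by
  have h := mem_sq_pl.2 hu
  have := s.μ_pos t
  exact ⟨by linarith [h.1 k], by linarith [h.2 k]⟩

variable {c : ℝ} (hc : c ∈ Ioo (1/2:ℝ) 1)
include hc

theorem w_mem_sq {t : K.S} {u : P2} (hu : u ∈ Icc (pA t) (pB t)) {i : K.W}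
    (h : pl t u ∈ s.box c i) : K.w i ∈ K.sq t :=
  s.μ_U t i _ (s.box_sub hc i h) (s.near_sq hu)

theorem edge_sub_sq {t : K.S} {u : P2} (hu : u ∈ Icc (pA t) (pB t)) {e : K.G}
    (h : pl t u ∈ s.beam c e) (ha : pl t u ∉ ball (K.w (K.a e)) (c * s.r (K.a e)))
    (hb : pl t u ∉ ball (K.w (K.b e)) (c * s.r (K.b e))) : K.edge e ⊆ K.sq t :=
  s.μ_tube t e _ (s.beam_sub hc e h) (s.near_sq hu) (fun h' => ha (s.half_sub hc _ h'))
    (fun h' => hb (s.half_sub hc _ h'))

theorem mem_Hin_sq {t : K.S} {u : P2} (hu : u ∈ Icc (pA t) (pB t)) :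
    pl t u ∈ s.Hin c ↔ (∃ i, K.w i ∈ K.sq t ∧ u ∈ s.vbox c t i) ∨
      ∃ e, K.edge e ⊆ K.sq t ∧ u ∈ s.ebox c t e := by
  rw [s.mem_Hin]
  constructor
  · intro h
    by_cases h1 : ∃ i, pl t u ∈ ball (K.w i) (c * s.r i)
    · obtain ⟨i, hi⟩ := h1
      have hi' := s.w_mem_sq hc hu (ball_subset_closedBall hi)
      exact Or.inl ⟨i, hi', (s.mem_vbox hc hi').1 hi⟩
    · obtain ⟨e, he⟩ := h.resolve_left h1
      push Not at h1
      have he' := s.edge_sub_sq hc hu (nbo_subset_nb _ _ he) (h1 _) (h1 _)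
      exact Or.inr ⟨e, he', (s.mem_ebox hc he').1 he⟩
  · rintro (⟨i, hi, h⟩ | ⟨e, he, h⟩)
    · exact Or.inl ⟨i, (s.mem_vbox hc hi).2 h⟩
    · exact Or.inr ⟨e, (s.mem_ebox hc he).2 h⟩

theorem conBall_Dp (t : K.S) : ConBall 2 (s.Dp c t) (frontier (s.Dp c t)) := by
  have e : s.Dp c t = (Icc (pA t) (pB t) \ ⋃ i ∈ (s.finite_vertices t).toFinset, s.vbox c t i) \
      ⋃ e ∈ (finite_edges339 t).toFinset, s.ebox c t e := by
    ext u
    simp only [Dp, mem_ofPred_eq, Set.mem_sdiff, mem_iUnion, Set.Finite.mem_toFinset, exists_prop,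
      not_exists, not_and]
    constructor
    · rintro ⟨h1, h2⟩
      rw [s.mem_Hin_sq hc h1] at h2
      push Not at h2
      exact ⟨⟨h1, h2.1⟩, h2.2⟩
    · rintro ⟨⟨h1, h2⟩, h3⟩
      refine ⟨h1, ?_⟩
      rw [s.mem_Hin_sq hc h1]
      push Not
      exact ⟨h2, h3⟩
  rw [e]
  exact s.discE hc t _ (fun i => by simp) _ (fun e he => by simpa using he)

/-- the margin of the square is in the open neighbourhood of the graph -/
theorem mem_Hin_of_margin {t : K.S} {u : P2} (hu : u ∈ Icc (pA t) (pB t)) {j : Fin 2}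
    (h : u j ≤ pA t j + s.μ t ∨ pB t j - s.μ t ≤ u j) : pl t u ∈ s.Hin c := by
  have hμ := s.μ_pos t
  have main : ∀ y : ℝ, (y = pA t j ∨ y = pB t j) → |u j - y| ≤ s.μ t → pl t u ∈ s.Hin c := by
    intro y hy hyu
    have hAB := (pA_lt_pB t j).le
    set u0 := Function.update u j y with hu0
    have hu0' : u0 ∈ Icc (pA t) (pB t) := by
      constructor
      · intro j'
        by_cases hj : j' = j
        · subst hj; rw [hu0, Function.update_self]
          rcases hy with h | h <;> rw [h]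
          exact hAB
        · rw [hu0, Function.update_of_ne hj]; exact hu.1 j'
      · intro j'
        by_cases hj : j' = j
        · subst hj; rw [hu0, Function.update_self]
          rcases hy with h | h <;> rw [h]
          exact hAB
        · rw [hu0, Function.update_of_ne hj]; exact hu.2 j'
    obtain ⟨e, he, hxe⟩ := K.sq_bd t (pl t u0) (mem_sq_pl.2 hu0')
      ⟨(K.nrm t).succAbove j, Fin.succAbove_ne _ _, by
        rw [pl_succ, hu0, Function.update_self]; exact hy⟩
    have hq := s.μ_lt t e he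
    have hcq : s.q e / 2 < c * s.q e := by
      have := s.q_pos e
      have := hc.1
      nlinarith
    refine s.mem_Hin.2 (Or.inr ⟨e, ?_⟩)
    rw [nbo, mem_ofPred_eq, forall_pl t]
    refine ⟨?_, fun j' => ?_⟩
    · have h1 := hxe.1 (K.nrm t)
      have h2 := hxe.2 (K.nrm t)
      rw [pl_nrm] at h1 h2 ⊢
      constructor <;> linarith
    · have h1 := hxe.1 ((K.nrm t).succAbove j')
      have h2 := hxe.2 ((K.nrm t).succAbove j')
      rw [pl_succ] at h1 h2 ⊢
      by_cases hj : j' = j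
      · subst hj
        rw [hu0, Function.update_self] at h1 h2
        obtain ⟨h3, h4⟩ := abs_le.1 hyu
        constructor <;> linarith
      · rw [hu0, Function.update_of_ne hj] at h1 h2
        constructor <;> linarith
  rcases h with h | h
  · refine main _ (Or.inl rfl) ?_
    rw [abs_of_nonneg (sub_nonneg.2 (hu.1 j))]; linarith
  · refine main _ (Or.inr rfl) ?_
    rw [abs_of_nonpos (sub_nonpos.2 (hu.2 j))]; linarith

theorem margin {t : K.S} {u : P2} (hu : u ∈ s.Dp c t) (j : Fin 2) :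
    pA t j + s.μ t < u j ∧ u j < pB t j - s.μ t := by
  constructor
  · by_contra hcon
    push Not at hcon
    exact hu.2 (s.mem_Hin_of_margin hc hu.1 (Or.inl hcon))
  · by_contra hcon
    push Not at hcon
    exact hu.2 (s.mem_Hin_of_margin hc hu.1 (Or.inr hcon))

omit hc in
/-- the sides of the square are long -/
theorem side_big (t : K.S) (j : Fin 2) : 4 * s.μ t < pB t j - pA t j := by
  have hs : K.slo t ∈ Icc (K.slo t) (K.shi t) := ⟨le_refl _, slo_le_shi t⟩
  obtain ⟨e, he, -⟩ := K.sq_bd t (K.slo t) hs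
    ⟨(K.nrm t).succAbove 0, Fin.succAbove_ne _ _, Or.inl rfl⟩
  have ha : K.w (K.a e) ∈ K.sq t := he ⟨le_refl _, fun k => ab_le e k⟩
  have hq := s.μ_lt t e he
  have hq0 := s.q_pos e
  have hqr := (s.q_le e).1
  obtain ⟨g1, g2⟩ := s.vertex_gap ha ((K.nrm t).succAbove j)
  have h1 := ha.1 ((K.nrm t).succAbove j)
  have h2 := ha.2 ((K.nrm t).succAbove j)
  show 4 * s.μ t < K.shi t ((K.nrm t).succAbove j) - K.slo t ((K.nrm t).succAbove j)
  by_cases h : K.w (K.a e) ((K.nrm t).succAbove j) = K.slo t ((K.nrm t).succAbove j)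
  · have h3 := g2 (by rw [h]; exact (K.s_lt t _ (Fin.succAbove_ne _ _)).ne)
    linarith
  · have h3 := g1 h
    linarith

/-- the centre of the square is far from the graph -/
theorem center_notMem_H (t : K.S) : pl t (fun j => (pA t j + pB t j) / 2) ∉ s.H c := by
  set u : P2 := fun j => (pA t j + pB t j) / 2 with hu
  have hAB := pA_lt_pB t
  have huI : u ∈ Icc (pA t) (pB t) := by
    constructor <;> intro j <;> rw [hu] <;> have := hAB j <;> dsimp only <;> linarith
  have key : ∀ i, pl t u ∉ s.box c i := by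
    intro i hi
    have hw := s.w_mem_sq hc huI hi
    obtain ⟨k, hk, hk'⟩ := vertex_bd hw
    obtain ⟨j, rfl⟩ := Fin.exists_succAbove_eq hk
    have h1 := (s.mem_box hc).1 hi ((K.nrm t).succAbove j)
    rw [pl_succ] at h1
    have h2 := s.cr_lt hc i
    obtain ⟨g1, g2⟩ := s.vertex_gap hw ((K.nrm t).succAbove j)
    have hlt : K.slo t ((K.nrm t).succAbove j) < K.shi t ((K.nrm t).succAbove j) := hAB j
    have hu' : u j = (K.slo t ((K.nrm t).succAbove j) + K.shi t ((K.nrm t).succAbove j)) / 2 := rfl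
    rw [hu'] at h1
    obtain ⟨h3, h4⟩ := abs_le.1 h1
    rcases hk' with h5 | h5
    · have := g2 (by rw [h5]; exact hlt.ne)
      rw [h5] at this h3 h4
      linarith
    · have := g1 (by rw [h5]; exact hlt.ne')
      rw [h5] at this h3 h4
      linarith
  intro hH
  rcases s.mem_H.1 hH with ⟨i, hi⟩ | ⟨e, he⟩
  · exact key i hi
  · have he' := s.edge_sub_sq hc huI he (fun h => key _ (ball_subset_closedBall h))
      (fun h => key _ (ball_subset_closedBall h))
    have ha : K.w (K.a e) ∈ K.sq t := he' ⟨le_refl _, fun k => ab_le e k⟩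
    obtain ⟨hdn, hpos⟩ := edge_pos he'
    obtain ⟨j0, hj0⟩ := Fin.exists_succAbove_eq hdn
    obtain ⟨j1, hj10⟩ : ∃ j1 : Fin 2, j1 ≠ j0 := by
      clear hj0
      revert j0
      decide
    have hj1d : (K.nrm t).succAbove j1 ≠ K.dir e := by
      rw [← hj0]
      exact fun h => hj10 (Fin.succAbove_right_injective h)
    have h1 := he ((K.nrm t).succAbove j1)
    rw [pl_succ, ← K.ab_off e _ hj1d] at h1
    have h2 := s.cq_lt hc e
    have hq := s.q_pos e
    have hqr := (s.q_le e).1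
    obtain ⟨g1, g2⟩ := s.vertex_gap ha ((K.nrm t).succAbove j1)
    have hlt : K.slo t ((K.nrm t).succAbove j1) < K.shi t ((K.nrm t).succAbove j1) := hAB j1
    have hu' : u j1 = (K.slo t ((K.nrm t).succAbove j1) + K.shi t ((K.nrm t).succAbove j1)) / 2 :=
      rfl
    rw [hu'] at h1
    rcases hpos _ (Fin.succAbove_ne _ _) hj1d with h5 | h5
    · have := g2 (by rw [h5]; exact hlt.ne)
      rw [h5] at this h1
      linarith [h1.1, h1.2]
    · have := g1 (by rw [h5]; exact hlt.ne')
      rw [h5] at this h1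
      linarith [h1.1, h1.2]

/-- the frontier of the disc -/
theorem frontier_Dp (t : K.S) :
    frontier (s.Dp c t) = {u | u ∈ Icc (pA t) (pB t) ∧ pl t u ∈ s.F c} := by
  have hcl := (s.conBall_Dp hc t).isClosed
  have hμ := s.μ_pos t
  ext u
  constructor
  · intro hu
    have huD : u ∈ s.Dp c t := hcl.frontier_subset hu
    refine ⟨huD.1, ?_, huD.2⟩
    by_contra hH
    have hin : ∀ᶠ u' in 𝓝 u, u' ∈ Icc (pA t) (pB t) := by
      have : u ∈ interior (Icc (pA t) (pB t)) := by
        rw [interior_Icc_pi']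
        intro j
        have := s.margin hc huD j
        constructor <;> linarith
      exact mem_interior_iff_mem_nhds.1 this
    have hΛu : pl t u ∈ Λ := sq_sub t (mem_sq_pl.2 huD.1)
    have hev : ∀ᶠ u' in 𝓝 u, pl t u' ∉ s.H c :=
      (continuous_pl t).continuousAt.eventually (s.ev_notMem_H hc hΛu hH)
    apply hu.2
    rw [mem_interior_iff_mem_nhds]
    filter_upwards [hin, hev] with u' h1 h2
    exact ⟨h1, fun h => h2 (s.Hin_subset h)⟩
  · rintro ⟨hu, hH, hHi⟩
    have huD : u ∈ s.Dp c t := ⟨hu, hHi⟩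
    refine ⟨subset_closure huD, fun hint => ?_⟩
    -- approximation by points of an open box
    have main : ∀ (L R m : P2), (∀ j, L j ≤ u j ∧ u j ≤ R j) → (∀ j, L j < m j ∧ m j < R j) →
        (∀ u' : P2, (∀ j, L j < u' j ∧ u' j < R j) → pl t u' ∈ s.Hin c) → False := by
      intro L R m h1 h2 h3
      have hlim : Tendsto (fun θ : ℝ => u + θ • (m - u)) (𝓝[>] 0) (𝓝 u) := by
        have h4 : Tendsto (fun θ : ℝ => u + θ • (m - u)) (𝓝 0) (𝓝 (u + (0:ℝ) • (m - u))) :=
          (continuous_const.add (continuous_id.smul continuous_const)).tendsto _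
        rw [zero_smul, add_zero] at h4
        exact h4.mono_left nhdsWithin_le_nhds
      have h5 : ∀ᶠ θ : ℝ in 𝓝[>] 0, u + θ • (m - u) ∈ s.Dp c t :=
        hlim.eventually (mem_interior_iff_mem_nhds.1 hint)
      have h6 : ∀ᶠ θ : ℝ in 𝓝[>] 0, θ < 1 := by
        exact (gt_mem_nhds zero_lt_one).filter_mono nhdsWithin_le_nhds
      obtain ⟨θ, ⟨h7, h8⟩, h9⟩ := ((h5.and h6).and (self_mem_nhdsWithin (s := Ioi (0:ℝ)))).exists
      have h9 : (0:ℝ) < θ := h9
      refine h7.2 (h3 _ fun j => ?_)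
      have a1 := h1 j
      have a2 := h2 j
      rw [Pi.add_apply, Pi.smul_apply, Pi.sub_apply, smul_eq_mul]
      constructor <;> nlinarith
    rcases s.mem_H.1 hH with ⟨i, hi⟩ | ⟨e, he⟩
    · have hw := s.w_mem_sq hc hu hi
      have hcr := s.cr_pos hc i
      refine main (fun j => pw t i j - c * s.r i) (fun j => pw t i j + c * s.r i) (pw t i)
        (fun j => ?_) (fun j => ⟨by linarith, by linarith⟩)
        (fun u' hu' => s.mem_Hin.2 (Or.inl ⟨i, (s.mem_vbox hc hw).2 hu'⟩))
      have h1 := (s.mem_box hc).1 hi ((K.nrm t).succAbove j)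
      rw [pl_succ] at h1
      obtain ⟨h2, h3⟩ := abs_le.1 h1
      have h4 : K.w i ((K.nrm t).succAbove j) = pw t i j := rfl
      rw [h4] at h2 h3
      constructor <;> linarith
    · have he' := s.edge_sub_sq hc hu he (fun h => hHi (s.mem_Hin.2 (Or.inl ⟨_, h⟩)))
        (fun h => hHi (s.mem_Hin.2 (Or.inl ⟨_, h⟩)))
      have hcq := s.cq_pos hc e
      have hab : ∀ j, pw t (K.a e) j ≤ pw t (K.b e) j := fun j => ab_le e _
      refine main (fun j => pw t (K.a e) j - c * s.q e) (fun j => pw t (K.b e) j + c * s.q e)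
        (pw t (K.a e)) (fun j => ?_) (fun j => ⟨by linarith, by linarith [hab j]⟩)
        (fun u' hu' => s.mem_Hin.2 (Or.inr ⟨e, (s.mem_ebox hc he').2 hu'⟩))
      have h1 := he ((K.nrm t).succAbove j)
      rw [pl_succ] at h1
      exact h1

end Sizes

end BoxCx

end P073.PA691
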