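import Vale.Agent.P073.H339.DeltaTM2

/-!
# P073, block TM-D (helper339), part 3: the fields of `DiscFacts` about `Δ` and `ζ`
-/

set_option linter.unusedSectionVars false

open Set Metric Topology Filter

namespace P073.PA691

open P073 PR720 H339
open Vale.Agent.P073.St (V IsInv)

namespace BoxCx

variable {Λ : Set V} {v : V} {K : BoxCx Λ v}

namespace Sizes

variable (s : K.Sizes) {c : ℝ}

/-- the rectangle of parameters -/
noncomputable def sg (t : K.S) : P2 →ᵃ[ℝ] P2 :=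
  boxMap (fun j => pA t j + s.μ t) (fun j => pB t j - s.μ t)

theorem sg_apply (t : K.S) (y : P2) (j : Fin 2) :
    s.sg t y j = (pA t j + pB t j) / 2 + ((pB t j - pA t j) / 2 - s.μ t) * y j := by
  show (pB t j - s.μ t - (pA t j + s.μ t)) / 2 * y j + (pA t j + s.μ t + (pB t j - s.μ t)) / 2 = _
  ring

theorem par_inr (t : K.S) (y : P2) : s.par c (.inr t) y = pl t (s.sg t y) := by
  have : s.sg t y = fun j => (pA t j + pB t j) / 2 + ((pB t j - pA t j) / 2 - s.μ t) * y j := by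
    funext j; exact s.sg_apply t y j
  rw [this]
  rfl

/-- the inverse of `sg` -/
noncomputable def sgi (t : K.S) : P2 →ᵃ[ℝ] P2 :=
  boxMap (fun j => (-((pA t j + pB t j) / 2) - 1 * 1) / ((pB t j - pA t j) / 2 - s.μ t))
    (fun j => (-((pA t j + pB t j) / 2) + 1 * 1) / ((pB t j - pA t j) / 2 - s.μ t))

theorem half_pos' (t : K.S) (j : Fin 2) : 0 < (pB t j - pA t j) / 2 - s.μ t := by
  have := s.side_big t j
  have := s.μ_pos t
  linarith

theorem sgi_apply (t : K.S) (u : P2) (j : Fin 2) :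
    s.sgi t u j = (u j - (pA t j + pB t j) / 2) / ((pB t j - pA t j) / 2 - s.μ t) := by
  have h := (s.half_pos' t j).ne'
  show ((-((pA t j + pB t j) / 2) + 1 * 1) / ((pB t j - pA t j) / 2 - s.μ t) -
    (-((pA t j + pB t j) / 2) - 1 * 1) / ((pB t j - pA t j) / 2 - s.μ t)) / 2 * u j +
    ((-((pA t j + pB t j) / 2) - 1 * 1) / ((pB t j - pA t j) / 2 - s.μ t) +
    (-((pA t j + pB t j) / 2) + 1 * 1) / ((pB t j - pA t j) / 2 - s.μ t)) / 2 = _
  generalize (pB t j - pA t j) / 2 - s.μ t = d at h ⊢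
  generalize (pA t j + pB t j) / 2 = m
  field_simp
  ring

theorem sg_sgi (t : K.S) (u : P2) : s.sg t (s.sgi t u) = u := by
  funext j
  rw [sg_apply, sgi_apply]
  have h := (s.half_pos' t j).ne'
  generalize (pB t j - pA t j) / 2 - s.μ t = d at h ⊢
  generalize (pA t j + pB t j) / 2 = m
  field_simp
  ring

theorem sgi_sg (t : K.S) (y : P2) : s.sgi t (s.sg t y) = y := by
  funext j
  rw [sgi_apply, sg_apply]
  have h := (s.half_pos' t j).ne'
  rw [add_sub_cancel_left, mul_div_cancel_left₀ _ h]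

theorem sg_mem {t : K.S} {y : P2} (hy : y ∈ Q0) : s.sg t y ∈ Icc (pA t) (pB t) := by
  have hμ := s.μ_pos t
  have hy' : ∀ j, |y j| ≤ 1 := fun j =>
    (norm_le_pi_norm y j).trans (mem_closedBall_zero_iff.1 hy)
  constructor <;> intro j <;> rw [sg_apply] <;> have h1 := s.half_pos' t j <;>
    obtain ⟨h2, h3⟩ := abs_le.1 (hy' j) <;> nlinarith

section

variable (hc : c ∈ Ioo (1/2:ℝ) 1)
include hc

theorem sgi_mem {t : K.S} {u : P2} (hu : u ∈ s.Dp c t) : s.sgi t u ∈ ball (0 : P2) 1 := by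
  rw [mem_ball_zero_iff, pi_norm_lt_iff one_pos]
  intro j
  have h := s.half_pos' t j
  obtain ⟨h1, h2⟩ := s.margin hc hu j
  rw [sgi_apply, Real.norm_eq_abs, abs_div, abs_of_pos h, div_lt_one h, abs_lt]
  constructor <;> linarith

theorem Δ_inr (t : K.S) : s.Δ c (.inr t) = s.sgi t '' s.Dp c t := by
  ext y
  constructor
  · rintro ⟨hy, hyH⟩
    rw [par_inr] at hyH
    exact ⟨s.sg t y, ⟨s.sg_mem hy, hyH⟩, s.sgi_sg t y⟩
  · rintro ⟨u, hu, rfl⟩
    refine ⟨ball_subset_closedBall (s.sgi_mem hc hu), ?_⟩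
    rw [par_inr, sg_sgi]
    exact hu.2

theorem ζ_inr (t : K.S) : s.ζ c (.inr t) = s.sgi t '' frontier (s.Dp c t) := by
  rw [s.frontier_Dp hc]
  ext y
  constructor
  · rintro ⟨hy, hyF⟩
    rw [par_inr] at hyF
    exact ⟨s.sg t y, ⟨s.sg_mem hy, hyF⟩, s.sgi_sg t y⟩
  · rintro ⟨u, hu, rfl⟩
    have hu' : u ∈ s.Dp c t := ⟨hu.1, hu.2.2⟩
    refine ⟨ball_subset_closedBall (s.sgi_mem hc hu'), ?_⟩
    show s.par c (.inr t) (s.sgi t u) ∈ s.F c
    rw [par_inr, sg_sgi]
    exact hu.2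

theorem Δ_ball_inr (t : K.S) : ConBall 2 (s.Δ c (.inr t)) (s.ζ c (.inr t)) := by
  rw [s.Δ_inr hc, s.ζ_inr hc]
  refine (s.conBall_Dp hc t).image_affine (s.sgi t) ?_ ?_
  · intro u w h
    rw [← s.sg_sgi t u, h, s.sg_sgi]
  · refine continuous_pi fun j => ?_
    have h := (s.half_pos' t j).ne'
    simp only [sgi_apply]
    fun_prop

omit hc in
theorem Δ_ball_inl (x : K.G × Bool) : ConBall 2 (s.Δ c (.inl x)) (s.ζ c (.inl x)) := by
  show ConBall 2 (closedBall (0 : P2) (1 / 2)) (sphere (0 : P2) (1 / 2))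
  have h := conBall_Icc_pi (n := 2) two_ne_zero (a := fun _ => -(1/2:ℝ)) (b := fun _ => (1/2:ℝ))
    (fun _ => by norm_num)
  have e : Icc (fun _ : Fin 2 => -(1/2:ℝ)) (fun _ => (1/2:ℝ)) = closedBall (0 : P2) (1 / 2) := by
    ext x
    rw [mem_closedBall_zero_iff, pi_norm_le_iff_of_nonneg (by norm_num)]
    simp only [mem_Icc, Pi.le_def, Real.norm_eq_abs, abs_le]
    exact forall_and.symm
  rw [e, frontier_closedBall _ (by norm_num)] at h
  exact h

/-- **Δ_ball** -/
theorem Δ_ball (d : D K) : ConBall 2 (s.Δ c d) (s.ζ c d) := by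
  rcases d with x | t
  · exact s.Δ_ball_inl x
  · exact s.Δ_ball_inr hc t

/-- **Δ_sub** -/
theorem Δ_sub (d : D K) : s.Δ c d ⊆ ball 0 1 := by
  rcases d with x | t
  · exact closedBall_subset_ball (by norm_num)
  · rw [s.Δ_inr hc]
    rintro _ ⟨u, hu, rfl⟩
    exact s.sgi_mem hc hu

/-- **zero_mem** -/
theorem zero_mem (d : D K) : (0 : P2) ∈ s.Δ c d ∧ (0 : P2) ∉ s.ζ c d := by
  rcases d with x | t
  · constructor
    · exact mem_closedBall_self (by norm_num)
    · show (0 : P2) ∉ sphere (0 : P2) (1 / 2)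
      rw [mem_sphere_zero_iff_norm, norm_zero]
      norm_num
  · have h0 : s.par c (.inr t) 0 = pl t (fun j => (pA t j + pB t j) / 2) := by
      rw [par_inr]
      congr 1
      funext j
      rw [sg_apply, Pi.zero_apply, mul_zero, add_zero]
    have h1 := s.center_notMem_H hc t
    rw [← h0] at h1
    constructor
    · exact ⟨mem_closedBall_self zero_le_one, fun h => h1 (s.Hin_subset h)⟩
    · rintro ⟨-, h⟩
      exact h1 h.1

/-- position of the points of the inner rectangles -/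
theorem inner {e : K.G} {β : Bool} {y : P2} (hy : y ∈ Q0) :
    (s.par c (.inl (e, β)) y ∈ s.H c ↔ ‖y‖ ≤ 1 / 2) ∧
      (s.par c (.inl (e, β)) y ∈ s.Hin c ↔ ‖y‖ < 1 / 2) := by
  set x := s.par c (.inl (e, β)) y with hx
  have hy' : ∀ j, |y j| ≤ 1 := fun j =>
    (norm_le_pi_norm y j).trans (mem_closedBall_zero_iff.1 hy)
  have hra := s.r_pos (K.a e)
  have hrb := s.r_pos (K.b e)
  have hcra := s.cr_lt hc (K.a e)
  have hcrb := s.cr_lt hc (K.b e)
  have hq := s.q_pos e
  have hcq := s.cq_pos hc e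
  have hcq' := s.cq_lt hc e
  have hlen := s.edge_len339 e
  -- coordinates
  have hxd : x (K.dir e) = if β then s.cb e else s.ca e := Fin.insertNth_apply_same _ _ _
  have hxj : ∀ j, x ((K.dir e).succAbove j) =
      K.w (K.a e) ((K.dir e).succAbove j) + 2 * (c * s.q e) * y j := fun j =>
    Fin.insertNth_apply_succAbove _ _ _ _
  have hbj : ∀ j, K.w (K.b e) ((K.dir e).succAbove j) = K.w (K.a e) ((K.dir e).succAbove j) :=
    fun j => (K.ab_off e _ (Fin.succAbove_ne _ _)).symm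
  have hall : ∀ {P : Fin 3 → Prop}, (∀ k, P k) ↔ P (K.dir e) ∧ ∀ j, P ((K.dir e).succAbove j) := by
    intro P
    constructor
    · exact fun h => ⟨h _, fun j => h _⟩
    · rintro ⟨h1, h2⟩ k
      rcases Fin.eq_self_or_eq_succAbove (K.dir e) k with rfl | ⟨j, rfl⟩
      · exact h1
      · exact h2 j
  have hpos : K.w (K.a e) (K.dir e) + s.r (K.a e) < x (K.dir e) ∧
      x (K.dir e) < K.w (K.b e) (K.dir e) - s.r (K.b e) := by
    rw [hxd]
    unfold ca cb
    split_ifs <;> constructor <;> linarith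
  have hnb : x ∈ K.nb e (2 * s.q e) := by
    rw [nb, mem_ofPred_eq, hall]
    refine ⟨⟨by linarith, by linarith⟩, fun j => ?_⟩
    rw [hxj, hbj]
    obtain ⟨h1, h2⟩ := abs_le.1 (hy' j)
    constructor <;> nlinarith
  have hbox : ∀ i, x ∉ s.box c i := by
    intro i hi
    have h1 := (s.mem_box hc).1 hi (K.dir e)
    obtain ⟨h2, h3⟩ := abs_le.1 h1
    rcases s.U_edge i e x (s.box_sub hc i hi) hnb with rfl | rfl
    · linarith
    · linarith
  have hother : ∀ e', e' ≠ e → x ∉ s.beam c e' := by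
    intro e' hne hx'
    obtain ⟨i, -, -, hi⟩ := s.tube_disj e e' hne.symm x hnb (s.beam_sub hc e' hx')
    exact hbox i (ball_subset_closedBall (s.half_sub hc i hi))
  have e1 : x ∈ s.beam c e ↔ ‖y‖ ≤ 1 / 2 := by
    rw [pi_norm_le_iff_of_nonneg (by norm_num)]
    show x ∈ K.nb e (c * s.q e) ↔ _
    rw [nb, mem_ofPred_eq, hall]
    constructor
    · rintro ⟨-, h⟩ j
      have h1 := h j
      rw [hxj, hbj] at h1
      rw [Real.norm_eq_abs, abs_le]
      constructor <;> nlinarith [h1.1, h1.2]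
    · intro h
      refine ⟨⟨by linarith, by linarith⟩, fun j => ?_⟩
      rw [hxj, hbj]
      have h1 := h j
      rw [Real.norm_eq_abs, abs_le] at h1
      constructor <;> nlinarith [h1.1, h1.2]
  have e2 : x ∈ K.nbo e (c * s.q e) ↔ ‖y‖ < 1 / 2 := by
    rw [pi_norm_lt_iff (by norm_num)]
    rw [nbo, mem_ofPred_eq, hall]
    constructor
    · rintro ⟨-, h⟩ j
      have h1 := h j
      rw [hxj, hbj] at h1
      rw [Real.norm_eq_abs, abs_lt]
      constructor <;> nlinarith [h1.1, h1.2]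
    · intro h
      refine ⟨⟨by linarith, by linarith⟩, fun j => ?_⟩
      rw [hxj, hbj]
      have h1 := h j
      rw [Real.norm_eq_abs, abs_lt] at h1
      constructor <;> nlinarith [h1.1, h1.2]
  constructor
  · rw [← e1, s.mem_H]
    constructor
    · rintro (⟨i, hi⟩ | ⟨e', he'⟩)
      · exact absurd hi (hbox i)
      · by_cases hne : e' = e
        · rw [← hne]; exact he'
        · exact absurd he' (hother e' hne)
    · exact fun h => Or.inr ⟨e, h⟩
  · rw [← e2, s.mem_Hin]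
    constructor
    · rintro (⟨i, hi⟩ | ⟨e', he'⟩)
      · exact absurd (ball_subset_closedBall hi) (hbox i)
      · by_cases hne : e' = e
        · rw [← hne]; exact he'
        · exact absurd (nbo_subset_nb _ _ he') (hother e' hne)
    · exact fun h => Or.inr ⟨e, h⟩

/-- **ζ_sub** -/
theorem ζ_sub (d : D K) : s.par c d '' s.ζ c d ⊆ s.F c := by
  rcases d with ⟨e, β⟩ | t
  · rintro _ ⟨y, hy, rfl⟩
    have hy' : ‖y‖ = 1 / 2 := mem_sphere_zero_iff_norm.1 hy
    have hQ : y ∈ Q0 := mem_closedBall_zero_iff.2 (by rw [hy']; norm_num)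
    obtain ⟨h1, h2⟩ := s.inner hc (e := e) (β := β) hQ
    exact ⟨h1.2 hy'.le, fun h => (h2.1 h).ne hy'⟩
  · rintro _ ⟨y, hy, rfl⟩
    exact hy.2

/-- **out_in** -/
theorem out_in (d : D K) (hd : out d) : (∀ y ∈ s.Δ c d, y ∉ s.ζ c d → s.par c d y ∉ s.H c) ∧
    ∀ y ∈ Q0, y ∉ s.Δ c d → s.par c d y ∈ s.Hin c := by
  rcases d with x | t
  · exact absurd hd (fun h => h)
  · constructor
    · rintro y ⟨hy, hyH⟩ hyζ hH
      exact hyζ ⟨hy, hH, hyH⟩
    · intro y hy hyΔ
      by_contra hcon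
      exact hyΔ ⟨hy, hcon⟩

/-- **in_in** -/
theorem in_in (d : D K) (hd : ¬ out d) :
    (∀ y ∈ s.Δ c d, y ∉ s.ζ c d → s.par c d y ∈ s.Hin c) ∧
      ∀ y ∈ Q0, y ∉ s.Δ c d → s.par c d y ∉ s.H c := by
  rcases d with ⟨e, β⟩ | t
  · constructor
    · intro y hy hyζ
      have h1 : ‖y‖ ≤ 1 / 2 := mem_closedBall_zero_iff.1 hy
      have hQ : y ∈ Q0 := mem_closedBall_zero_iff.2 (by linarith)
      refine (s.inner hc hQ).2.2 (lt_of_le_of_ne h1 fun h => hyζ ?_)
      exact mem_sphere_zero_iff_norm.2 h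
    · intro y hy hyΔ hH
      exact hyΔ (mem_closedBall_zero_iff.2 ((s.inner hc hy).1.1 hH))
  · exact absurd trivial hd

end

end Sizes

end BoxCx

end P073.PA691
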