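import Vale.Agent.P073.H339.SpecAnnulus
import Vale.Agent.P073.PA644.Sub
import Vale.Agent.P073.PR.Faces

/-!
# P073 / H339: cutting rectangular notches out of planar discs
-/

set_option linter.unusedSectionVars false

open Set Metric Topology Filter

namespace P073.H339

open PA691 (P2)

section

variable {E : Type*} [NormedAddCommGroup E] [NormedSpace ℝ E]

/-- a circle which is the union of two closed sets with exactly two common points is the union of
two arcs -/
theorem IsCircle.split_closed {C A B : Set E} {p q : E} (h : IsCircle C) (hA : IsClosed A)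
    (hB : IsClosed B) (hC : A ∪ B = C) (hAB : A ∩ B = {p, q}) (hpq : p ≠ q)
    (hA' : ¬ A ⊆ {p, q}) (hB' : ¬ B ⊆ {p, q}) : IsArc A p q ∧ IsArc B p q := by
  have hpA : p ∈ A ∧ p ∈ B := by rw [← mem_inter_iff, hAB]; exact Or.inl rfl
  have hqA : q ∈ A ∧ q ∈ B := by rw [← mem_inter_iff, hAB]; exact Or.inr rfl
  obtain ⟨X, Y, hX, hY, hXY, hCXY⟩ := IsCircle.arcs_through h (hC ▸ Or.inl hpA.1)
    (hC ▸ Or.inl hqA.1) hpq
  -- an arc of the circle is in one of the two sets
  have key : ∀ Z : Set E, IsArc Z p q → Z ⊆ C → Z ⊆ A ∨ Z ⊆ B := by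
    intro Z hZ hZC
    have h1 := IsArc.isPreconnected_open hZ
    have h2 : Z \ {p, q} ⊆ A ∨ Z \ {p, q} ⊆ B := by
      refine IsPreconnected.subset_or h1 hA hB ?_ ?_
      · intro x hx
        rw [hC]; exact hZC hx.1
      · intro x hx h3 h4
        exact hx.2 (hAB ▸ ⟨h3, h4⟩)
    rcases h2 with h2 | h2
    · left
      intro x hx
      by_cases h3 : x ∈ ({p, q} : Set E)
      · exact (hAB ▸ h3 : x ∈ A ∩ B).1
      · exact h2 ⟨hx, h3⟩
    · right
      intro x hx
      by_cases h3 : x ∈ ({p, q} : Set E)
      · exact (hAB ▸ h3 : x ∈ A ∩ B).2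
      · exact h2 ⟨hx, h3⟩
  have hXC : X ⊆ C := hCXY ▸ subset_union_left
  have hYC : Y ⊆ C := hCXY ▸ subset_union_right
  have main : ∀ X Y : Set E, IsArc X p q → IsArc Y p q → C = X ∪ Y → X ⊆ A → Y ⊆ B →
      IsArc A p q ∧ IsArc B p q := by
    intro X Y hX hY hCXY hXA hYB
    have e1 : A = X := by
      apply Subset.antisymm _ hXA
      intro x hx
      have : x ∈ X ∪ Y := by rw [← hCXY, ← hC]; exact Or.inl hx
      rcases this with h | h
      · exact h
      · have : x ∈ ({p, q} : Set E) := hAB ▸ ⟨hx, hYB h⟩
        rcases this with h' | h'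
        · rw [h']; exact hX.left_mem
        · rw [mem_singleton_iff.1 h']; exact hX.right_mem
    have e2 : B = Y := by
      apply Subset.antisymm _ hYB
      intro x hx
      have : x ∈ X ∪ Y := by rw [← hCXY, ← hC]; exact Or.inr hx
      rcases this with h | h
      · have : x ∈ ({p, q} : Set E) := hAB ▸ ⟨hXA h, hx⟩
        rcases this with h' | h'
        · rw [h']; exact hY.left_mem
        · rw [mem_singleton_iff.1 h']; exact hY.right_mem
      · exact h
    rw [e1, e2]
    exact ⟨hX, hY⟩
  rcases key X hX hXC with h1 | h1 <;> rcases key Y hY hYC with h2 | h2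
  · exfalso
    apply hB'
    intro x hx
    rw [← hAB]
    refine ⟨?_, hx⟩
    have : x ∈ X ∪ Y := by rw [← hCXY, ← hC]; exact Or.inr hx
    exact this.elim (fun h => h1 h) (fun h => h2 h)
  · exact main X Y hX hY hCXY h1 h2
  · exact main Y X hY hX (by rw [union_comm]; exact hCXY) h2 h1
  · exfalso
    apply hA'
    intro x hx
    rw [← hAB]
    refine ⟨hx, ?_⟩
    have : x ∈ X ∪ Y := by rw [← hCXY, ← hC]; exact Or.inl hx
    exact this.elim (fun h => h1 h) (fun h => h2 h)

end

open PA644 (frontier_conBall interior_conBall closure_interior_conBall preconn_interior_conBall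
  interior_conBall_nonempty)

/-- **Subtracting a disc** (planar version of helper644's `sub_ball`). -/
theorem sub_disc {A B E E' γ : Set P2} (hA : ConBall 2 A (frontier A))
    (hB : ConBall 2 B (frontier B)) (hBA : B ⊆ A) (hE : frontier B ∩ frontier A = E)
    (hEE : E ∪ E' = frontier B) (hE' : ConBall 1 E' γ) (hγ : E ∩ E' = γ) :
    ConBall 2 (closure (A \ B)) (frontier (closure (A \ B))) ∧
      frontier (closure (A \ B)) = (frontier A \ E) ∪ E' ∧
      closure (A \ B) = (A \ B) ∪ E' ∧ ConBall 1 E γ ∧ ConBall 1 ((frontier A \ E) ∪ γ) γ := by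
  have hBc := hB.isClosed
  have hE'B : E' ⊆ B := (hEE ▸ subset_union_right).trans hBc.frontier_subset
  have hE'f : E' ⊆ frontier B := hEE ▸ subset_union_right
  have hE'A : E' ∩ frontier A = γ := by
    rw [← hγ]
    ext x
    constructor
    · rintro ⟨h1, h2⟩
      exact ⟨hE ▸ ⟨hE'f h1, h2⟩, h1⟩
    · rintro ⟨h1, h2⟩
      rw [← hE] at h1
      exact ⟨h2, h1.2⟩
  obtain ⟨B₁, B₂, C₁, C₂, hBu, hBi, hB₁, hB₂, hC₁, hC₂, hCu, hCi⟩ :=
    GB200.cut_two hA hE' (hE'B.trans hBA) hE'A
  have key : ∀ (B₁ B₂ C₁ C₂ : Set P2), B₁ ∪ B₂ = frontier A → B₁ ∩ B₂ = γ → ConBall 1 B₁ γ →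
      ConBall 1 B₂ γ → ConBall 2 C₁ (B₁ ∪ E') → ConBall 2 C₂ (B₂ ∪ E') → C₁ ∪ C₂ = A →
      C₁ ∩ C₂ = E' → interior B ⊆ interior C₁ →
      ConBall 2 (closure (A \ B)) (frontier (closure (A \ B))) ∧
      frontier (closure (A \ B)) = (frontier A \ E) ∪ E' ∧
      closure (A \ B) = (A \ B) ∪ E' ∧ ConBall 1 E γ ∧
      ConBall 1 ((frontier A \ E) ∪ γ) γ := by
    intro B₁ B₂ C₁ C₂ hBu hBi hB₁ hB₂ hC₁ hC₂ hCu hCi hint
    have f1 := frontier_conBall hC₁
    have f2 := frontier_conBall hC₂
    have hC₁A : C₁ ⊆ A := hCu ▸ subset_union_left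
    have hd : Disjoint (interior C₁) (frontier B) := by
      rw [← hEE, ← hE]
      refine Set.disjoint_left.2 ?_
      rintro x hx (h | h)
      · exact h.2.2 (interior_mono hC₁A hx)
      · have h3 : x ∈ frontier C₁ := f1 ▸ Or.inr h
        exact h3.2 hx
    obtain ⟨b, hb⟩ := interior_conBall_nonempty hB
    have h1 : interior C₁ ⊆ interior B :=
      Vale.Agent.P073.PA285.subset_interior_of_preconn (preconn_interior_conBall hC₁) hd
        (hint hb) hb
    have hii : interior B = interior C₁ := Subset.antisymm hint h1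
    have hBC : B = C₁ := by
      rw [← closure_interior_conBall hB, hii, closure_interior_conBall hC₁]
    have hB₁E : B₁ = E := by
      apply Subset.antisymm
      · intro x hx
        rw [← hE]
        refine ⟨?_, hBu ▸ Or.inl hx⟩
        rw [hBC, f1]; exact Or.inl hx
      · intro x hx
        have h2 : x ∈ frontier B := hEE ▸ Or.inl hx
        rw [hBC, f1] at h2
        rcases h2 with h2 | h2
        · exact h2
        · have : x ∈ γ := hγ ▸ ⟨hx, h2⟩
          rw [← hBi] at this
          exact this.1
    have hB₂E : B₂ = (frontier A \ E) ∪ γ := by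
      rw [← hBu, ← hB₁E]
      ext x
      constructor
      · intro hx
        by_cases h2 : x ∈ B₁
        · exact Or.inr (hBi ▸ ⟨h2, hx⟩)
        · exact Or.inl ⟨Or.inr hx, h2⟩
      · rintro (⟨h2 | h2, h3⟩ | h2)
        · exact absurd h2 h3
        · exact h2
        · rw [← hBi] at h2; exact h2.2
    have hsub : A \ B ⊆ C₂ := by
      rintro x ⟨hx, hxB⟩
      rw [← hCu] at hx
      exact hx.resolve_left (fun h => hxB (hBC ▸ h))
    have hcl : closure (A \ B) = C₂ := by
      apply Subset.antisymm (closure_minimal hsub hC₂.isClosed)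
      rw [← closure_interior_conBall hC₂]
      apply closure_mono
      intro x hx
      refine ⟨hCu ▸ Or.inr (interior_subset hx), fun hxB => ?_⟩
      have h3 : x ∈ E' := by
        rw [← hCi]
        exact ⟨hBC ▸ hxB, interior_subset hx⟩
      have h4 : x ∈ frontier C₂ := f2 ▸ Or.inr h3
      exact h4.2 hx
    have hfr : B₂ ∪ E' = (frontier A \ E) ∪ E' := by
      rw [hB₂E]
      ext x
      constructor
      · rintro ((h | h) | h)
        · exact Or.inl h
        · rw [← hγ] at h; exact Or.inr h.2
        · exact Or.inr h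
      · rintro (h | h)
        · exact Or.inl (Or.inl h)
        · exact Or.inr h
    refine ⟨?_, ?_, ?_, ?_, ?_⟩
    · rw [hcl, f2]; exact hC₂
    · rw [hcl, f2, hfr]
    · rw [hcl]
      apply Subset.antisymm
      · intro x hx
        by_cases h3 : x ∈ B
        · right
          rw [← hCi]
          exact ⟨hBC ▸ h3, hx⟩
        · exact Or.inl ⟨hCu ▸ Or.inr hx, h3⟩
      · rintro x (h | h)
        · exact hsub h
        · rw [← hCi] at h; exact h.2
    · rw [← hB₁E]; exact hB₁
    · rw [← hB₂E]; exact hB₂
  -- the interior of `B` is in one of the two parts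
  have f1 := frontier_conBall hC₁
  have f2 := frontier_conBall hC₂
  have hsub : interior B ⊆ interior C₁ ∪ interior C₂ := by
    intro x hx
    have hxA : x ∈ interior A := interior_mono hBA hx
    have hxE : x ∉ E' := fun h => (hE'f h).2 hx
    have hxC : x ∈ C₁ ∪ C₂ := hCu ▸ interior_subset hxA
    have hxf : x ∉ frontier A := fun h => h.2 hxA
    rcases hxC with h | h
    · left
      rw [interior_conBall hC₁]
      refine ⟨h, ?_⟩
      rintro (h' | h')
      · exact hxf (hBu ▸ Or.inl h')
      · exact hxE h'
    · right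
      rw [interior_conBall hC₂]
      refine ⟨h, ?_⟩
      rintro (h' | h')
      · exact hxf (hBu ▸ Or.inr h')
      · exact hxE h'
  have hdis : Disjoint (interior C₁) (interior C₂) := by
    refine Set.disjoint_left.2 fun x h1 h2 => ?_
    have h3 : x ∈ E' := hCi ▸ ⟨interior_subset h1, interior_subset h2⟩
    have h4 : x ∈ frontier C₁ := f1 ▸ Or.inr h3
    exact h4.2 h1
  rcases (isPreconnected_iff_subset_of_disjoint.1 (preconn_interior_conBall hB)) _ _
    isOpen_interior isOpen_interior hsub (by rw [hdis.inter_eq, inter_empty]) with h | h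
  · exact key B₁ B₂ C₁ C₂ hBu hBi hB₁ hB₂ hC₁ hC₂ hCu hCi h
  · exact key B₂ B₁ C₂ C₁ (by rw [union_comm]; exact hBu) (by rw [inter_comm]; exact hBi) hB₂ hB₁
      hC₂ hC₁ (by rw [union_comm]; exact hCu) (by rw [inter_comm]; exact hCi) h

/-! ### Rectangular notches -/

/-- the fixed sides of a rectangle -/
def fixS (a b : P2) (l h : Fin 2 → Bool) : Set P2 :=
  {x | x ∈ Icc a b ∧ ∃ k, (l k = false ∧ x k = a k) ∨ (h k = false ∧ x k = b k)}

/-- the moving sides of a rectangle -/
def movS (a b : P2) (l h : Fin 2 → Bool) : Set P2 :=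
  {x | x ∈ Icc a b ∧ ∃ k, (l k = true ∧ x k = a k) ∨ (h k = true ∧ x k = b k)}

theorem isClosed_fixS (a b : P2) (l h : Fin 2 → Bool) : IsClosed (fixS a b l h) := by
  have : fixS a b l h = Icc a b ∩ ⋃ k, (({x | l k = false ∧ x k = a k} ∪
      {x | h k = false ∧ x k = b k}) : Set P2) := by
    ext x; simp [fixS]
  rw [this]
  refine isClosed_Icc.inter (isClosed_iUnion_of_finite fun k => ?_)
  refine IsClosed.union ?_ ?_
  · rcases l k with _ | _
    · simp only [true_and]; exact isClosed_eq (continuous_apply k) continuous_const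
    · simp
  · rcases h k with _ | _
    · simp only [true_and]; exact isClosed_eq (continuous_apply k) continuous_const
    · simp

theorem movS_eq (a b : P2) (l h : Fin 2 → Bool) :
    movS a b l h = fixS a b (fun k => !l k) (fun k => !h k) := by
  ext x; simp [movS, fixS]

theorem isClosed_movS (a b : P2) (l h : Fin 2 → Bool) : IsClosed (movS a b l h) := by
  rw [movS_eq]; exact isClosed_fixS _ _ _ _

theorem mem_frontier_Icc {n : ℕ} {a b x : Fin n → ℝ} :
    x ∈ frontier (Icc a b) ↔ x ∈ Icc a b ∧ ∃ k, x k = a k ∨ x k = b k := by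
  rw [isClosed_Icc.frontier_eq, interior_Icc_pi']
  constructor
  · rintro ⟨h1, h2⟩
    refine ⟨h1, ?_⟩
    by_contra hcon
    push Not at hcon
    exact h2 fun k => ⟨lt_of_le_of_ne (h1.1 k) (Ne.symm (hcon k).1),
      lt_of_le_of_ne (h1.2 k) (hcon k).2⟩
  · rintro ⟨h1, k, h2⟩
    refine ⟨h1, fun h3 => ?_⟩
    rcases h2 with h2 | h2
    · exact (h3 k).1.ne' h2
    · exact (h3 k).2.ne h2

theorem fixS_union_movS {a b : P2} (l h : Fin 2 → Bool) :
    fixS a b l h ∪ movS a b l h = frontier (Icc a b) := by
  ext x
  rw [mem_frontier_Icc]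
  constructor
  · rintro (⟨h1, k, h2 | h2⟩ | ⟨h1, k, h2 | h2⟩)
    · exact ⟨h1, k, Or.inl h2.2⟩
    · exact ⟨h1, k, Or.inr h2.2⟩
    · exact ⟨h1, k, Or.inl h2.2⟩
    · exact ⟨h1, k, Or.inr h2.2⟩
  · rintro ⟨h1, k, h2 | h2⟩
    · rcases hb : l k with _ | _
      · exact Or.inl ⟨h1, k, Or.inl ⟨hb, h2⟩⟩
      · exact Or.inr ⟨h1, k, Or.inl ⟨hb, h2⟩⟩
    · rcases hb : h k with _ | _
      · exact Or.inl ⟨h1, k, Or.inr ⟨hb, h2⟩⟩
      · exact Or.inr ⟨h1, k, Or.inr ⟨hb, h2⟩⟩

/-- the two arcs of the boundary of a rectangle -/
theorem exists_arcs_rect {a b : P2} (hab : ∀ k, a k < b k) {l h : Fin 2 → Bool}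
    (hlh : ∃ i, l i ≠ h i) :
    ∃ p q, p ≠ q ∧ fixS a b l h ∩ movS a b l h = {p, q} ∧ ¬ fixS a b l h ⊆ {p, q} ∧
      ¬ movS a b l h ⊆ {p, q} := by
  obtain ⟨i, hi⟩ := hlh
  obtain ⟨j, hij, hk⟩ : ∃ j : Fin 2, j ≠ i ∧ ∀ k, k = i ∨ k = j := by
    fin_cases i
    · exact ⟨1, by decide, by decide⟩
    · exact ⟨0, by decide, by decide⟩
  have hext : ∀ {x y : P2}, x = y ↔ x i = y i ∧ x j = y j := by
    intro x y
    constructor
    · rintro rfl; exact ⟨rfl, rfl⟩
    · rintro ⟨h1, h2⟩
      funext k
      rcases hk k with rfl | rfl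
      · exact h1
      · exact h2
  have hIcc : ∀ {x : P2}, x ∈ Icc a b ↔ (a i ≤ x i ∧ x i ≤ b i) ∧ a j ≤ x j ∧ x j ≤ b j := by
    intro x
    constructor
    · rintro ⟨h1, h2⟩; exact ⟨⟨h1 i, h2 i⟩, h1 j, h2 j⟩
    · rintro ⟨⟨h1, h2⟩, h3, h4⟩
      constructor <;> intro k <;> rcases hk k with rfl | rfl <;> assumption
  have hex : ∀ {P : Fin 2 → Prop}, (∃ k, P k) ↔ P i ∨ P j := by
    intro P
    constructor
    · rintro ⟨k, hP⟩
      rcases hk k with rfl | rfl
      · exact Or.inl hP
      · exact Or.inr hP
    · rintro (h | h)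
      · exact ⟨i, h⟩
      · exact ⟨j, h⟩
  have hmk : ∀ s t : ℝ, ∃ x : P2, x i = s ∧ x j = t := fun s t =>
    ⟨fun k => if k = i then s else t, by simp, by simp [hij]⟩
  have hai := hab i
  have haj := hab j
  -- the four boolean values
  rcases hli : l i with _ | _ <;> rcases hhi : h i with _ | _
  · exact absurd (hli.trans hhi.symm) hi
  · obtain ⟨p, hp1, hp2⟩ := hmk (if l j then a i else b i) (a j)
    obtain ⟨q, hq1, hq2⟩ := hmk (if h j then a i else b i) (b j)
    obtain ⟨u, hu1, hu2⟩ := hmk (a i) ((a j + b j) / 2)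
    obtain ⟨w, hw1, hw2⟩ := hmk (b i) ((a j + b j) / 2)
    refine ⟨p, q, ?_, ?_, ?_, ?_⟩
    · rw [Ne, hext, hp2, hq2]; rintro ⟨-, h⟩; exact haj.ne h
    · ext x
      simp only [fixS, movS, mem_inter_iff, mem_ofPred_eq, mem_insert_iff, mem_singleton_iff]
      rw [hIcc, hex, hex, hext, hext, hp1, hp2, hq1, hq2, hli, hhi]
      rcases hlj : l j with _ | _ <;> rcases hhj : h j with _ | _ <;> simp <;> grind
    · intro hs
      have : u ∈ fixS a b l h := ⟨hIcc.2 ⟨⟨hu1.ge, hu1.le.trans hai.le⟩, by rw [hu2]; constructor <;> linarith⟩,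
        i, Or.inl ⟨hli, hu1⟩⟩
      rcases hs this with h | h
      · rw [h] at hu2; linarith
      · rw [mem_singleton_iff.1 h] at hu2; linarith
    · intro hs
      have : w ∈ movS a b l h := ⟨hIcc.2 ⟨⟨hai.le.trans hw1.ge, hw1.le⟩, by rw [hw2]; constructor <;> linarith⟩,
        i, Or.inr ⟨hhi, hw1⟩⟩
      rcases hs this with h | h
      · rw [h] at hw2; linarith
      · rw [mem_singleton_iff.1 h] at hw2; linarith
  · obtain ⟨p, hp1, hp2⟩ := hmk (if l j then b i else a i) (a j)
    obtain ⟨q, hq1, hq2⟩ := hmk (if h j then b i else a i) (b j)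
    obtain ⟨u, hu1, hu2⟩ := hmk (b i) ((a j + b j) / 2)
    obtain ⟨w, hw1, hw2⟩ := hmk (a i) ((a j + b j) / 2)
    refine ⟨p, q, ?_, ?_, ?_, ?_⟩
    · rw [Ne, hext, hp2, hq2]; rintro ⟨-, h⟩; exact haj.ne h
    · ext x
      simp only [fixS, movS, mem_inter_iff, mem_ofPred_eq, mem_insert_iff, mem_singleton_iff]
      rw [hIcc, hex, hex, hext, hext, hp1, hp2, hq1, hq2, hli, hhi]
      rcases hlj : l j with _ | _ <;> rcases hhj : h j with _ | _ <;> simp <;> grind
    · intro hs
      have : u ∈ fixS a b l h := ⟨hIcc.2 ⟨⟨hai.le.trans hu1.ge, hu1.le⟩, by rw [hu2]; constructor <;> linarith⟩,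
        i, Or.inr ⟨hhi, hu1⟩⟩
      rcases hs this with h | h
      · rw [h] at hu2; linarith
      · rw [mem_singleton_iff.1 h] at hu2; linarith
    · intro hs
      have : w ∈ movS a b l h := ⟨hIcc.2 ⟨⟨hw1.ge, hw1.le.trans hai.le⟩, by rw [hw2]; constructor <;> linarith⟩,
        i, Or.inl ⟨hli, hw1⟩⟩
      rcases hs this with h | h
      · rw [h] at hw2; linarith
      · rw [mem_singleton_iff.1 h] at hw2; linarith
  · exact absurd (hli.trans hhi.symm) hi

/-- the sides of a rectangle are arcs -/
theorem conBall_sides {a b : P2} (hab : ∀ k, a k < b k) {l h : Fin 2 → Bool}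
    (hlh : ∃ i, l i ≠ h i) :
    ConBall 1 (fixS a b l h) (fixS a b l h ∩ movS a b l h) ∧
      ConBall 1 (movS a b l h) (fixS a b l h ∩ movS a b l h) := by
  obtain ⟨p, q, hpq, hpe, h1, h2⟩ := exists_arcs_rect hab hlh
  have hS : ConSphere 1 (frontier (Icc a b)) := (conBall_Icc_pi two_ne_zero hab).conSphere
  have := IsCircle.split_closed (conSphere_iff.1 hS) (isClosed_fixS a b l h)
    (isClosed_movS a b l h) (fixS_union_movS l h) hpe hpq h1 h2
  rw [hpe]
  exact ⟨isArc_iff_conBall.1 this.1, isArc_iff_conBall.1 this.2⟩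

/-- **Cutting a rectangular notch**: the closed box `Icc α β` and its slightly larger copies meet the
disc `D` in rectangles; sides with `l k` (resp. `h k`) move with the box, the other sides are on the
frontier of `D`. Some pair of opposite sides consists of a fixed side and a moving side. -/
theorem notch {D : Set P2} (hD : ConBall 2 D (frontier D)) {α β a b : P2} {l h : Fin 2 → Bool}
    {δ : ℝ} (hδ : 0 < δ) (hab : ∀ k, a k < b k)
    (hl : ∀ k, if l k then a k = α k else α k < a k)
    (hh : ∀ k, if h k then b k = β k else b k < β k)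
    (hrect : ∀ t ∈ Icc 0 δ, D ∩ Icc (fun k => α k - t) (fun k => β k + t) =
      Icc (fun k => a k - if l k then t else 0) (fun k => b k + if h k then t else 0))
    (hlh : ∃ i, l i ≠ h i) :
    ConBall 2 (D \ {x | ∀ k, α k < x k ∧ x k < β k})
      (frontier (D \ {x | ∀ k, α k < x k ∧ x k < β k})) := by
  have hrect0 : D ∩ Icc α β = Icc a b := by
    have := hrect 0 ⟨le_refl _, hδ.le⟩
    simpa using this
  have hR : ConBall 2 (Icc a b) (frontier (Icc a b)) := conBall_Icc_pi two_ne_zero hab
  have hRD : Icc a b ⊆ D := hrect0 ▸ inter_subset_left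
  have hRA : Icc a b ⊆ Icc α β := hrect0 ▸ inter_subset_right
  have hDc : IsClosed D := hD.isClosed
  have hαa : ∀ k, α k ≤ a k := fun k => by
    have := hl k
    split_ifs at this
    · exact this.ge
    · exact this.le
  have hbβ : ∀ k, b k ≤ β k := fun k => by
    have := hh k
    split_ifs at this
    · exact this.le
    · exact this.le
  -- the fixed sides are on the frontier
  have hE : frontier (Icc a b) ∩ frontier D = fixS a b l h := by
    ext x
    constructor
    · rintro ⟨h1, h2⟩
      rw [mem_frontier_Icc] at h1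
      refine ⟨h1.1, ?_⟩
      by_contra hcon
      push Not at hcon
      apply h2.2
      -- a margin
      have hl' : ∀ k, l k = false → a k < x k := fun k hk =>
        lt_of_le_of_ne (h1.1.1 k) (Ne.symm ((hcon k).1 hk))
      have hh' : ∀ k, h k = false → x k < b k := fun k hk =>
        lt_of_le_of_ne (h1.1.2 k) ((hcon k).2 hk)
      obtain ⟨η, hη, hη1, hη2⟩ : ∃ η > 0, (∀ k, l k = false → a k + η < x k) ∧
          ∀ k, h k = false → x k + η < b k := by
        have key : ∀ k : Fin 2, ∀ᶠ η : ℝ in 𝓝[>] 0, (l k = false → a k + η < x k) ∧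
            (h k = false → x k + η < b k) := by
          intro k
          refine Filter.Eventually.and ?_ ?_
          · by_cases hk : l k = false
            · have h3 := hl' k hk
              have : ∀ᶠ η : ℝ in 𝓝 0, a k + η < x k := by
                have h4 : Tendsto (fun η : ℝ => a k + η) (𝓝 0) (𝓝 (a k + 0)) := by
                  exact (continuous_const.add continuous_id).tendsto 0
                rw [add_zero] at h4
                exact h4.eventually (gt_mem_nhds h3)
              exact (this.filter_mono nhdsWithin_le_nhds).mono fun η h _ => h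
            · exact Filter.Eventually.of_forall fun η h => absurd h hk
          · by_cases hk : h k = false
            · have h3 := hh' k hk
              have : ∀ᶠ η : ℝ in 𝓝 0, x k + η < b k := by
                have h4 : Tendsto (fun η : ℝ => x k + η) (𝓝 0) (𝓝 (x k + 0)) := by
                  exact (continuous_const.add continuous_id).tendsto 0
                rw [add_zero] at h4
                exact h4.eventually (gt_mem_nhds h3)
              exact (this.filter_mono nhdsWithin_le_nhds).mono fun η h _ => h
            · exact Filter.Eventually.of_forall fun η h => absurd h hk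
        obtain ⟨η, h5, h6⟩ := ((Filter.eventually_all.2 key).and
          (self_mem_nhdsWithin (s := Ioi (0:ℝ)))).exists
        exact ⟨η, h6, fun k => (h5 k).1, fun k => (h5 k).2⟩
      rw [mem_interior_iff_mem_nhds]
      refine Metric.mem_nhds_iff.2 ⟨min η δ, lt_min hη hδ, fun y hy => ?_⟩
      have hy' : ∀ k, |y k - x k| ≤ min η δ := by
        intro k
        have h3 : ‖y - x‖ < min η δ := by rw [← dist_eq_norm]; exact hy
        have h4 := norm_le_pi_norm (y - x) k
        rw [Real.norm_eq_abs, Pi.sub_apply] at h4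
        linarith
      have hmem : y ∈ Icc (fun k => a k - if l k then δ else 0)
          (fun k => b k + if h k then δ else 0) := by
        constructor
        · intro k
          show a k - (if l k then δ else 0) ≤ y k
          have h3 := (abs_le.1 (hy' k)).1
          have h4 := min_le_left η δ
          have h5 := min_le_right η δ
          have h6 := h1.1.1 k
          rcases hk : l k with _ | _
          · have := hη1 k hk; simp; linarith
          · simp; linarith
        · intro k
          show y k ≤ b k + (if h k then δ else 0)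
          have h3 := (abs_le.1 (hy' k)).2
          have h4 := min_le_left η δ
          have h5 := min_le_right η δ
          have h6 := h1.1.2 k
          rcases hk : h k with _ | _
          · have := hη2 k hk; simp; linarith
          · simp; linarith
      rw [← hrect δ ⟨hδ.le, le_refl _⟩] at hmem
      exact hmem.1
    · rintro ⟨h1, k, h2⟩
      refine ⟨mem_frontier_Icc.2 ⟨h1, k, ?_⟩, subset_closure (hRD h1), fun hxi => ?_⟩
      · rcases h2 with h2 | h2
        · exact Or.inl h2.2
        · exact Or.inr h2.2
      obtain ⟨r, hr, hball⟩ := Metric.mem_nhds_iff.1 (mem_interior_iff_mem_nhds.1 hxi)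
      rcases h2 with ⟨hk, hxk⟩ | ⟨hk, hxk⟩
      · -- move below the lower fixed side
        have hαk : α k < a k := by have := hl k; rw [hk] at this; simpa using this
        set s := min (r / 2) (a k - α k) with hs
        have hs0 : 0 < s := lt_min (half_pos hr) (sub_pos.2 hαk)
        have hs1 : s ≤ r / 2 := min_le_left _ _
        have hs2 : s ≤ a k - α k := min_le_right _ _
        have hyD : Function.update x k (x k - s) ∈ D := by
          apply hball
          rw [mem_ball, dist_eq_norm]
          refine lt_of_le_of_lt ((pi_norm_le_iff_of_nonneg (by linarith : (0:ℝ) ≤ r / 2)).2 ?_)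
            (by linarith)
          intro k'
          rw [Pi.sub_apply]
          by_cases hkk : k' = k
          · subst hkk
            rw [Function.update_self, sub_sub_cancel_left, norm_neg, Real.norm_of_nonneg hs0.le]
            exact hs1
          · rw [Function.update_of_ne hkk, sub_self, norm_zero]; linarith
        have hyA : Function.update x k (x k - s) ∈ Icc α β := by
          have h3 := hRA h1
          constructor
          · intro k'
            by_cases hkk : k' = k
            · subst hkk; rw [Function.update_self, hxk]; linarith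
            · rw [Function.update_of_ne hkk]; exact h3.1 k'
          · intro k'
            by_cases hkk : k' = k
            · subst hkk; rw [Function.update_self]; have := h3.2 k'; linarith
            · rw [Function.update_of_ne hkk]; exact h3.2 k'
        have h4 : Function.update x k (x k - s) ∈ Icc a b := hrect0 ▸ ⟨hyD, hyA⟩
        have h5 := h4.1 k
        rw [Function.update_self, hxk] at h5
        linarith
      · have hβk : b k < β k := by have := hh k; rw [hk] at this; simpa using this
        set s := min (r / 2) (β k - b k) with hs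
        have hs0 : 0 < s := lt_min (half_pos hr) (sub_pos.2 hβk)
        have hs1 : s ≤ r / 2 := min_le_left _ _
        have hs2 : s ≤ β k - b k := min_le_right _ _
        have hyD : Function.update x k (x k + s) ∈ D := by
          apply hball
          rw [mem_ball, dist_eq_norm]
          refine lt_of_le_of_lt ((pi_norm_le_iff_of_nonneg (by linarith : (0:ℝ) ≤ r / 2)).2 ?_)
            (by linarith)
          intro k'
          rw [Pi.sub_apply]
          by_cases hkk : k' = k
          · subst hkk
            rw [Function.update_self, add_sub_cancel_left, Real.norm_of_nonneg hs0.le]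
            exact hs1
          · rw [Function.update_of_ne hkk, sub_self, norm_zero]; linarith
        have hyA : Function.update x k (x k + s) ∈ Icc α β := by
          have h3 := hRA h1
          constructor
          · intro k'
            by_cases hkk : k' = k
            · subst hkk; rw [Function.update_self]; have := h3.1 k'; linarith
            · rw [Function.update_of_ne hkk]; exact h3.1 k'
          · intro k'
            by_cases hkk : k' = k
            · subst hkk; rw [Function.update_self, hxk]; linarith
            · rw [Function.update_of_ne hkk]; exact h3.2 k'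
        have h4 : Function.update x k (x k + s) ∈ Icc a b := hrect0 ▸ ⟨hyD, hyA⟩
        have h5 := h4.2 k
        rw [Function.update_self, hxk] at h5
        linarith
  obtain ⟨c1, c2⟩ := conBall_sides hab hlh
  have hmain := sub_disc hD hR hRD hE (fixS_union_movS l h) c2 rfl
  have hcl : closure (D \ Icc a b) = D \ {x | ∀ k, α k < x k ∧ x k < β k} := by
    rw [hmain.2.2.1]
    ext x
    constructor
    · rintro (⟨h1, h2⟩ | ⟨h1, k, h2⟩)
      · refine ⟨h1, fun h3 => h2 ?_⟩
        rw [← hrect0]
        exact ⟨h1, fun k => (h3 k).1.le, fun k => (h3 k).2.le⟩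
      · refine ⟨hRD h1, fun h3 => ?_⟩
        rcases h2 with ⟨hk, hxk⟩ | ⟨hk, hxk⟩
        · have := hl k
          rw [hk] at this
          simp only [if_true] at this
          have h4 := (h3 k).1
          linarith
        · have := hh k
          rw [hk] at this
          simp only [if_true] at this
          have h4 := (h3 k).2
          linarith
    · rintro ⟨h1, h2⟩
      by_cases h3 : x ∈ Icc a b
      · right
        refine ⟨h3, ?_⟩
        by_contra hcon
        push Not at hcon
        apply h2
        intro k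
        constructor
        · rcases hk : l k with _ | _
          · have := hl k
            rw [hk] at this
            simp only [Bool.false_eq_true, if_false] at this
            exact this.trans_le (h3.1 k)
          · have := hl k
            rw [hk] at this
            simp only [if_true] at this
            rw [← this]
            exact lt_of_le_of_ne (h3.1 k) (Ne.symm ((hcon k).1 hk))
        · rcases hk : h k with _ | _
          · have := hh k
            rw [hk] at this
            simp only [Bool.false_eq_true, if_false] at this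
            exact (h3.2 k).trans_lt this
          · have := hh k
            rw [hk] at this
            simp only [if_true] at this
            rw [← this]
            exact lt_of_le_of_ne (h3.2 k) ((hcon k).2 hk)
      · exact Or.inl ⟨h1, h3⟩
  rw [← hcl]
  exact hmain.1

end P073.H339
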