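import Vale.Agent.P073.H339.SpecPlanar

/-!
# P073 / H339: `SpecAnnulus` of `PA691/Spec.lean`
-/

set_option linter.unusedSectionVars false

open Set Metric Topology Filter

namespace P073.H339

open PA691 (ConAnn AnnDisc S1 P2 Q0)

/-- chart of the annulus `S1 × [-1,1]` onto the planar annulus `1/2 ≤ ‖x‖ ≤ 1` -/
noncomputable def annChart :
    ConHomeo (S1 ×ˢ Icc (-1:ℝ) 1) (pairHomeo.symm.toFun '' {x : P2 | ‖x‖ ∈ Icc (1 / 2 : ℝ) 1}) :=
  (((ConHomeo.refl (conicalSet_sphere_pi 2)).prod (ConHomeo.affIcc (by norm_num : (-1:ℝ) < 1)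
    (by norm_num : (1/2:ℝ) < 1))).trans (annHomeo 2)).trans
    (pairHomeo.symm.restr (annHomeo 2).conicalSet_right (subset_univ _))

theorem annChart_norm {p : P2 × ℝ} (hp : p ∈ S1 ×ˢ Icc (-1:ℝ) 1) :
    ‖annChart.toFun p‖ = (3 + p.2) / 4 := by
  have h1 : ((ConHomeo.refl (conicalSet_sphere_pi 2)).prod (ConHomeo.affIcc
      (by norm_num : (-1:ℝ) < 1) (by norm_num : (1/2:ℝ) < 1))).toFun p ∈
      sphere (0 : Fin 2 → ℝ) 1 ×ˢ Icc (1 / 2 : ℝ) 1 := ConHomeo.mapsTo _ hp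
  have h2 := norm_annHomeo h1
  refine (pairHomeo_inv_norm _).trans (h2.trans ?_)
  show 1 / 2 + (p.2 - -1) / (1 - -1) * (1 - 1 / 2) = (3 + p.2) / 4
  ring

/-- the planar annulus -/
def KA : Set (ℝ × ℝ) := {x | ‖x‖ ∈ Icc (1 / 2 : ℝ) 1}

theorem annChart_target :
    pairHomeo.symm.toFun '' {x : P2 | ‖x‖ ∈ Icc (1 / 2 : ℝ) 1} = KA := by
  ext y
  constructor
  · rintro ⟨x, hx, rfl⟩
    show ‖pairHomeo.symm.toFun x‖ ∈ Icc (1 / 2 : ℝ) 1
    have : ‖pairHomeo.symm.toFun x‖ = ‖x‖ := pairHomeo_inv_norm x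
    rw [this]; exact hx
  · intro hy
    refine ⟨pairHomeo.toFun y, ?_, pairHomeo.left_inv (mem_univ y)⟩
    show ‖pairHomeo.toFun y‖ ∈ Icc (1 / 2 : ℝ) 1
    rw [pairHomeo_norm]; exact hy

/-- the chart with its target -/
noncomputable def ac : ConHomeo (S1 ×ˢ Icc (-1:ℝ) 1) KA := annChart.cast rfl annChart_target

theorem ac_norm {p : P2 × ℝ} (hp : p ∈ S1 ×ˢ Icc (-1:ℝ) 1) : ‖ac.toFun p‖ = (3 + p.2) / 4 :=
  annChart_norm hp

theorem ac_symm_snd {x : ℝ × ℝ} (hx : x ∈ KA) : (ac.invFun x).2 = 4 * ‖x‖ - 3 := by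
  have h1 := ac_norm (ac.mapsTo_inv hx)
  rw [ac.right_inv hx] at h1
  linarith

theorem ac_symm_fst {x : ℝ × ℝ} (hx : x ∈ KA) : (ac.invFun x).1 ∈ S1 := (ac.mapsTo_inv hx).1

/-- the open annulus in the plane -/
def OA : Set (ℝ × ℝ) := {x | ‖x‖ ∈ Ioo (1 / 2 : ℝ) 1}

theorem isOpen_OA : IsOpen OA := (isOpen_Ioo (a := (1/2:ℝ)) (b := 1)).preimage continuous_norm

theorem OA_subset : OA ⊆ KA := fun _ hx => ⟨hx.1.le, hx.2.le⟩

theorem mem_OA {p : P2 × ℝ} (hp : p ∈ S1 ×ˢ Icc (-1:ℝ) 1) :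
    ac.toFun p ∈ OA ↔ p.2 ∈ Ioo (-1:ℝ) 1 := by
  show ‖ac.toFun p‖ ∈ Ioo (1 / 2 : ℝ) 1 ↔ _
  rw [ac_norm hp, mem_Ioo, mem_Ioo]
  constructor
  · rintro ⟨h1, h2⟩; constructor <;> linarith
  · rintro ⟨h1, h2⟩; constructor <;> linarith

theorem ac_inv_mem {x : ℝ × ℝ} (hx : x ∈ OA) : ac.invFun x ∈ S1 ×ˢ Ioo (-1:ℝ) 1 := by
  refine ⟨ac_symm_fst (OA_subset hx), ?_⟩
  have h1 := (mem_OA (ac.mapsTo_inv (OA_subset hx))).1 (by rw [ac.right_inv (OA_subset hx)]; exact hx)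
  exact h1

theorem ac_maps {p : P2 × ℝ} (hp : p ∈ S1 ×ˢ Ioo (-1:ℝ) 1) : ac.toFun p ∈ OA :=
  (mem_OA ⟨hp.1, hp.2.1.le, hp.2.2.le⟩).2 hp.2

theorem open_sub : (S1 ×ˢ Ioo (-1:ℝ) 1 : Set (P2 × ℝ)) ⊆ S1 ×ˢ Icc (-1:ℝ) 1 :=
  prod_mono_right Ioo_subset_Icc_self

theorem ac_symm_image_image {S : Set (P2 × ℝ)} (hS : S ⊆ S1 ×ˢ Icc (-1:ℝ) 1) :
    ac.symm.toFun '' (ac.toFun '' S) = S := GB200.image_image_symm ac hS

theorem ac_image_symm_image {S : Set (ℝ × ℝ)} (hS : S ⊆ KA) :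
    ac.toFun '' (ac.symm.toFun '' S) = S := GB200.image_symm_image ac hS

theorem isOpen_ac_image {U : Set (P2 × ℝ)} (hU : IsOpen U) :
    IsOpen (ac.toFun '' (U ∩ S1 ×ˢ Ioo (-1:ℝ) 1)) := by
  obtain ⟨W, hW, hWe⟩ := continuousOn_iff'.1 ac.cont_inv U hU
  have : ac.toFun '' (U ∩ S1 ×ˢ Ioo (-1:ℝ) 1) = W ∩ OA := by
    ext x
    constructor
    · rintro ⟨p, ⟨hpU, hp⟩, rfl⟩
      have h1 : ac.toFun p ∈ ac.invFun ⁻¹' U ∩ KA := by
        refine ⟨?_, ac.mapsTo (open_sub hp)⟩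
        show ac.invFun (ac.toFun p) ∈ U
        rw [ac.left_inv (open_sub hp)]; exact hpU
      rw [hWe] at h1
      exact ⟨h1.1, ac_maps hp⟩
    · rintro ⟨h1, h2⟩
      have h3 : x ∈ ac.invFun ⁻¹' U ∩ KA := by rw [hWe]; exact ⟨h1, OA_subset h2⟩
      exact ⟨ac.invFun x, ⟨h3.1, ac_inv_mem h2⟩, ac.right_inv (OA_subset h2)⟩
  rw [this]
  exact hW.inter isOpen_OA

/-- characterisation of the disc bounded by a curve -/
theorem JDisc.eq_of_open {D C E : Set (ℝ × ℝ)} (h : JDisc D C) (hE : IsCompact E) (hCE : C ⊆ E)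
    (hopen : IsOpen (E \ C)) (hne : (E \ C).Nonempty) : E = D := by
  have hfr : frontier E ⊆ C := by
    intro x hx
    by_contra hxC
    have hxE : x ∈ E := hE.isClosed.frontier_subset hx
    exact hx.2 (interior_maximal Set.sdiff_subset hopen ⟨hxE, hxC⟩)
  have hED : E ⊆ D := by
    have h1 := GB200.in_or_out (A := E) h.ext_conn (disjoint_left.2 fun x hx hx' =>
      hx (h.bdry_subset (hfr hx')))
    rcases h1 with h1 | h1
    · exact absurd (hE.isBounded.subset (h1.trans interior_subset)) h.not_bounded_compl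
    · intro x hx
      by_contra hxD
      exact disjoint_left.1 h1 hxD hx
  apply Subset.antisymm hED
  have h2 := GB200.in_or_out (A := E) h.int_conn (disjoint_left.2 fun x hx hx' =>
      h.interior_disj hx (hfr hx'))
  rcases h2 with h2 | h2
  · intro x hx
    by_cases hxC : x ∈ C
    · exact hCE hxC
    · exact interior_subset (h2 (h.mem_interior hx hxC))
  · exfalso
    obtain ⟨x, hx, hxC⟩ := hne
    exact disjoint_left.1 h2 (h.mem_interior (hED hx) hxC) hx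

/-- the image of a disc of the open annulus is an ambient disc of the plane -/
theorem AnnDisc.ambDisc {B γ : Set (P2 × ℝ)} (h : AnnDisc B γ) :
    AmbDisc (ac.toFun '' B) (ac.toFun '' γ) := by
  obtain ⟨hB, hBs, U, hU, hUe⟩ := h
  have hBI : B ⊆ S1 ×ˢ Icc (-1:ℝ) 1 := hBs.trans open_sub
  have hc : IsCircle (ac.toFun '' γ) :=
    IsCircle.image (conSphere_iff.1 hB.conSphere) ac (hB.1.trans hBI)
  obtain ⟨D, hD⟩ := sch _ hc
  have hB' : ConBall 2 (ac.toFun '' B) (ac.toFun '' γ) := hB.image ac hBI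
  have e : ac.toFun '' B \ ac.toFun '' γ = ac.toFun '' (U ∩ S1 ×ˢ Ioo (-1:ℝ) 1) := by
    rw [← hUe, (ac.injOn.mono hBI).image_sdiff_subset hB.1]
  have hne : (ac.toFun '' B \ ac.toFun '' γ).Nonempty := by
    by_contra hcon
    rw [not_nonempty_iff_eq_empty] at hcon
    have h1 := PT.subset_closure_int hB'
    rw [hcon, closure_empty, subset_empty_iff] at h1
    obtain ⟨φ⟩ := hc
    obtain ⟨z, hz⟩ := NormedSpace.sphere_nonempty (x := (0 : ℝ × ℝ)) (r := 1) |>.2 zero_le_one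
    have h2 := hB'.1 (φ.mapsTo hz)
    rw [h1] at h2
    exact h2
  have := JDisc.eq_of_open hD.jdisc hB'.isCompact hB'.1 (by rw [e]; exact isOpen_ac_image hU) hne
  rw [this]
  exact hD

theorem AmbDisc.annDisc {D γ' : Set (ℝ × ℝ)} (hD : AmbDisc D γ') (hDO : D ⊆ OA) :
    AnnDisc (ac.symm.toFun '' D) (ac.symm.toFun '' γ') := by
  have hDK : D ⊆ KA := hDO.trans OA_subset
  have hγK : γ' ⊆ KA := hD.jdisc.bdry_subset.trans hDK
  refine ⟨hD.conBall.image ac.symm hDK, ?_, ?_⟩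
  · rintro _ ⟨x, hx, rfl⟩
    exact ac_inv_mem (hDO hx)
  · obtain ⟨U, hU, hUe⟩ := continuousOn_iff'.1 ac.cont (interior D) isOpen_interior
    refine ⟨U, hU, ?_⟩
    rw [← (ac.symm.injOn.mono hDK).image_sdiff_subset hD.jdisc.bdry_subset, ← hD.jdisc.interior_eq]
    ext p
    constructor
    · rintro ⟨x, hx, rfl⟩
      have hxO : x ∈ OA := hDO (interior_subset hx)
      have h1 : ac.symm.toFun x ∈ ac.toFun ⁻¹' interior D ∩ S1 ×ˢ Icc (-1:ℝ) 1 := by
        refine ⟨?_, ac.symm.mapsTo (OA_subset hxO)⟩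
        show ac.toFun (ac.invFun x) ∈ interior D
        rw [ac.right_inv (OA_subset hxO)]; exact hx
      rw [hUe] at h1
      exact ⟨h1.1, ac_inv_mem hxO⟩
    · rintro ⟨h1, h2⟩
      have h3 : p ∈ ac.toFun ⁻¹' interior D ∩ S1 ×ˢ Icc (-1:ℝ) 1 := by
        rw [hUe]; exact ⟨h1, open_sub h2⟩
      exact ⟨ac.toFun p, h3.1, ac.left_inv h3.2⟩

/-- **(C2b)** -/
theorem specAnnulus : PA691.SpecAnnulus := by
  constructor
  · intro γ hγ hγs
    have hγI : γ ⊆ S1 ×ˢ Icc (-1:ℝ) 1 := hγs.trans open_sub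
    have hc : IsCircle (ac.toFun '' γ) := IsCircle.image (conSphere_iff.1 hγ) ac hγI
    obtain ⟨D, hD⟩ := sch _ hc
    have hγO : ac.toFun '' γ ⊆ OA := by
      rintro _ ⟨p, hp, rfl⟩; exact ac_maps (hγs hp)
    have hDb : D ⊆ ball 0 1 := by
      have h1 := jdisc_std.subset_interior_of_bdry hD.jdisc (by
        rw [interior_closedBall _ one_ne_zero]
        intro x hx
        rw [mem_ball_zero_iff]
        exact (hγO hx).2)
      rwa [interior_closedBall _ one_ne_zero] at h1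
    have hD₀ : IsPreconnected (closedBall (0 : ℝ × ℝ) (1 / 2)) := (convex_closedBall _ _).isPreconnected
    rcases hD.jdisc.in_or_out hD₀ (disjoint_left.2 fun x hx hx' => by
      rw [mem_closedBall_zero_iff] at hx
      exact absurd (hγO hx').1 (not_lt.2 hx)) with h | h
    · -- essential
      right
      intro τ hτ hγτ
      have hr1 : 1 / 2 < (3 + τ) / 4 := by linarith [hτ.1]
      have hr2 : (3 + τ) / 4 < 1 := by linarith [hτ.2]
      set r := (3 + τ) / 4 with hr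
      have hDr : AmbDisc (closedBall (0 : ℝ × ℝ) r) (sphere 0 r) :=
        ambDisc_closedBall 0 (by linarith)
      have hsub : ac.toFun '' γ ⊆ interior (closedBall (0 : ℝ × ℝ) r) := by
        rw [interior_closedBall _ (by linarith)]
        rintro _ ⟨p, hp, rfl⟩
        rw [mem_ball_zero_iff, ac_norm (hγI hp), hr]
        have : p.2 < τ := (hγτ hp).2
        linarith
      have h1 := conAnn_of_nested hDr hD hsub
      have hMK : closedBall (0 : ℝ × ℝ) r \ interior D ⊆ KA := by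
        rintro x ⟨hx, hx'⟩
        rw [mem_closedBall_zero_iff] at hx
        refine ⟨?_, hx.trans hr2.le⟩
        by_contra hcon
        push Not at hcon
        exact hx' (h (mem_closedBall_zero_iff.2 hcon.le))
      have h2 := h1.image ac.symm hMK
      rw [ac_symm_image_image hγI] at h2
      have h3 : ac.symm.toFun '' sphere 0 r = S1 ×ˢ {τ} := by
        ext p
        constructor
        · rintro ⟨x, hx, rfl⟩
          rw [mem_sphere_zero_iff_norm] at hx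
          have hxK : x ∈ KA := by
            show ‖x‖ ∈ Icc (1 / 2 : ℝ) 1
            rw [hx]; exact ⟨hr1.le, hr2.le⟩
          refine ⟨ac_symm_fst hxK, ?_⟩
          show (ac.invFun x).2 = τ
          rw [ac_symm_snd hxK, hx, hr]
          ring
        · rintro ⟨h3, h4⟩
          have h4' : p.2 = τ := h4
          have hp : p ∈ S1 ×ˢ Icc (-1:ℝ) 1 := ⟨h3, by rw [h4']; exact ⟨hτ.1.le, hτ.2.le⟩⟩
          refine ⟨ac.toFun p, ?_, ac.left_inv hp⟩
          rw [mem_sphere_zero_iff_norm, ac_norm hp, h4']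
      rw [h3] at h2
      refine ⟨_, h2, ?_⟩
      rintro _ ⟨x, hx, rfl⟩
      have hxK := hMK hx
      refine ⟨ac_symm_fst hxK, ?_⟩
      show (ac.invFun x).2 ∈ Ioc (-1) τ
      rw [ac_symm_snd hxK]
      have h4 : ‖x‖ ≤ r := mem_closedBall_zero_iff.1 hx.1
      have h5 : 1 / 2 < ‖x‖ := by
        by_contra hcon
        push Not at hcon
        exact hx.2 (h (mem_closedBall_zero_iff.2 hcon))
      constructor
      · linarith
      · rw [hr] at h4; linarith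
    · -- inessential
      left
      have hDO : D ⊆ OA := by
        intro x hx
        refine ⟨?_, mem_ball_zero_iff.1 (hDb hx)⟩
        by_contra hcon
        push Not at hcon
        exact disjoint_left.1 h (mem_closedBall_zero_iff.2 hcon) hx
      have h1 := hD.annDisc hDO
      rw [ac_symm_image_image hγI] at h1
      exact ⟨_, h1⟩
  · intro γ γ' B B' hB hB' hdis
    have hD := AnnDisc.ambDisc hB
    have hD' := AnnDisc.ambDisc hB'
    have hBI : B ⊆ S1 ×ˢ Icc (-1:ℝ) 1 := hB.2.1.trans open_sub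
    have hBI' : B' ⊆ S1 ×ˢ Icc (-1:ℝ) 1 := hB'.2.1.trans open_sub
    have hγI : γ ⊆ S1 ×ˢ Icc (-1:ℝ) 1 := hB.1.1.trans hBI
    have hγI' : γ' ⊆ S1 ×ˢ Icc (-1:ℝ) 1 := hB'.1.1.trans hBI'
    have hd : Disjoint (frontier (ac.toFun '' B)) (frontier (ac.toFun '' B')) := by
      rw [hD.frontier_eq, hD'.frontier_eq, disjoint_left]
      rintro _ ⟨p, hp, rfl⟩ ⟨q, hq, hpq⟩
      have := ac.injOn (hγI' hq) (hγI hp) hpq
      exact disjoint_left.1 hdis hp (this ▸ hq)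
    have key : ∀ S T : Set (P2 × ℝ), S ⊆ S1 ×ˢ Icc (-1:ℝ) 1 → T ⊆ S1 ×ˢ Icc (-1:ℝ) 1 →
        ac.toFun '' S ⊆ ac.toFun '' T → S ⊆ T := by
      intro S T hS hT h x hx
      obtain ⟨y, hy, hyx⟩ := h ⟨x, hx, rfl⟩
      have := ac.injOn (hT hy) (hS hx) hyx
      exact this ▸ hy
    rcases SCH.AmbDisc.nested hD.sch hD'.sch hd with h | h | h
    · left
      rw [hD'.jdisc.interior_eq, ← (ac.injOn.mono hBI').image_sdiff_subset hB'.1.1] at h
      exact key _ _ hBI (Set.sdiff_subset.trans hBI') h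
    · right; left
      rw [hD.jdisc.interior_eq, ← (ac.injOn.mono hBI).image_sdiff_subset hB.1.1] at h
      exact key _ _ hBI' (Set.sdiff_subset.trans hBI) h
    · right; right
      rw [disjoint_left]
      intro x hx hx'
      exact disjoint_left.1 h ⟨x, hx, rfl⟩ ⟨x, hx', rfl⟩

end P073.H339
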