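import Vale.Agent.P073.H339.DeltaTM3
import Vale.Agent.P073.TMD773.Easy

/-!
# P073, block TM-D: the specification `SpecDiscs`
-/

open Set Metric Topology Filter

namespace P073.PA691.BoxCx

open P073 PR720 PA691
open Vale.Agent.P073.St (V IsInv)

/-- **TM-D** -/
theorem specDiscs : P073.PA691.BoxCx.SpecDiscs := fun _ _ _ s _ _ _ hc hB =>
  P073.TMD773.discFacts_of_ball s hc hB (s.Δ_ball hc)

end P073.PA691.BoxCx
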