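import Vale.Agent.P073.H339.AnnHomeo
import Vale.Agent.P073.SCH.Nest
import Vale.Agent.P073.GB200.Cut

/-!
# P073 / H339: `SpecPlanar` and `SpecAnnulus` of `PA691/Spec.lean`
-/

set_option linter.unusedSectionVars false

open Set Metric Topology Filter

namespace P073.H339

open PA691 (ConAnn AnnDisc S1 P2 Q0)

theorem AmbDisc.sch {D C : Set (ℝ × ℝ)} (h : AmbDisc D C) : P073.AmbDisc D := by
  obtain ⟨Φ, h1, -⟩ := h
  exact ⟨Φ, h1⟩

theorem AmbDisc.frontier_eq {D C : Set (ℝ × ℝ)} (h : AmbDisc D C) : frontier D = C :=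
  h.jdisc.frontier_eq

/-- the linear homeomorphism between the two models of the plane -/
noncomputable def pe : (ℝ × ℝ) ≃ₜ P2 := toHomeo pairHomeo

theorem pe_norm (x : ℝ × ℝ) : ‖pe x‖ = ‖x‖ := pairHomeo_norm x

theorem pe_symm_norm (x : P2) : ‖pe.symm x‖ = ‖x‖ := by
  rw [← pe_norm, pe.apply_symm_apply]

/-- **(C2a)** -/
theorem specPlanar : PA691.SpecPlanar := by
  classical
  intro n γ hγ hdis hsub
  have hc : ∀ j, IsCircle (pairHomeo.symm.toFun '' γ j) := fun j =>
    IsCircle.image (conSphere_iff.1 (hγ j)) pairHomeo.symm (subset_univ _)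
  choose D hD using fun j => H339.sch _ (hc j)
  have im : ∀ S : Set P2, pe '' (pairHomeo.symm.toFun '' S) = S := by
    intro S
    rw [image_image]
    have : ∀ x ∈ S, pe (pairHomeo.symm.toFun x) = x := fun x _ => pairHomeo.right_inv (mem_univ x)
    rw [image_congr this, image_id']
  have hfr : ∀ j, frontier (D j) = pairHomeo.symm.toFun '' γ j := fun j => (hD j).frontier_eq
  have hdisD : ∀ i j, i ≠ j → Disjoint (frontier (D i)) (frontier (D j)) := by
    intro i j hij
    rw [hfr, hfr]
    exact (disjoint_image_iff (toHomeo pairHomeo.symm).injective).2 (hdis i j hij)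
  have hQ : P073.AmbDisc (closedBall (0 : ℝ × ℝ) 1) := ambDisc_std.sch
  have hDsub : ∀ j, D j ⊆ ball 0 1 := by
    intro j
    have h1 := SCH.AmbDisc.subset_interior_of_frontier (hD j).sch hQ (by
      rw [hfr, interior_closedBall _ one_ne_zero]
      rintro _ ⟨x, hx, rfl⟩
      have h2 := hsub j hx
      rw [mem_ball_zero_iff] at h2 ⊢
      exact (pe_symm_norm x).trans_lt h2)
    rwa [interior_closedBall _ one_ne_zero] at h1
  have hint : ∀ j, pe '' interior (D j) = pe '' D j \ γ j := by
    intro j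
    rw [(hD j).jdisc.interior_eq, image_sdiff pe.injective, im]
  have hnest : ∀ i j, i ≠ j → D i ⊆ interior (D j) ∨ D j ⊆ interior (D i) ∨
      Disjoint (D i) (D j) := fun i j hij =>
    SCH.AmbDisc.nested (hD i).sch (hD j).sch (hdisD i j hij)
  refine ⟨fun j => pe '' D j, ?_, ?_, ?_, ?_, ?_⟩
  · intro j
    have h1 := (hD j).conBall.image pairHomeo (subset_univ _)
    have h2 : pairHomeo.toFun '' (pairHomeo.symm.toFun '' γ j) = γ j := im (γ j)
    rw [h2] at h1
    exact h1
  · rintro j _ ⟨x, hx, rfl⟩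
    have h1 := hDsub j hx
    rw [mem_ball_zero_iff] at h1 ⊢
    rwa [pe_norm]
  · intro j
    show IsOpen (pe '' D j \ γ j)
    rw [← hint]
    exact pe.isOpenMap _ isOpen_interior
  · intro i j hij
    show pe '' D i ⊆ pe '' D j \ γ j ∨ pe '' D j ⊆ pe '' D i \ γ i ∨ Disjoint (pe '' D i) (pe '' D j)
    rw [← hint, ← hint]
    rcases hnest i j hij with h | h | h
    · exact Or.inl (image_mono h)
    · exact Or.inr (Or.inl (image_mono h))
    · exact Or.inr (Or.inr ((disjoint_image_iff pe.injective).2 h))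
  · intro s hs
    have hs' : ∀ i ∈ (s : Set (Fin n)), ∀ j ∈ (s : Set (Fin n)), i ≠ j → Disjoint (D i) (D j) := by
      intro i hi j hj hij
      exact (disjoint_image_iff pe.injective).1 (hs i hi j hj hij)
    have hU : (⋃ i ∈ s, pe '' D i) = pe '' ⋃ i ∈ (s : Set (Fin n)), D i := by
      rw [image_iUnion₂]; rfl
    constructor
    · obtain ⟨h1, h2⟩ := SCH.isPreconnected_sdiff_biUnion (isOpen_ball (x := (0 : ℝ × ℝ)) (ε := 1))
        (convex_ball _ _).isPreconnected s.finite_toSet (fun j _ => (hD j).sch)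
        (fun j _ => hDsub j) hs'
      have hQ0 : (Q0 : Set P2) = pe '' closedBall (0 : ℝ × ℝ) 1 := by
        ext x
        constructor
        · intro hx
          refine ⟨pe.symm x, ?_, pe.apply_symm_apply x⟩
          rw [mem_closedBall_zero_iff, pe_symm_norm]
          exact mem_closedBall_zero_iff.1 hx
        · rintro ⟨y, hy, rfl⟩
          rw [mem_closedBall_zero_iff] at hy ⊢
          rwa [pe_norm]
      show IsPreconnected (Q0 \ ⋃ i ∈ s, pe '' D i)
      rw [hU, hQ0, ← image_sdiff pe.injective]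
      refine IsPreconnected.image ?_ _ pe.continuous.continuousOn
      refine h2.subset_closure ?_ ?_
      · exact sdiff_subset_sdiff_left ball_subset_closedBall
      · rintro x ⟨hx, hx'⟩
        have hcl : IsClosed (⋃ i ∈ (s : Set (Fin n)), D i) :=
          s.finite_toSet.isClosed_biUnion fun i _ => (hD i).jdisc.isClosed
        have h3 : x ∈ closure (ball (0 : ℝ × ℝ) 1) := by
          rwa [closure_ball _ one_ne_zero]
        have h4 := hcl.isOpen_compl.inter_closure ⟨hx', h3⟩
        refine closure_mono ?_ h4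
        rintro y ⟨hy1, hy2⟩
        exact ⟨hy2, hy1⟩
    · intro j hj
      have hj' : ∀ i ∈ (s : Set (Fin n)), D i ⊆ interior (D j) := by
        intro i hi
        have h1 : pe '' D i ⊆ pe '' D j \ γ j := hj i hi
        rw [← hint] at h1
        exact (image_subset_image_iff pe.injective).1 h1
      obtain ⟨h1, h2⟩ := SCH.isPreconnected_sdiff_biUnion (isOpen_interior (s := D j))
        (hD j).jdisc.int_conn s.finite_toSet (fun j _ => (hD j).sch) hj' hs'
      show IsPreconnected ((pe '' D j \ γ j) \ ⋃ i ∈ s, pe '' D i)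
      rw [hU, ← hint, ← image_sdiff pe.injective]
      exact h2.image _ pe.continuous.continuousOn

end P073.H339
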